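import Vale.Agent.P167.H756.Q2
import Vale.Agent.P167.H756.Flat
import Vale.Agent.P167.H327.OriG

/-!
# P167, general `q`, [EXQ]: the conformal quantities of a lattice polygon exist

`qpos_poly`: a counterclockwise lattice polygon with the marks `b` = midpoint of the side `0`,
`a` = midpoint of the side `k`, `c = q j`, `d = q l = 0`, `0 < k < j < l < m`, flat near `d`, has
conformal quantities `u`, `v`.
-/

set_option autoImplicit false

open Set Topology Metric Filter Bornology

namespace Vale.Agent.P167.H918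

open Vale.Agent.P153.R2.R1 Vale.Agent.P167.H756 Vale.Agent.P167.H327
open Vale.Agent.P167.E6

section

variable {m : ℕ} {q : ZMod m → ℤ × ℤ} {S : Finset (ℤ × ℤ)}

/-- The open squares of the faces are in the domain. -/
theorem open_face' {f : ℤ × ℤ} (hf : f ∈ S) {z : ℂ} (h1 : (f.1 : ℝ) < z.re)
    (h2 : z.re < f.1 + 1) (h3 : (f.2 : ℝ) < z.im) (h4 : z.im < f.2 + 1) :
    z ∈ D6 1 S := by
  rw [D6, mem_interior]
  refine ⟨{z : ℂ | (f.1 : ℝ) < z.re ∧ z.re < f.1 + 1 ∧ (f.2 : ℝ) < z.im ∧ z.im < f.2 + 1},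
    ?_, ?_, h1, h2, h3, h4⟩
  · rintro w ⟨g1, g2, g3, g4⟩
    exact ⟨f, hf, by linarith, by linarith, by linarith, by linarith⟩
  · exact (isOpen_lt continuous_const Complex.continuous_re).inter
      ((isOpen_lt Complex.continuous_re continuous_const).inter
        ((isOpen_lt continuous_const Complex.continuous_im).inter
          (isOpen_lt Complex.continuous_im continuous_const)))

/-- the curve on the side `i` -/
theorem curve_side (i : ℤ) {s : ℝ} (hs0 : 0 ≤ s) (hs1 : s ≤ 1) :
    PF6 q 1 (i + s) = pt (q i) + (s : ℂ) * pt (q (i + 1) - q i) := by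
  have h := pl_eq (PV6 q 1) i (x := i + s) (by linarith) (by linarith)
  rw [PF6, h]
  have e1 : PV6 q 1 i = pt (q i) := by simp [PV6]
  have e2 : PV6 q 1 (i + 1) = pt (q i) + pt (q (i + 1) - q i) := by
    simp only [PV6]
    push_cast
    apply Complex.ext <;> simp [pt]
  rw [e1, e2]
  simp only [Complex.real_smul]
  push_cast
  ring

theorem curve_int (i : ℤ) : PF6 q 1 i = pt (q i) := by
  have h := curve_side (q := q) i (s := 0) le_rfl zero_le_one
  simpa using h

/-- The curve of the polygon is straight in the middle of the side `i`, with the domain on the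
left. -/
theorem flat_mid (hq : IsPolygon q) (hE : Encloses q S) (i : ℤ) :
    H327.Flat (PF6 q 1) (D6 1 S) (i + 1 / 2) := by
  obtain ⟨r, hr⟩ := hq.2.2 i
  have hface : face (q i) r ∈ S := ((hE (q i) r).1 ⟨i, rfl, hr⟩).1
  set u : ℂ := pt (dir r) with hu
  have hcurve : ∀ s : ℝ, 0 ≤ s → s ≤ 1 → PF6 q 1 (i + s) = pt (q i) + s * u := by
    intro s hs0 hs1
    rw [curve_side i hs0 hs1, hr, add_sub_cancel_left]
  refine ⟨1 / 4, 1, u, by norm_num, one_pos, ?_, ?_⟩
  · intro y hy
    rw [one_mul, add_assoc, hcurve _ (by linarith [hy.1]) (by linarith [hy.2]),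
      hcurve _ (by norm_num) (by norm_num)]
    push_cast
    ring
  · intro x hx y hy
    rw [hcurve _ (by norm_num) (by norm_num)]
    have hx1 := hx.1
    have hx2 := hx.2
    have hy1 := hy.1
    have hy2 := hy.2
    rcases H192.fin4_cases r with rfl | rfl | rfl | rfl
    all_goals
      refine open_face' hface ?_ ?_ ?_ ?_ <;>
        simp [hu, face, dir, pt] <;> linarith

/-- The domain near a flat vertex. -/
theorem flatUp_zero (h : ∀ v : ℤ × ℤ, -1 ≤ v.1 → v.1 < 1 → -1 ≤ v.2 → v.2 < 1 →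
    (v ∈ S ↔ 0 ≤ v.2)) : FlatUp (D6 1 S) 0 (1 / 2) := by
  intro z hz
  rw [mem_ball_zero_iff] at hz
  have hre := (abs_le.1 (Complex.abs_re_le_norm z))
  have him := (abs_le.1 (Complex.abs_im_le_norm z))
  have hsub : ∀ w : ℂ, w ∈ region 1 S → |w.re| < 1 → -1 < w.im → w.im < 1 → 0 ≤ w.im := by
    rintro w ⟨f, hf, h1, h2, h3, h4⟩ h5 h6 h7
    rw [one_mul] at h1 h2 h3 h4
    rw [abs_lt] at h5
    by_contra hcon
    push Not at hcon
    have a1 : -1 ≤ f.1 := by
      have : (-2 : ℝ) < f.1 := by linarith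
      have : -2 < f.1 := by exact_mod_cast this
      omega
    have a2 : f.1 < 1 := by
      have : (f.1 : ℝ) < 1 := by linarith
      exact_mod_cast this
    have a3 : -1 ≤ f.2 := by
      have : (-2 : ℝ) < f.2 := by linarith
      have : -2 < f.2 := by exact_mod_cast this
      omega
    have a4 : f.2 < 0 := by
      have : (f.2 : ℝ) < 0 := by linarith
      exact_mod_cast this
    have := (h f a1 a2 a3 (by omega)).1 hf
    omega
  rw [Complex.zero_im]
  constructor
  · intro hz2
    by_contra hcon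
    push Not at hcon
    -- a point below
    have h1 : ∀ᶠ ε : ℝ in 𝓝[>] 0, z - (ε : ℂ) * Complex.I ∈ D6 1 S := by
      have hc : Tendsto (fun ε : ℝ => z - (ε : ℂ) * Complex.I) (𝓝[>] 0) (𝓝 z) := by
        have : Continuous fun ε : ℝ => z - (ε : ℂ) * Complex.I := by fun_prop
        have h2 := this.tendsto 0
        simp only [Complex.ofReal_zero, zero_mul, sub_zero] at h2
        exact h2.mono_left nhdsWithin_le_nhds
      exact hc.eventually ((isOpen_D6 1 S).mem_nhds hz2)
    have h2 : ∀ᶠ ε : ℝ in 𝓝[>] 0, ε < 1 / 4 :=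
      (gt_mem_nhds (show (0 : ℝ) < 1 / 4 by norm_num)).filter_mono nhdsWithin_le_nhds
    obtain ⟨ε, hε1, hε2, hε3⟩ := (h1.and (h2.and self_mem_nhdsWithin)).exists
    have hε0 : (0 : ℝ) < ε := hε3
    have h4 := hsub _ (interior_subset hε1) (by
      simp only [Complex.sub_re, Complex.mul_re, Complex.ofReal_re, Complex.I_re, mul_zero,
        Complex.ofReal_im, Complex.I_im, mul_one, sub_self, sub_zero]
      rw [abs_lt]
      constructor <;> linarith) (by simp; linarith) (by simp; linarith)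
    simp at h4
    linarith
  · intro h0
    have hm : ∀ v : ℤ × ℤ, v = (-1, 0) ∨ v = (0, 0) → v ∈ S := by
      rintro v (rfl | rfl)
      · exact (h (-1, 0) (by norm_num) (by norm_num) (by norm_num) (by norm_num)).2 le_rfl
      · exact (h (0, 0) (by norm_num) (by norm_num) (by norm_num) (by norm_num)).2 le_rfl
    rw [D6, mem_interior]
    refine ⟨{w : ℂ | -1 < w.re ∧ w.re < 1 ∧ 0 < w.im ∧ w.im < 1}, ?_, ?_, ?_⟩
    · rintro w ⟨g1, g2, g3, g4⟩
      rcases le_total w.re 0 with g5 | g5
      · exact ⟨(-1, 0), hm _ (Or.inl rfl), by push_cast; linarith, by push_cast; linarith,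
          by push_cast; linarith, by push_cast; linarith⟩
      · exact ⟨(0, 0), hm _ (Or.inr rfl), by push_cast; linarith, by push_cast; linarith,
          by push_cast; linarith, by push_cast; linarith⟩
    · exact (isOpen_lt continuous_const Complex.continuous_re).inter
        ((isOpen_lt Complex.continuous_re continuous_const).inter
          ((isOpen_lt continuous_const Complex.continuous_im).inter
            (isOpen_lt Complex.continuous_im continuous_const)))
    · exact ⟨by linarith, by linarith, h0, by linarith⟩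

/-- **[EXQ] The conformal quantities of a lattice polygon.** -/
theorem qpos_poly (hq : IsPolygon q) (hE : Encloses q S) {k j l : ℕ} (hk : 0 < k) (hkj : k < j)
    (hjl : j < l) (hlm : l < m) (hd : q l = (0, 0))
    (hflat : ∀ v : ℤ × ℤ, -1 ≤ v.1 → v.1 < 1 → -1 ≤ v.2 → v.2 < 1 → (v ∈ S ↔ 0 ≤ v.2))
    (h0 : q 1 = q 0 + (1, 0)) (hb : 1 ≤ |(q 0).1|) :
    ∃ u v, QPos (interior (region 1 S)) (pt (q k) + (1 / 2 : ℝ) * pt (q (k + 1) - q k))
      (pt (q 0) + 1 / 2) (pt (q j)) 0 u v := by
  have hG := good_D6 one_pos hq hE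
  have hF := jcurve_PF6 one_pos hq
  have hfr := frontier_D6 one_pos hq hE
  have hkR : (1 : ℝ) ≤ k := by exact_mod_cast hk
  have hkjR : (k : ℝ) + 1 ≤ j := by exact_mod_cast hkj
  have hjlR : (j : ℝ) + 1 ≤ l := by exact_mod_cast hjl
  have hlmR : (l : ℝ) + 1 ≤ m := by exact_mod_cast hlm
  set F := PF6 q 1 with hFdef
  set D := D6 1 S with hD
  have ea : F (k + 1 / 2) = pt (q k) + (1 / 2 : ℝ) * pt (q (k + 1) - q k) := by
    have := curve_side (q := q) (k : ℤ) (s := 1 / 2) (by norm_num) (by norm_num)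
    push_cast at this
    rw [hFdef]
    push_cast
    exact this
  have eb : F (1 / 2) = pt (q 0) + 1 / 2 := by
    have := curve_side (q := q) 0 (s := 1 / 2) (by norm_num) (by norm_num)
    push_cast at this
    rw [zero_add, zero_add, h0, add_sub_cancel_left] at this
    rw [hFdef, this]
    simp [pt]
    apply Complex.ext <;> simp
  have ec : F j = pt (q j) := by
    have := curve_int (q := q) (j : ℤ)
    push_cast at this
    exact this
  have ed : F l = 0 := by
    have := curve_int (q := q) (l : ℤ)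
    push_cast at this
    rw [hFdef, this, hd]
    apply Complex.ext <;> simp [pt]
  have hta : (k : ℝ) + 1 / 2 ∈ Ioo (1 / 2 : ℝ) (1 / 2 + m) := ⟨by linarith, by linarith⟩
  have htc : (j : ℝ) ∈ Ioo (1 / 2 : ℝ) (1 / 2 + m) := ⟨by linarith, by linarith⟩
  have htd : (l : ℝ) ∈ Ioo (1 / 2 : ℝ) (1 / 2 + m) := ⟨by linarith, by linarith⟩
  have hne : F (k + 1 / 2) ≠ F (1 / 2) := curve_ne hF hta
  obtain ⟨φ, hφ, -⟩ := hG.exists_isU hG.rdom.nonempty (a := F (k + 1 / 2)) (b := F (1 / 2))
    (by rw [hfr]; exact ⟨_, rfl⟩) (by rw [hfr]; exact ⟨_, rfl⟩) hne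
  have hmono := hpar_mono hφ hG.nocut hG.isOpen hF hfr (t₀ := ((1 : ℤ) : ℝ) + 1 / 2)
    (by push_cast; constructor <;> linarith) (flat_mid hq hE 1)
  have hspec := fun t ht => (hpar_spec hφ hG.nocut hG.isOpen hF hfr (t := t) ht)
  have hz : hpar φ F (k + 1 / 2) = 0 := by
    have h3 : F (k + 1 / 2) = φ 0 := hφ.zero.symm
    have h4 := (uni_of hφ hG.nocut)
    rw [hpar, h3]
    have h5 := ph_eq h4 (real_HC 0)
    rw [Complex.ofReal_zero] at h5
    rw [h5, Complex.zero_re]
  have hc0 : 0 < hpar φ F j := by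
    rw [← hz]
    exact hmono hta htc (by linarith)
  have hcd : hpar φ F j < hpar φ F l := hmono htc htd (by linarith)
  have hφc := (hspec j htc).1
  have hφd := (hspec l htd).1
  rw [ec] at hφc
  rw [ed] at hφd
  have hdist : 1 / 2 ≤ dist (F (1 / 2)) 0 := by
    rw [eb, dist_zero_right]
    refine le_trans ?_ (Complex.abs_re_le_norm _)
    have e : (pt (q 0) + 1 / 2 : ℂ).re = (q 0).1 + 1 / 2 := by
      simp [pt]
    rw [e]
    rcases le_abs.1 hb with h | h
    · have h' : (1 : ℝ) ≤ (q 0).1 := by exact_mod_cast h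
      rw [abs_of_nonneg (by linarith)]
      linarith
    · have h' : (1 : ℝ) ≤ -(q 0).1 := by exact_mod_cast h
      rw [abs_of_nonpos (by linarith)]
      linarith
  obtain ⟨B, hB, hder, -, -⟩ := flat_G hG hφ (by norm_num) (flatUp_zero hflat) hdist hφd
  rw [ea, eb] at hφ
  exact ⟨_, _, φ, hpar φ F j, hpar φ F l, B, hφ, hc0, hcd, hB, hφc, hφd, hder, rfl, rfl⟩

end

end Vale.Agent.P167.H918
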