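import Vale.Agent.P167.QT.Defs
import Vale.Agent.P167.H918.ExQ

/-!
# P167, general `q`, [EXQ]: every well formed shape has conformal quantities
-/

set_option autoImplicit false

namespace Vale.Agent.P167.H918

open Vale.Agent.P167.QT

/-- **[EXQ]** -/
theorem exq {P : Sh4} {ρ : ℕ} (hρ : 1 ≤ ρ) (h : P.Ok ρ) : ∃ u v, P.Pos u v := by
  have h1 := h.k_pos
  have h2 := h.k_lt
  have h3 := h.j_lt
  have h4 := h.l_lt
  have hl : P.q P.l = (0, 0) := by
    rw [h.line P.l (by omega) (by omega), sub_self]
  have hm := h.line P.m (by omega) (by omega)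
  have hm1 := h.line (P.m + 1) (by omega) le_rfl
  have e0 : ((P.m : ℕ) : ZMod P.m) = 0 := ZMod.natCast_self _
  push_cast at hm hm1
  rw [e0] at hm hm1
  rw [zero_add] at hm1
  refine qpos_poly h.poly h.encl h1 (by omega) (by omega) (by omega) hl ?_ ?_ ?_
  · intro v a1 a2 a3 a4
    exact h.flat v (by omega) (by omega) (by omega) (by omega)
  · rw [hm, hm1]
    ext
    · simp only [Prod.fst_add]
      ring
    · simp
  · rw [hm]
    simp only
    rw [abs_of_nonneg (by omega)]
    omega

end Vale.Agent.P167.H918
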