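import Vale.Agent.P167.H918.Fin
import Vale.Agent.P167.QT.Defs

/-!
# P167, general `q`, block GEO-ASM, [FIN]: finitely many shapes in a box
-/

set_option autoImplicit false

namespace Vale.Agent.P167.H918

/-- **[FIN]**: there are finitely many shapes in a box. -/
theorem finite_sh4 (ρ : ℕ) (B : ℤ) :
    {P : QT.Sh4 | P.Ok ρ ∧ ∀ i, |(P.q i).1| ≤ B ∧ |(P.q i).2| ≤ B}.Finite := by
  let g : QT.Sh4 → Dt := fun P => ⟨P.m, P.q, P.S, P.k, P.j, P.l⟩
  have hg : Function.Injective g := by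
    rintro ⟨m, q, S, k, j, l⟩ ⟨m', q', S', k', j', l'⟩ h
    simp only [g, Dt.mk.injEq] at h
    obtain ⟨rfl, hq, rfl, rfl, rfl, rfl⟩ := h
    obtain rfl := eq_of_heq hq
    rfl
  refine ((finite_dt B).preimage hg.injOn).subset ?_
  rintro P ⟨h, hB⟩
  have h1 := h.k_lt
  have h2 := h.j_lt
  have h3 := h.l_lt
  refine ⟨h.poly, h.encl, ?_, ?_, ?_, fun i => ?_⟩
  · show P.k ≤ P.m
    omega
  · show P.j ≤ P.m
    omega
  · show P.l ≤ P.m
    omega
  · exact ⟨(abs_le.1 (hB i).1).1, (abs_le.1 (hB i).1).2, (abs_le.1 (hB i).2).1,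
      (abs_le.1 (hB i).2).2⟩

end Vale.Agent.P167.H918
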