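import Vale.Agent.P167.H918.All
import Vale.Agent.P167.H446.G.Asm

/-!
# P167, general `q`, [ALL] in the form of [GEO-ASM]
-/

set_option autoImplicit false

namespace Vale.Agent.P167.H918

/-- **[ALL]** -/
theorem b_all {μ : ℝ} (hμ : 1 ≤ 2 * Real.cos μ) (hRSW : FK.RSW (2 * Real.cos μ))
    (hSRSW : H192.Q.SRSW (2 * Real.cos μ)) : H446.G.B_all μ :=
  fun _ _ _ _ _ _ _ _ H hK _ _ hT hR => all H hK hT hR hμ hRSW hSRSW

end Vale.Agent.P167.H918
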