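import Vale.Agent.P167.H718.Rc
import Vale.Agent.P167.E2.Orb

/-!
# P167, general `q`, [K-LIT]: the squares of a polygon near a 45 degree staircase

`Loc p S k M R`: near `p k` the polygon is the staircase with the steps `dir 3`, `dir 0`, and no
other vertex of the polygon is in the box of radius `R` (in the coordinates of the squares).

* `F_iff`: the faces of the domain;
* `mem_Dq_iff`: the squares of `Dq` are those of the rows `≥ y_b`;
* `cfg_iff`: the open squares below;
* `pos_fw`, `pos_bw`: the vertices of the staircase.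
-/

set_option autoImplicit false

namespace Vale.Agent.P167.H918

open Vale.Agent.P167.E6 Vale.Agent.P167.H192
open Vale.Agent.P167.H718 (Dq wE mem_Dq' mem_wE mem_wiredOpen)

/-- the odd site among `(x, y)`, `(x + 1, y)` -/
def od (x y : ℤ) : ℤ × ℤ := if Even (x + y) then (x + 1, y) else (x, y)

/-- the face at `od x y` is in the domain -/
def F (S : Finset (ℤ × ℤ)) (x y : ℤ) : Prop := rf' (od x y) ∈ S

/-- the row of the square of the polygon in the column `x` -/
def yp (b : ℤ × ℤ) (x : ℤ) : ℤ := if b.1 ≤ x then b.2 - 1 else b.2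

/-- Near `p k` the polygon is the staircase and nothing else. -/
structure Loc {n : ℕ} (p : ZMod n → ℤ × ℤ) (S : Finset (ℤ × ℤ)) (k M : ℕ) (R : ℤ) : Prop where
  poly : IsPolygon p
  enc : Encloses p S
  hk1 : M + 1 ≤ k
  hk2 : k + M + 1 < n
  hR : R ≤ M
  fw : ∀ m : ℕ, m ≤ M → p ((k : ZMod n) + m + 1) =
    p ((k : ZMod n) + m) + (if Even m then dir 3 else dir 0)
  bw : ∀ m : ℕ, m ≤ M → p ((k : ZMod n) - m) =
    p ((k : ZMod n) - m - 1) + (if Even m then dir 3 else dir 0)
  near : ∀ i : ℕ, i < n → |(ro (p i)).1 - (ro (p k)).1| ≤ R → |(ro (p i)).2 - (ro (p k)).2| ≤ R →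
    k ≤ i + M ∧ i ≤ k + M

theorem ro_dir3 (u : ℤ × ℤ) : ro (u + dir 3) = ((ro u).1 + 1, (ro u).2 - 1) := by
  simp only [ro, dir]; ext <;> simp <;> ring

theorem ro_dir0 (u : ℤ × ℤ) : ro (u + dir 0) = ((ro u).1 + 1, (ro u).2 + 1) := by
  simp only [ro, dir]; ext <;> simp <;> ring

/-- the edge and the faces of a square -/
theorem sq_faces (S : Finset (ℤ × ℤ)) (x y : ℤ) : ∃ u r, ed (x, y) = s(u, u + dir r) ∧
    ((face u r = rf' (od x y) ∧ face u (r - 1) = rf' (od x (y + 1))) ∨
      (face u r = rf' (od x (y + 1)) ∧ face u (r - 1) = rf' (od x y))) := by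
  by_cases h : Even (x + y)
  · have h' : ¬ Even (x + (y + 1)) := by rw [Int.even_iff] at *; omega
    refine ⟨ea (x, y), 0, ?_, Or.inr ⟨?_, ?_⟩⟩
    · unfold ed eb ea
      simp only [h, if_true]
      simp [dir]
    · rw [od, if_neg h']
      rw [Int.even_iff] at h
      simp only [ea, face, rf']
      ext <;> simp <;> omega
    · rw [od, if_pos h]
      rw [Int.even_iff] at h
      show face _ 3 = _
      simp only [ea, face, rf']
      ext <;> simp <;> omega
  · have h' : Even (x + (y + 1)) := by rw [Int.even_iff] at *; omega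
    refine ⟨ea (x, y), 1, ?_, Or.inl ⟨?_, ?_⟩⟩
    · unfold ed eb ea
      simp only [h, if_false]
      simp [dir]
    · rw [od, if_neg h]
      rw [Int.even_iff] at h
      simp only [ea, face, rf']
      ext <;> simp <;> omega
    · rw [od, if_pos h']
      rw [Int.even_iff] at h
      show face _ 0 = _
      simp only [ea, face, rf']
      ext <;> simp <;> omega

theorem mem_edges_sq {S : Finset (ℤ × ℤ)} {x y : ℤ} :
    ed (x, y) ∈ edges S ↔ F S x y ∨ F S x (y + 1) := by
  obtain ⟨u, r, h1, h2⟩ := sq_faces S x y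
  rw [h1, E2.mem_edges]
  unfold F
  rcases h2 with ⟨h2, h3⟩ | ⟨h2, h3⟩ <;> rw [h2, h3]
  exact Or.comm

section

variable {n : ℕ} {p : ZMod n → ℤ × ℤ} {S : Finset (ℤ × ℤ)} {k M : ℕ} {R : ℤ}

theorem face_opp (u : ℤ × ℤ) (r : Fin 4) : face (u + dir r) (r + 2) = face u (r - 1) ∧
    face (u + dir r) (r + 2 - 1) = face u r := by
  rcases fin4_cases r with rfl | rfl | rfl | rfl
  · constructor
    · show face (u + dir 0) 2 = face u 3
      simp only [face, dir]; ext <;> simp <;> ring
    · show face (u + dir 0) 1 = face u 0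
      simp only [face, dir]; ext <;> simp
  · constructor
    · show face (u + dir 1) 3 = face u 0
      simp only [face, dir]; ext <;> simp
    · show face (u + dir 1) 2 = face u 1
      simp only [face, dir]; ext <;> simp
  · constructor
    · show face (u + dir 2) 0 = face u 1
      simp only [face, dir]; ext <;> simp
    · show face (u + dir 2) 3 = face u 2
      simp only [face, dir]; ext <;> simp
  · constructor
    · show face (u + dir 3) 1 = face u 2
      simp only [face, dir]; ext <;> simp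
    · show face (u + dir 3) 0 = face u 3
      simp only [face, dir]; ext <;> simp

theorem dir_opp (u : ℤ × ℤ) (r : Fin 4) : u + dir r + dir (r + 2) = u := by
  rcases fin4_cases r with rfl | rfl | rfl | rfl
  · show u + dir 0 + dir 2 = u
    simp only [dir]; ext <;> simp
  · show u + dir 1 + dir 3 = u
    simp only [dir]; ext <;> simp
  · show u + dir 2 + dir 0 = u
    simp only [dir]; ext <;> simp
  · show u + dir 3 + dir 1 = u
    simp only [dir]; ext <;> simp

/-- The two faces of an edge which is not in the polygon. -/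
theorem faces_iff (hE : Encloses p S) {u : ℤ × ℤ} {r : Fin 4}
    (h : ∀ i : ZMod n, s(p i, p (i + 1)) ≠ s(u, u + dir r)) :
    face u r ∈ S ↔ face u (r - 1) ∈ S := by
  have h1 := hE u r
  have h2 := hE (u + dir r) (r + 2)
  rw [(face_opp u r).1, (face_opp u r).2, dir_opp] at h2
  constructor
  · intro h3
    by_contra h4
    obtain ⟨i, h5, h6⟩ := h1.2 ⟨h3, h4⟩
    exact h i (by rw [h5, h6])
  · intro h3
    by_contra h4
    obtain ⟨i, h5, h6⟩ := h2.2 ⟨h3, h4⟩
    exact h i (by rw [h5, h6, Sym2.eq_swap])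

theorem F_succ (hE : Encloses p S) {x y : ℤ}
    (h : ∀ i : ZMod n, s(p i, p (i + 1)) ≠ ed (x, y)) : F S x y ↔ F S x (y + 1) := by
  obtain ⟨u, r, h1, h2⟩ := sq_faces S x y
  have h3 := faces_iff hE (u := u) (r := r) (by rw [← h1]; exact h)
  unfold F
  rcases h2 with ⟨h2, h4⟩ | ⟨h2, h4⟩ <;> rw [h2, h4] at h3
  · exact h3
  · exact h3.symm

/-- a step of the staircase -/
theorem F_step (hE : Encloses p S) {i : ZMod n} {m : ℕ}
    (h : p (i + 1) = p i + (if Even m then dir 3 else dir 0)) {X Y : ℤ} (hp : ro (p i) = (X, Y)) :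
    F S X (if Even m then Y else Y + 1) ∧ ¬ F S X (if Even m then Y - 1 else Y) := by
  have hev : Even (X + Y) := by
    have := even_ro (p i)
    rw [hp] at this
    exact this
  have hpi : p i = ro' (X, Y) := by rw [← hp, ro'_ro]
  by_cases hm : Even m
  · rw [if_pos hm] at h
    rw [if_pos hm, if_pos hm]
    obtain ⟨h1, h2⟩ := (hE (p i) 3).1 ⟨i, rfl, h⟩
    have e1 : face (p i) 3 = rf' (od X Y) := by
      rw [hpi, od, if_pos hev]
      rw [Int.even_iff] at hev
      simp only [face, ro', rf']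
      ext <;> simp <;> omega
    have e2 : face (p i) (3 - 1) = rf' (od X (Y - 1)) := by
      have h' : ¬ Even (X + (Y - 1)) := by rw [Int.even_iff] at *; omega
      rw [hpi, od, if_neg h']
      rw [Int.even_iff] at hev
      show face _ 2 = _
      simp only [face, ro', rf']
      ext <;> simp <;> omega
    rw [e1] at h1
    rw [e2] at h2
    exact ⟨h1, h2⟩
  · rw [if_neg hm] at h
    rw [if_neg hm, if_neg hm]
    obtain ⟨h1, h2⟩ := (hE (p i) 0).1 ⟨i, rfl, h⟩
    have e1 : face (p i) 0 = rf' (od X (Y + 1)) := by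
      have h' : ¬ Even (X + (Y + 1)) := by rw [Int.even_iff] at *; omega
      rw [hpi, od, if_neg h']
      rw [Int.even_iff] at hev
      simp only [face, ro', rf']
      ext <;> simp <;> omega
    have e2 : face (p i) (0 - 1) = rf' (od X Y) := by
      rw [hpi, od, if_pos hev]
      rw [Int.even_iff] at hev
      show face _ 3 = _
      simp only [face, ro', rf']
      ext <;> simp <;> omega
    rw [e1] at h1
    rw [e2] at h2
    exact ⟨h1, h2⟩

theorem pos_fw_of (hfw : ∀ m : ℕ, m ≤ M → p ((k : ZMod n) + m + 1) =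
    p ((k : ZMod n) + m) + (if Even m then dir 3 else dir 0)) : ∀ m : ℕ, m ≤ M + 1 → ro (p ((k : ZMod n) + m)) =
    ((ro (p k)).1 + m, (ro (p k)).2 - (if Even m then 0 else 1)) := by
  intro m
  induction m with
  | zero =>
    intro _
    simp
  | succ m ih =>
    intro hm
    have h1 := hfw m (by omega)
    have h2 := ih (by omega)
    have e : (k : ZMod n) + ((m + 1 : ℕ) : ZMod n) = (k : ZMod n) + m + 1 := by push_cast; ring
    rw [e, h1]
    by_cases hev : Even m
    · have hev' : ¬ Even (m + 1) := by rw [Nat.even_iff] at *; omega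
      rw [if_pos hev] at h2 ⊢
      rw [ro_dir3, h2, if_neg hev']
      refine Prod.ext ?_ ?_ <;> dsimp only <;> push_cast <;> omega
    · have hev' : Even (m + 1) := by rw [Nat.even_iff] at *; omega
      rw [if_neg hev] at h2 ⊢
      rw [ro_dir0, h2, if_pos hev']
      refine Prod.ext ?_ ?_ <;> dsimp only <;> push_cast <;> omega

theorem pos_bw_of (hbw : ∀ m : ℕ, m ≤ M → p ((k : ZMod n) - m) =
    p ((k : ZMod n) - m - 1) + (if Even m then dir 3 else dir 0)) : ∀ m : ℕ, m ≤ M + 1 → ro (p ((k : ZMod n) - m)) =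
    ((ro (p k)).1 - m, (ro (p k)).2 + (if Even m then 0 else 1)) := by
  intro m
  induction m with
  | zero =>
    intro _
    simp
  | succ m ih =>
    intro hm
    have h1 := hbw m (by omega)
    have h2 := ih (by omega)
    have e : (k : ZMod n) - ((m + 1 : ℕ) : ZMod n) = (k : ZMod n) - m - 1 := by push_cast; ring
    rw [e]
    by_cases hev : Even m
    · have hev' : ¬ Even (m + 1) := by rw [Nat.even_iff] at *; omega
      rw [if_pos hev] at h1 h2
      rw [h1, ro_dir3] at h2
      rw [if_neg hev']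
      have a1 := congrArg Prod.fst h2
      have a2 := congrArg Prod.snd h2
      simp only at a1 a2
      ext <;> push_cast <;> linarith
    · have hev' : Even (m + 1) := by rw [Nat.even_iff] at *; omega
      rw [if_neg hev] at h1 h2
      rw [h1, ro_dir0] at h2
      rw [if_pos hev']
      have a1 := congrArg Prod.fst h2
      have a2 := congrArg Prod.snd h2
      simp only at a1 a2
      ext <;> push_cast <;> linarith

namespace Loc

variable (H : Loc p S k M R)

include H

theorem pos_fw : ∀ m : ℕ, m ≤ M + 1 → ro (p ((k : ZMod n) + m)) =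
    ((ro (p k)).1 + m, (ro (p k)).2 - (if Even m then 0 else 1)) := pos_fw_of H.fw

theorem pos_bw : ∀ m : ℕ, m ≤ M + 1 → ro (p ((k : ZMod n) - m)) =
    ((ro (p k)).1 - m, (ro (p k)).2 + (if Even m then 0 else 1)) := pos_bw_of H.bw

/-- the squares of the wired part -/
theorem sq_fw {m : ℕ} (hm : m ≤ M) :
    sq s(p ((k : ZMod n) + m), p ((k : ZMod n) + m + 1)) = ((ro (p k)).1 + m, (ro (p k)).2 - 1) := by
  have h1 := H.pos_fw m (by omega)
  have h2 := H.pos_fw (m + 1) (by omega)
  have e : (k : ZMod n) + ((m + 1 : ℕ) : ZMod n) = (k : ZMod n) + m + 1 := by push_cast; ring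
  rw [e] at h2
  rw [sq_mk, h1, h2]
  by_cases hev : Even m
  · have hev' : ¬ Even (m + 1) := by rw [Nat.even_iff] at *; omega
    rw [if_pos hev, if_neg hev']
    refine Prod.ext ?_ ?_ <;> dsimp only <;> push_cast <;> omega
  · have hev' : Even (m + 1) := by rw [Nat.even_iff] at *; omega
    rw [if_neg hev, if_pos hev']
    refine Prod.ext ?_ ?_ <;> dsimp only <;> push_cast <;> omega

/-- the squares of the free part -/
theorem sq_bw {m : ℕ} (hm : m ≤ M) :
    sq s(p ((k : ZMod n) - m - 1), p ((k : ZMod n) - m)) =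
      ((ro (p k)).1 - m - 1, (ro (p k)).2) := by
  have h1 := H.pos_bw m (by omega)
  have h2 := H.pos_bw (m + 1) (by omega)
  have e : (k : ZMod n) - ((m + 1 : ℕ) : ZMod n) = (k : ZMod n) - m - 1 := by push_cast; ring
  rw [e] at h2
  rw [sq_mk, h1, h2]
  by_cases hev : Even m
  · have hev' : ¬ Even (m + 1) := by rw [Nat.even_iff] at *; omega
    rw [if_pos hev, if_neg hev']
    refine Prod.ext ?_ ?_ <;> dsimp only <;> push_cast <;> omega
  · have hev' : Even (m + 1) := by rw [Nat.even_iff] at *; omega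
    rw [if_neg hev, if_pos hev']
    refine Prod.ext ?_ ?_ <;> dsimp only <;> push_cast <;> omega

theorem neZero : NeZero n := ⟨by have := H.hk2; omega⟩

/-- the edges of the polygon in the box -/
theorem edge_near {i : ZMod n} {x y : ℤ} (h : s(p i, p (i + 1)) = ed (x, y))
    (hx : |x - (ro (p k)).1| + 1 ≤ R) (hy : |y - (ro (p k)).2| + 1 ≤ R) :
    (∃ m : ℕ, m ≤ M ∧ i = (k : ZMod n) + m ∧ x = (ro (p k)).1 + m ∧ y = (ro (p k)).2 - 1) ∨
    (∃ m : ℕ, m ≤ M ∧ i = (k : ZMod n) - m - 1 ∧ x = (ro (p k)).1 - m - 1 ∧ y = (ro (p k)).2) := by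
  have := H.neZero
  have hsq : sq s(p i, p (i + 1)) = (x, y) := by rw [h, sq_ed]
  -- the position of `p i`
  obtain ⟨r, hr⟩ := H.poly.2.2 i
  have hpos : ((ro (p i)).1 = x ∨ (ro (p i)).1 = x + 1) ∧
      ((ro (p i)).2 = y ∨ (ro (p i)).2 = y + 1) := by
    rw [hr, sq_mk] at hsq
    obtain ⟨h1, h2⟩ := ro_dir (p i) r
    have a1 := congrArg Prod.fst hsq
    have a2 := congrArg Prod.snd hsq
    simp only at a1 a2
    omega
  have hi : ((i.val : ℕ) : ZMod n) = i := ZMod.natCast_zmod_val i
  obtain ⟨h1, h2⟩ := H.near i.val (ZMod.val_lt i)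
    (by rw [hi]; rw [abs_le]; have := abs_le.1 (show |x - (ro (p k)).1| ≤ R - 1 by linarith); omega)
    (by rw [hi]; rw [abs_le]; have := abs_le.1 (show |y - (ro (p k)).2| ≤ R - 1 by linarith); omega)
  rcases Nat.lt_or_ge i.val k with h3 | h3
  · right
    obtain ⟨m, hm⟩ : ∃ m : ℕ, k = i.val + m + 1 := ⟨k - i.val - 1, by omega⟩
    have e : i = (k : ZMod n) - m - 1 := by
      have : (k : ZMod n) = ((i.val + m + 1 : ℕ) : ZMod n) := by rw [← hm]
      rw [this]
      push_cast
      rw [hi]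
      ring
    have hmM : m ≤ M := by omega
    refine ⟨m, hmM, e, ?_⟩
    have h4 := H.sq_bw hmM
    have e2 : (k : ZMod n) - m = i + 1 := by rw [e]; ring
    rw [e2, add_sub_cancel_right, hsq] at h4
    exact ⟨congrArg Prod.fst h4, congrArg Prod.snd h4⟩
  · left
    obtain ⟨m, hm⟩ : ∃ m : ℕ, i.val = k + m := ⟨i.val - k, by omega⟩
    have e : i = (k : ZMod n) + m := by
      rw [← hi, hm]
      push_cast
      ring
    have hmM : m ≤ M := by omega
    refine ⟨m, hmM, e, ?_⟩
    have h4 := H.sq_fw hmM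
    rw [← e, hsq] at h4
    exact ⟨congrArg Prod.fst h4, congrArg Prod.snd h4⟩

/-- only one square of each column is a square of the polygon -/
theorem no_edge {x y : ℤ} (hx : |x - (ro (p k)).1| + 1 ≤ R) (hy : |y - (ro (p k)).2| + 1 ≤ R)
    (hne : y ≠ yp (ro (p k)) x) (i : ZMod n) : s(p i, p (i + 1)) ≠ ed (x, y) := by
  intro h
  rcases H.edge_near h hx hy with ⟨m, -, -, h1, h2⟩ | ⟨m, -, -, h1, h2⟩
  · apply hne
    rw [yp, if_pos (by omega)]
    exact h2
  · apply hne
    rw [yp, if_neg (by omega)]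
    exact h2

theorem exists_col {x : ℤ} (hx : |x - (ro (p k)).1| + 1 ≤ R) :
    (∃ m : ℕ, m ≤ M ∧ x = (ro (p k)).1 + m) ∨ (∃ m : ℕ, m ≤ M ∧ x = (ro (p k)).1 - m - 1) := by
  have hR := H.hR
  have h1 := abs_le.1 (show |x - (ro (p k)).1| ≤ R - 1 by linarith)
  rcases le_or_gt (ro (p k)).1 x with h | h
  · left
    exact ⟨(x - (ro (p k)).1).toNat, by omega, by omega⟩
  · right
    exact ⟨((ro (p k)).1 - x - 1).toNat, by omega, by omega⟩

theorem F_col {x : ℤ} (hx : |x - (ro (p k)).1| + 1 ≤ R) :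
    F S x (yp (ro (p k)) x + 1) ∧ ¬ F S x (yp (ro (p k)) x) := by
  rcases H.exists_col hx with ⟨m, hm, h1⟩ | ⟨m, hm, h1⟩
  · have h2 := F_step H.enc (H.fw m hm) (H.pos_fw m (by omega))
    rw [yp, if_pos (by omega), h1]
    by_cases hev : Even m
    · simp only [hev, if_true, sub_zero] at h2
      rw [sub_add_cancel]
      exact h2
    · simp only [hev, if_false] at h2
      exact h2
  · have e : (k : ZMod n) - m = (k : ZMod n) - m - 1 + 1 := by ring
    have h3 := H.bw m hm
    have h4 := H.pos_bw (m + 1) (by omega)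
    have e' : (k : ZMod n) - ((m + 1 : ℕ) : ZMod n) = (k : ZMod n) - m - 1 := by push_cast; ring
    rw [e] at h3
    rw [add_sub_cancel_right] at h3
    rw [e'] at h4
    have h2 := F_step H.enc h3 h4
    rw [yp, if_neg (by omega), h1]
    have e3 : (ro (p k)).1 - ((m + 1 : ℕ) : ℤ) = (ro (p k)).1 - m - 1 := by push_cast; ring
    rw [e3] at h2
    by_cases hev : Even m
    · have hev' : ¬ Even (m + 1) := by rw [Nat.even_iff] at *; omega
      simp only [hev, hev', if_true, if_false, add_sub_cancel_right] at h2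
      exact h2
    · have hev' : Even (m + 1) := by rw [Nat.even_iff] at *; omega
      simp only [hev, hev', if_true, if_false, add_zero] at h2
      exact h2

/-- **The faces.** -/
theorem F_iff {x y : ℤ} (hx : |x - (ro (p k)).1| + 1 ≤ R) (hy : |y - (ro (p k)).2| + 1 ≤ R) :
    F S x y ↔ yp (ro (p k)) x < y := by
  obtain ⟨h1, h2⟩ := H.F_col hx
  set Y := yp (ro (p k)) x with hY
  have hYb : (ro (p k)).2 - 1 ≤ Y ∧ Y ≤ (ro (p k)).2 := by
    rw [hY, yp]
    split_ifs <;> omega
  have hy' := abs_le.1 (show |y - (ro (p k)).2| ≤ R - 1 by linarith)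
  have up : ∀ j : ℕ, Y + 1 + j ≤ (ro (p k)).2 + R - 1 → F S x (Y + 1 + j) := by
    intro j
    induction j with
    | zero =>
      intro _
      simpa using h1
    | succ j ih =>
      intro hj
      push_cast at hj
      have h3 := ih (by omega)
      have h4 := (F_succ H.enc (H.no_edge (x := x) (y := Y + 1 + j) hx (by
        have : |Y + 1 + (j : ℤ) - (ro (p k)).2| ≤ R - 1 := abs_le.2 ⟨by omega, by omega⟩
        linarith) (by rw [← hY]; omega))).1 h3
      push_cast
      rw [show Y + 1 + ((j : ℤ) + 1) = Y + 1 + j + 1 by ring]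
      exact h4
  have dn : ∀ j : ℕ, (ro (p k)).2 - R + 1 ≤ Y - j → ¬ F S x (Y - j) := by
    intro j
    induction j with
    | zero =>
      intro _
      simpa using h2
    | succ j ih =>
      intro hj h5
      push_cast at hj
      have h3 := ih (by omega)
      apply h3
      have h4 := (F_succ H.enc (H.no_edge (x := x) (y := Y - ((j + 1 : ℕ) : ℤ)) hx (by
        push_cast
        have : |Y - ((j : ℤ) + 1) - (ro (p k)).2| ≤ R - 1 := abs_le.2 ⟨by omega, by omega⟩
        linarith) (by rw [← hY]; push_cast; omega))).1 h5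
      push_cast at h4
      rw [show Y - ((j : ℤ) + 1) + 1 = Y - j by ring] at h4
      exact h4
  constructor
  · intro h
    by_contra hcon
    push Not at hcon
    obtain ⟨j, hj⟩ : ∃ j : ℕ, y = Y - j := ⟨(Y - y).toNat, by omega⟩
    rw [hj] at h
    exact dn j (by omega) h
  · intro h
    obtain ⟨j, hj⟩ : ∃ j : ℕ, y = Y + 1 + j := ⟨(y - Y - 1).toNat, by omega⟩
    rw [hj]
    exact up j (by omega)

/-- the squares of the edges of the domain -/
theorem edges_iff {x y : ℤ} (hx : |x - (ro (p k)).1| + 1 ≤ R) (hy : |y - (ro (p k)).2| + 2 ≤ R) :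
    ed (x, y) ∈ edges S ↔ yp (ro (p k)) x ≤ y := by
  have h0 : |y + 1 - (ro (p k)).2| + 1 ≤ R := by
    have h1 := abs_le.1 (show |y - (ro (p k)).2| ≤ R - 2 by linarith)
    have : |y + 1 - (ro (p k)).2| ≤ R - 1 := abs_le.2 ⟨by omega, by omega⟩
    linarith
  rw [mem_edges_sq, H.F_iff hx (by linarith), H.F_iff hx h0]
  omega

/-- the squares of the wired arc -/
theorem wE_iff {x y : ℤ} (hx : |x - (ro (p k)).1| + 1 ≤ R) (hy : |y - (ro (p k)).2| + 1 ≤ R) :
    ed (x, y) ∈ wE p k ↔ (ro (p k)).1 ≤ x ∧ y = (ro (p k)).2 - 1 := by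
  have := H.neZero
  have hk1 := H.hk1
  have hk2 := H.hk2
  rw [mem_wE]
  constructor
  · rintro ⟨i, h1, h2, h3⟩
    rcases H.edge_near h3.symm hx hy with ⟨m, -, -, h4, h5⟩ | ⟨m, hm, h4, h5, h6⟩
    · exact ⟨by omega, h5⟩
    · exfalso
      -- the index is `k - m - 1`
      have h7 : ((i + m + 1 : ℕ) : ZMod n) = (k : ZMod n) := by
        push_cast
        rw [h4]
        ring
      have h8 := congrArg ZMod.val h7
      rw [ZMod.val_natCast, ZMod.val_natCast, Nat.mod_eq_of_lt (show k < n by omega)] at h8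
      rcases Nat.lt_or_ge (i + m + 1) n with h9 | h9
      · rw [Nat.mod_eq_of_lt h9] at h8
        omega
      · rw [Nat.mod_eq_sub_mod h9, Nat.mod_eq_of_lt (by omega)] at h8
        omega
  · rintro ⟨h1, h2⟩
    rcases H.exists_col hx with ⟨m, hm, h3⟩ | ⟨m, hm, h3⟩
    · refine ⟨k + m, by omega, by omega, ?_⟩
      have h4 := H.sq_fw hm
      have h5 : IsEdge s(p ((k : ZMod n) + m), p ((k : ZMod n) + m + 1)) := by
        obtain ⟨r, hr⟩ := H.poly.2.2 ((k : ZMod n) + m)
        exact ⟨_, r, by rw [hr]⟩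
      have h6 := ed_sq h5
      rw [h4] at h6
      rw [h3, h2, h6]
      push_cast
      rfl
    · omega

/-- **The squares which are not in the wired arc.** -/
theorem mem_Dq_iff {x y : ℤ} (hx : |x - (ro (p k)).1| + 1 ≤ R) (hy : |y - (ro (p k)).2| + 2 ≤ R) :
    (x, y) ∈ Dq S p k ↔ (ro (p k)).2 ≤ y := by
  rw [mem_Dq', H.edges_iff hx hy, H.wE_iff hx (by linarith), yp]
  split_ifs with h <;> omega

/-- **The open squares below.** -/
theorem cfg_iff {x y : ℤ} (hx : |x - (ro (p k)).1| + 1 ≤ R) (hy : |y - (ro (p k)).2| + 2 ≤ R)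
    (hlt : y < (ro (p k)).2) {A : Finset (Sym2 (ℤ × ℤ))} (hA : A ⊆ edges S) :
    cfg (wiredOpen p k A) (x, y) = true ↔ y = (ro (p k)).2 - 1 ∧ (ro (p k)).1 ≤ x := by
  rw [cfg_true, mem_wiredOpen, H.wE_iff hx (by linarith)]
  constructor
  · rintro (h | h)
    · have h1 := (H.edges_iff hx hy).1 (hA h)
      rw [yp] at h1
      split_ifs at h1 with h2 <;> omega
    · exact ⟨h.2, h.1⟩
  · intro h
    exact Or.inr ⟨h.2, h.1⟩

/-- **The odd sites.** -/
theorem face_iff {s : ℤ × ℤ} (hs : ¬ Even (s.1 + s.2)) (hx : |s.1 - (ro (p k)).1| + 1 ≤ R)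
    (hy : |s.2 - (ro (p k)).2| + 1 ≤ R) :
    rf' s ∈ S ↔ (if (ro (p k)).1 ≤ s.1 then (ro (p k)).2 ≤ s.2 else (ro (p k)).2 < s.2) := by
  have h := H.F_iff hx hy
  rw [F, od, if_neg hs, yp] at h
  rw [h]
  split_ifs with h1 <;> omega

/-- the faces of the boundary corners of the free part are outside -/
theorem outer {x : ℤ} (hs : ¬ Even (x + (ro (p k)).2)) (hx : |x - (ro (p k)).1| + 1 ≤ R)
    (hR : 1 ≤ R) (hlt : x < (ro (p k)).1) : rf' (x, (ro (p k)).2) ∉ S := by
  rw [H.face_iff (s := (x, (ro (p k)).2)) hs hx (by simpa using hR)]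
  rw [if_neg (by simpa using hlt)]
  exact lt_irrefl _

/-- the boundary corners of the wired part are vertices of the polygon -/
theorem wired {x : ℤ} (hs : Even (x + (ro (p k)).2)) (hle : (ro (p k)).1 ≤ x)
    (hx : x - (ro (p k)).1 ≤ R) :
    ro (p ((k : ZMod n) + (x - (ro (p k)).1).toNat)) = (x, (ro (p k)).2) := by
  have hR := H.hR
  have h1 := H.pos_fw (x - (ro (p k)).1).toNat (by omega)
  have h2 := even_ro (p k)
  rw [Int.even_iff] at hs h2
  have hev : Even (x - (ro (p k)).1).toNat := by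
    rw [Nat.even_iff]
    omega
  rw [if_pos hev] at h1
  rw [h1]
  ext
  · simp only
    omega
  · simp

end Loc

end

end Vale.Agent.P167.H918
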