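import Vale.Agent.P167.H918.KLit
import Vale.Agent.P167.H174.End6
import Vale.Agent.P167.E2.OmDef
import Vale.Agent.P167.H166.Pot

/-!
# P167, general `q`, [K-LIT]: polygons with a 45 degree staircase at the target

If the polygons `p n` approximate a marked Jordan domain and are, near `b`, the 45 degree staircase
with the steps `dir 3`, `dir 0`, then near `b` there is nothing but the staircase (`loc_of`), and
the squares, the faces and the domain near `b` are those of a half-plane (`klit`).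
-/

set_option autoImplicit false

open Filter Topology Set

namespace Vale.Agent.P167.H918

open Vale.Agent.P167.E6 Vale.Agent.P167.H192
open Vale.Agent.P167.H718 (Dq)
open Vale.Agent.P167.SLE (bq)
open Vale.Agent.P167.H174 (bc bc_ne near_b continuous_bc re_pt im_pt)
open Vale.Agent.P153.R2.Final (dom circ toC)

/-! ### Distances -/

theorem dist_pt {δ : ℝ} (hδ : 0 < δ) (u v : ℤ × ℤ) :
    dist ((δ : ℂ) * pt u) ((δ : ℂ) * pt v) = δ * ‖pt u - pt v‖ := by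
  rw [dist_eq_norm, ← mul_sub, norm_mul, Complex.norm_real, Real.norm_of_nonneg hδ.le]

theorem norm_pt_dir (u : ℤ × ℤ) (r : Fin 4) : ‖pt (u + dir r) - pt u‖ ≤ 1 := by
  refine (Complex.norm_le_abs_re_add_abs_im _).trans ?_
  rcases dir_cases r with h | h | h | h <;> rw [h] <;> simp [pt]

theorem dist_step' {δ : ℝ} (hδ : 0 < δ) (u : ℤ × ℤ) (r : Fin 4) :
    dist ((δ : ℂ) * pt (u + dir r)) ((δ : ℂ) * pt u) ≤ δ := by
  rw [dist_pt hδ]
  have := norm_pt_dir u r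
  nlinarith

theorem dist_fw {n : ℕ} {p : ZMod n → ℤ × ℤ} (hp : IsPolygon p) {δ : ℝ} (hδ : 0 < δ) (i : ZMod n) :
    ∀ m : ℕ, dist ((δ : ℂ) * pt (p (i + m))) ((δ : ℂ) * pt (p i)) ≤ m * δ := by
  intro m
  induction m with
  | zero => simp
  | succ m ih =>
    obtain ⟨r, hr⟩ := hp.2.2 (i + m)
    have e : i + ((m + 1 : ℕ) : ZMod n) = i + m + 1 := by push_cast; ring
    rw [e, hr]
    have h1 := dist_step' hδ (p (i + m)) r
    have h2 := dist_triangle ((δ : ℂ) * pt (p (i + m) + dir r)) ((δ : ℂ) * pt (p (i + m)))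
      ((δ : ℂ) * pt (p i))
    push_cast
    linarith

/-- the distance of two sites -/
theorem norm_le_of_ro {u v : ℤ × ℤ} {R : ℝ} (hR : 0 ≤ R) (h1 : |((ro u).1 : ℝ) - (ro v).1| ≤ R)
    (h2 : |((ro u).2 : ℝ) - (ro v).2| ≤ R) : ‖pt u - pt v‖ ≤ R := by
  rw [← abs_of_nonneg hR, ← sq_le_sq₀ (norm_nonneg _) (abs_nonneg _), ← Complex.normSq_eq_norm_sq,
    Complex.normSq_apply, sq_abs]
  simp only [ro] at h1 h2
  push_cast at h1 h2
  rw [abs_le] at h1 h2
  simp only [pt, Complex.sub_re, Complex.sub_im]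
  nlinarith [h1.1, h1.2, h2.1, h2.2]

theorem le_norm_of_ro {u v : ℤ × ℤ} {R : ℝ} (h1 : R ≤ |((ro u).1 : ℝ) - (ro v).1|) :
    R ≤ 2 * ‖pt u - pt v‖ := by
  have h2 := Complex.abs_re_le_norm (pt u - pt v)
  have h3 := Complex.abs_im_le_norm (pt u - pt v)
  simp only [pt, Complex.sub_re, Complex.sub_im] at h2 h3
  simp only [ro] at h1
  push_cast at h1
  have h4 : |((u.1 : ℝ) - u.2) - (v.1 - v.2)| ≤ |(u.1 : ℝ) - v.1| + |(u.2 : ℝ) - v.2| := by
    have e : ((u.1 : ℝ) - u.2) - (v.1 - v.2) = ((u.1 : ℝ) - v.1) - (u.2 - v.2) := by ring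
    rw [e]
    exact abs_sub _ _
  simp only [pt]
  linarith

theorem bc_zero (Φ : (ℝ × ℝ) ≃ₜ (ℝ × ℝ)) : bc Φ 0 = bc Φ (2 * Real.pi) := by
  unfold bc circ
  rw [Real.cos_zero, Real.sin_zero, Real.cos_two_pi, Real.sin_two_pi]

theorem bc_pi (Φ : (ℝ × ℝ) ≃ₜ (ℝ × ℝ)) : bc Φ Real.pi = bq Φ := rfl

/-! ### The staircase is alone -/

/-- **Near `b` the polygon is the staircase and nothing else.** -/
theorem loc_of {Φ : (ℝ × ℝ) ≃ₜ (ℝ × ℝ)} {δ : ℕ → ℝ} {N k : ℕ → ℕ} {p : ∀ n, ZMod (N n) → ℤ × ℤ}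
    {S : ℕ → Finset (ℤ × ℤ)} (hA : Approx Φ δ N k p S) {r : ℝ} (hr : 0 < r)
    (hst : ∀ᶠ n in atTop, ∀ m : ℕ, m * δ n ≤ r →
      p n ((k n : ZMod (N n)) + m + 1) =
        p n ((k n : ZMod (N n)) + m) + (if Even m then dir 3 else dir 0) ∧
      p n ((k n : ZMod (N n)) - m) =
        p n ((k n : ZMod (N n)) - m - 1) + (if Even m then dir 3 else dir 0)) :
    ∃ ρ : ℝ, 0 < ρ ∧ ∀ᶠ n in atTop, ∃ M : ℕ, Loc (p n) (S n) (k n) M (⌊ρ / δ n⌋ + 2) := by
  have hpi := Real.pi_pos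
  obtain ⟨hA1, hA2, hA3⟩ := hA
  set c0 := dist (bc Φ (2 * Real.pi)) (bq Φ) with hc0
  have hc0p : 0 < c0 := by
    rw [hc0, dist_pos]
    exact bc_ne (by linarith) le_rfl (by linarith)
  set r1 := min r (c0 / 8) with hr1
  have hr1p : 0 < r1 := lt_min hr (by linarith)
  have hr1r : r1 ≤ r := min_le_left _ _
  have hr1c : r1 ≤ c0 / 8 := min_le_right _ _
  obtain ⟨r2, hr2p, hr2r, hnear, -⟩ := near_b Φ (r := r1 / 8) (by linarith)
  refine ⟨r2 / 8, by linarith, ?_⟩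
  have hδ0 : ∀ᶠ n in atTop, δ n < r2 / 32 := by
    have := hA2.eventually (gt_mem_nhds (show (0 : ℝ) < r2 / 32 by linarith))
    exact this
  filter_upwards [hst, hδ0, hA3 (r2 / 4) (by linarith)] with n hst hδ0 hs
  obtain ⟨hδ, hk0, hkN, hpoly, henc⟩ := hA1 n
  obtain ⟨s, hsm, hs0, hsk, hsN, hsd⟩ := hs
  set d := δ n with hd
  set P := p n with hP
  set M := ⌊r1 / d⌋₊ with hM
  have hM1 : (M : ℝ) * d ≤ r1 := by
    have := Nat.floor_le (show 0 ≤ r1 / d from (div_pos hr1p hδ).le)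
    rwa [← hM, le_div_iff₀ hδ] at this
  have hM2 : r1 < (M + 1) * d := by
    have := Nat.lt_floor_add_one (r1 / d)
    rwa [← hM, div_lt_iff₀ hδ] at this
  have hfw : ∀ m : ℕ, m ≤ M → P (((k n : ℕ) : ZMod (N n)) + m + 1) =
      P (((k n : ℕ) : ZMod (N n)) + m) + (if Even m then dir 3 else dir 0) := by
    intro m hm
    refine (hst m ?_).1
    have : (m : ℝ) ≤ M := by exact_mod_cast hm
    nlinarith
  have hbw : ∀ m : ℕ, m ≤ M → P (((k n : ℕ) : ZMod (N n)) - m) =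
      P (((k n : ℕ) : ZMod (N n)) - m - 1) + (if Even m then dir 3 else dir 0) := by
    intro m hm
    refine (hst m ?_).2
    have : (m : ℝ) ≤ M := by exact_mod_cast hm
    nlinarith
  -- `p k` is near `b`
  have hpk : dist ((d : ℂ) * pt (P ((k n : ℕ) : ZMod (N n)))) (bq Φ) < r2 / 4 := by
    have := hsd (k n) hkN Real.pi ⟨hsk.le, by rw [← hsk]; exact hsm (Nat.le_succ _)⟩
    exact this
  have hidx : ∀ i : ℕ, i < N n → dist ((d : ℂ) * pt (P (i : ZMod (N n)))) (bc Φ (s i)) < r2 / 4 :=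
    fun i hi => hsd i hi (s i) ⟨le_rfl, hsm (Nat.le_succ _)⟩
  have hrange : ∀ i : ℕ, i ≤ N n → 0 ≤ s i ∧ s i ≤ 2 * Real.pi := fun i hi =>
    ⟨by rw [← hs0]; exact hsm (Nat.zero_le _), by rw [← hsN]; exact hsm hi⟩
  -- the staircase does not reach `a`
  have hk2 : k n + M + 1 < N n := by
    by_contra hcon
    push Not at hcon
    obtain ⟨m, hm⟩ : ∃ m : ℕ, N n = k n + m + 1 := ⟨N n - k n - 1, by omega⟩
    have hmM : m ≤ M := by omega
    have h1 := dist_fw hpoly hδ ((k n : ℕ) : ZMod (N n)) m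
    have h2 := hsd (k n + m) (by omega) (2 * Real.pi) ⟨by
      rw [← hsN]; exact hsm (by omega), by rw [← hm, hsN]⟩
    have h3 : (m : ℝ) * d ≤ M * d := by
      have : (m : ℝ) ≤ M := by exact_mod_cast hmM
      nlinarith
    have e : (((k n + m : ℕ) : ℕ) : ZMod (N n)) = ((k n : ℕ) : ZMod (N n)) + m := by push_cast; rfl
    rw [e] at h2
    have h4 : c0 ≤ dist (bc Φ (2 * Real.pi)) ((d : ℂ) * pt (P (((k n : ℕ) : ZMod (N n)) + m))) +
        dist ((d : ℂ) * pt (P (((k n : ℕ) : ZMod (N n)) + m)))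
          ((d : ℂ) * pt (P ((k n : ℕ) : ZMod (N n)))) +
        dist ((d : ℂ) * pt (P ((k n : ℕ) : ZMod (N n)))) (bq Φ) := by
      rw [hc0]
      exact dist_triangle4 _ _ _ _
    rw [dist_comm (bc Φ (2 * Real.pi))] at h4
    have h5 : dist ((d : ℂ) * pt (P (((k n : ℕ) : ZMod (N n)) + m))) (bc Φ (2 * Real.pi)) <
        r2 / 4 := h2
    linarith
  have hk1 : M + 1 ≤ k n := by
    by_contra hcon
    push Not at hcon
    have h1 := dist_fw hpoly hδ (0 : ZMod (N n)) (k n)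
    have h2 := hidx 0 (by omega)
    rw [hs0, bc_zero] at h2
    have h3 : ((k n : ℕ) : ℝ) * d ≤ M * d := by
      have : ((k n : ℕ) : ℝ) ≤ M := by exact_mod_cast (by omega : k n ≤ M)
      nlinarith
    rw [zero_add] at h1
    rw [Nat.cast_zero] at h2
    have h4 : c0 ≤ dist (bc Φ (2 * Real.pi)) ((d : ℂ) * pt (P (0 : ZMod (N n)))) +
        dist ((d : ℂ) * pt (P (0 : ZMod (N n)))) ((d : ℂ) * pt (P ((k n : ℕ) : ZMod (N n)))) +
        dist ((d : ℂ) * pt (P ((k n : ℕ) : ZMod (N n)))) (bq Φ) := by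
      rw [hc0]
      exact dist_triangle4 _ _ _ _
    rw [dist_comm (bc Φ (2 * Real.pi)), dist_comm ((d : ℂ) * pt (P (0 : ZMod (N n))))
      ((d : ℂ) * pt (P ((k n : ℕ) : ZMod (N n))))] at h4
    linarith
  -- the radius
  have hRf : (⌊r2 / 8 / d⌋ : ℝ) * d ≤ r2 / 8 := by
    have := Int.floor_le (r2 / 8 / d)
    rwa [le_div_iff₀ hδ] at this
  have hRf0 : (0 : ℝ) ≤ (⌊r2 / 8 / d⌋ : ℤ) := by
    exact_mod_cast Int.floor_nonneg.2 (div_nonneg (by linarith) hδ.le)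
  have hR2 : ((⌊r2 / 8 / d⌋ + 2 : ℤ) : ℝ) * d ≤ r2 / 4 := by
    push_cast
    nlinarith
  refine ⟨M, hpoly, henc, hk1, hk2, ?_, hfw, hbw, ?_⟩
  · have h1 : ((⌊r2 / 8 / d⌋ + 2 : ℤ) : ℝ) < M + 1 := by
      by_contra hcon
      push Not at hcon
      have h2 : ((M : ℝ) + 1) * d ≤ ((⌊r2 / 8 / d⌋ + 2 : ℤ) : ℝ) * d :=
        mul_le_mul_of_nonneg_right hcon hδ.le
      linarith
    have h2 : (⌊r2 / 8 / d⌋ + 2 : ℤ) < M + 1 := by exact_mod_cast h1
    omega
  · intro i hi hx hy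
    have hdist : dist ((d : ℂ) * pt (P (i : ZMod (N n))))
        ((d : ℂ) * pt (P ((k n : ℕ) : ZMod (N n)))) ≤ r2 / 4 := by
      rw [dist_pt hδ]
      have h1 : ‖pt (P (i : ZMod (N n))) - pt (P ((k n : ℕ) : ZMod (N n)))‖ ≤
          ((⌊r2 / 8 / d⌋ + 2 : ℤ) : ℝ) := by
        refine norm_le_of_ro (by push_cast; linarith) ?_ ?_
        · exact_mod_cast hx
        · exact_mod_cast hy
      have h2 := mul_le_mul_of_nonneg_left h1 hδ.le
      linarith
    have hi1 := hidx i hi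
    have hnb : dist (bc Φ (s i)) (bq Φ) < r2 := by
      have h4 := dist_triangle4 (bc Φ (s i)) ((d : ℂ) * pt (P (i : ZMod (N n))))
        ((d : ℂ) * pt (P ((k n : ℕ) : ZMod (N n)))) (bq Φ)
      rw [dist_comm (bc Φ (s i)) ((d : ℂ) * pt (P (i : ZMod (N n))))] at h4
      linarith
    have hA' := hnear (s i) (hrange i hi.le).1 (hrange i hi.le).2 hnb
    -- the end of the staircase is far
    have hfar : ∀ j : ℕ, j < N n →
        (M : ℝ) ≤ |((ro (P (j : ZMod (N n)))).1 : ℝ) - (ro (P ((k n : ℕ) : ZMod (N n)))).1| →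
        r1 / 8 ≤ dist (bc Φ (s j)) (bq Φ) := by
      intro j hj hjM
      have h1 := le_norm_of_ro hjM
      have h2 := dist_pt hδ (P (j : ZMod (N n))) (P ((k n : ℕ) : ZMod (N n)))
      have h3 := hidx j hj
      have h4 := dist_triangle4 ((d : ℂ) * pt (P (j : ZMod (N n)))) (bc Φ (s j)) (bq Φ)
        ((d : ℂ) * pt (P ((k n : ℕ) : ZMod (N n))))
      rw [dist_comm (bq Φ)] at h4
      have h5 : (M : ℝ) * d ≤
          2 * dist ((d : ℂ) * pt (P (j : ZMod (N n)))) ((d : ℂ) * pt (P ((k n : ℕ) : ZMod (N n)))) := by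
        rw [h2]
        nlinarith
      nlinarith
    constructor
    · by_contra hcon
      push Not at hcon
      have h1 := pos_bw_of (p := P) (k := k n) hbw M (by omega)
      have e : ((k n : ℕ) : ZMod (N n)) - (M : ZMod (N n)) = ((k n - M : ℕ) : ZMod (N n)) := by
        rw [Nat.cast_sub (by omega)]
      rw [e] at h1
      have h2 := hfar (k n - M) (by omega) (by
        rw [h1]
        push_cast
        rw [sub_sub_cancel_left, abs_neg, Nat.abs_cast])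
      have h3 : s (k n - M) ≤ Real.pi := by rw [← hsk]; exact hsm (by omega)
      have h4 : s i ≤ s (k n - M) := hsm (by omega)
      have h5 := hA' (s (k n - M)) (by
        rw [abs_of_nonpos (by linarith), abs_of_nonpos (by linarith)]
        linarith)
      linarith
    · by_contra hcon
      push Not at hcon
      have h1 := pos_fw_of (p := P) (k := k n) hfw M (by omega)
      have e : ((k n : ℕ) : ZMod (N n)) + (M : ZMod (N n)) = ((k n + M : ℕ) : ZMod (N n)) := by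
        push_cast
        rfl
      rw [e] at h1
      have h2 := hfar (k n + M) (by omega) (by
        rw [h1]
        push_cast
        rw [add_sub_cancel_left, Nat.abs_cast])
      have h3 : Real.pi ≤ s (k n + M) := by rw [← hsk]; exact hsm (by omega)
      have h4 : s (k n + M) ≤ s i := hsm (by omega)
      have h5 := hA' (s (k n + M)) (by
        rw [abs_of_nonneg (by linarith), abs_of_nonneg (by linarith)]
        linarith)
      linarith

/-! ### The domain near `b` -/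

/-- the face of a point of the plane -/
theorem exists_face {δ : ℝ} (hδ : 0 < δ) (z : ℂ) : ∃ f : ℤ × ℤ,
    δ * f.1 ≤ z.re ∧ z.re ≤ δ * (f.1 + 1) ∧ δ * f.2 ≤ z.im ∧ z.im ≤ δ * (f.2 + 1) := by
  refine ⟨(⌊z.re / δ⌋, ⌊z.im / δ⌋), ?_, ?_, ?_, ?_⟩
  · have := Int.floor_le (z.re / δ)
    rw [le_div_iff₀ hδ] at this
    linarith
  · have := (Int.lt_floor_add_one (z.re / δ)).le
    rw [div_le_iff₀ hδ] at this
    linarith
  · have := Int.floor_le (z.im / δ)
    rw [le_div_iff₀ hδ] at this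
    linarith
  · have := (Int.lt_floor_add_one (z.im / δ)).le
    rw [div_le_iff₀ hδ] at this
    linarith

section

variable {n : ℕ} {p : ZMod n → ℤ × ℤ} {S : Finset (ℤ × ℤ)} {k M : ℕ} {R : ℤ}

/-- the face of a point near `p k` is in the box -/
theorem Loc.rf_near (H : Loc p S k M R) {δ : ℝ} (hδ : 0 < δ) {z : ℂ} {f : ℤ × ℤ}
    (h1 : δ * f.1 ≤ z.re) (h2 : z.re ≤ δ * (f.1 + 1)) (h3 : δ * f.2 ≤ z.im)
    (h4 : z.im ≤ δ * (f.2 + 1)) {c : ℝ}
    (hz : |z.re - δ * (p k).1| + |z.im - δ * (p k).2| ≤ c) (hc : c + 2 * δ ≤ δ * R) :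
    |(rf f).1 - (ro (p k)).1| + 1 ≤ R ∧ |(rf f).2 - (ro (p k)).2| + 1 ≤ R := by
  have _ := H.hk1
  have a1 := abs_le.1 (show |z.re - δ * (p k).1| ≤ |z.re - δ * (p k).1| from le_rfl)
  have a2 := abs_le.1 (show |z.im - δ * (p k).2| ≤ |z.im - δ * (p k).2| from le_rfl)
  have key : ∀ a b : ℤ, δ * (a : ℝ) ≤ δ * (b : ℝ) → a ≤ b := by
    intro a b h
    exact_mod_cast le_of_mul_le_mul_left h hδ
  simp only [rf, ro]
  constructor
  · have h5 : |f.1 - f.2 - ((p k).1 - (p k).2)| ≤ R - 1 := by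
      rw [abs_le]
      refine ⟨key _ _ ?_, key _ _ ?_⟩ <;> push_cast <;> linarith
    linarith
  · have h5 : |f.1 + f.2 + 1 - ((p k).1 + (p k).2)| ≤ R - 1 := by
      rw [abs_le]
      refine ⟨key _ _ ?_, key _ _ ?_⟩ <;> push_cast <;> linarith
    linarith

/-- points above the staircase are in the domain -/
theorem Loc.mem_Om (H : Loc p S k M R) {δ : ℝ} (hδ : 0 < δ) {z : ℂ} {c : ℝ}
    (hz : |z.re - δ * (p k).1| + |z.im - δ * (p k).2| ≤ c) (hc : c + 2 * δ ≤ δ * R)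
    (hab : δ * ((ro (p k)).2 + 2) ≤ z.re + z.im) : z ∈ region δ S := by
  obtain ⟨f, h1, h2, h3, h4⟩ := exists_face hδ z
  obtain ⟨h5, h6⟩ := H.rf_near hδ h1 h2 h3 h4 hz hc
  refine ⟨f, ?_, h1, h2, h3, h4⟩
  have h7 := (H.face_iff (odd_rf f) h5 h6).2 ?_
  · rwa [rf'_rf] at h7
  · have h8 : δ * (((ro (p k)).2 : ℝ) + 1) ≤ δ * ((rf f).2 : ℝ) := by
      simp only [rf]
      push_cast
      linarith
    have h9 : (ro (p k)).2 + 1 ≤ (rf f).2 := by exact_mod_cast le_of_mul_le_mul_left h8 hδ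
    split_ifs <;> omega

/-- points of the domain are above the staircase -/
theorem Loc.of_mem_Om (H : Loc p S k M R) {δ : ℝ} (hδ : 0 < δ) {z : ℂ} {c : ℝ}
    (hz : |z.re - δ * (p k).1| + |z.im - δ * (p k).2| ≤ c) (hc : c + 3 * δ ≤ δ * R)
    (hab : z ∈ E2.Om δ S) : δ * ((ro (p k)).2 - 2) ≤ z.re + z.im := by
  obtain ⟨w, ⟨f, hf, h1, h2, h3, h4⟩, h5, h6⟩ := hab
  have hw : |w.re - δ * (p k).1| + |w.im - δ * (p k).2| ≤ c + δ := by
    have e1 : |w.re - δ * (p k).1| ≤ |z.re - w.re| + |z.re - δ * (p k).1| := by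
      rw [show w.re - δ * (p k).1 = -(z.re - w.re) + (z.re - δ * (p k).1) by ring]
      refine (abs_add_le _ _).trans ?_
      rw [abs_neg]
    have e2 : |w.im - δ * (p k).2| ≤ |z.im - w.im| + |z.im - δ * (p k).2| := by
      rw [show w.im - δ * (p k).2 = -(z.im - w.im) + (z.im - δ * (p k).2) by ring]
      refine (abs_add_le _ _).trans ?_
      rw [abs_neg]
    linarith
  obtain ⟨h7, h8⟩ := H.rf_near hδ h1 h2 h3 h4 hw (by linarith)
  have h9 := (H.face_iff (odd_rf f) h7 h8).1 (by rwa [rf'_rf])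
  have h10 : (ro (p k)).2 ≤ (rf f).2 := by
    split_ifs at h9 with h11
    · exact h9
    · exact h9.le
  have h12 : ((ro (p k)).2 : ℝ) ≤ (rf f).2 := by exact_mod_cast h10
  rw [abs_lt] at h5 h6
  have h13 : ((rf f).2 : ℝ) = f.1 + f.2 + 1 := by simp only [rf]; push_cast; ring
  rw [h13] at h12
  have h14 := mul_le_mul_of_nonneg_left h12 hδ.le
  nlinarith

end

/-! ### The statement -/

/-- **[K-LIT].** The squares, the open squares, the faces, the vertices of the polygon and the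
domain near the target of a staircase. -/
theorem klit {Φ : (ℝ × ℝ) ≃ₜ (ℝ × ℝ)} {δ : ℕ → ℝ} {N k : ℕ → ℕ} {p : ∀ n, ZMod (N n) → ℤ × ℤ}
    {S : ℕ → Finset (ℤ × ℤ)} (hA : Approx Φ δ N k p S) {r : ℝ} (hr : 0 < r)
    (hst : ∀ᶠ n in atTop, ∀ m : ℕ, m * δ n ≤ r →
      p n ((k n : ZMod (N n)) + m + 1) =
        p n ((k n : ZMod (N n)) + m) + (if Even m then dir 3 else dir 0) ∧
      p n ((k n : ZMod (N n)) - m) =
        p n ((k n : ZMod (N n)) - m - 1) + (if Even m then dir 3 else dir 0)) :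
    ∃ ρ : ℝ, 0 < ρ ∧ ∀ᶠ n in atTop,
      (∀ v ∈ FK.Bq (ro (p n (k n))) ⌊ρ / δ n⌋,
        (v ∈ Dq (S n) (p n) (k n) ↔ (ro (p n (k n))).2 ≤ v.2) ∧
        (v.2 < (ro (p n (k n))).2 → ∀ A ⊆ edges (S n),
          (cfg (wiredOpen (p n) (k n) A) v = true ↔
            v.2 = (ro (p n (k n))).2 - 1 ∧ (ro (p n (k n))).1 ≤ v.1))) ∧
      (∀ x : ℤ, |x - (ro (p n (k n))).1| ≤ ⌊ρ / δ n⌋ → x < (ro (p n (k n))).1 →
        ¬ Even (x + (ro (p n (k n))).2) → rf' (x, (ro (p n (k n))).2) ∉ S n) ∧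
      (∀ x : ℤ, (ro (p n (k n))).1 ≤ x → x - (ro (p n (k n))).1 ≤ ⌊ρ / δ n⌋ →
        Even (x + (ro (p n (k n))).2) →
        ro (p n ((k n : ZMod (N n)) + (x - (ro (p n (k n))).1).toNat)) =
          (x, (ro (p n (k n))).2)) ∧
      (∀ z : ℂ, dist z ((δ n : ℂ) * pt (p n (k n))) < ρ / 4 →
        (δ n * ((ro (p n (k n))).2 + 2) ≤ z.re + z.im → z ∈ region (δ n) (S n)) ∧
        (z ∈ E2.Om (δ n) (S n) → δ n * ((ro (p n (k n))).2 - 2) ≤ z.re + z.im)) := by
  obtain ⟨ρ, hρ, h⟩ := loc_of hA hr hst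
  refine ⟨ρ, hρ, ?_⟩
  have hδ0 : ∀ᶠ n in atTop, δ n < ρ / 8 :=
    hA.2.1.eventually (gt_mem_nhds (show (0 : ℝ) < ρ / 8 by linarith))
  filter_upwards [h, hδ0] with n h hδ0
  obtain ⟨M, H⟩ := h
  have hδ : 0 < δ n := (hA.1 n).1
  have hR0 : 0 ≤ ⌊ρ / δ n⌋ := Int.floor_nonneg.2 (div_nonneg hρ.le hδ.le)
  refine ⟨?_, ?_, ?_, ?_⟩
  · rintro ⟨x, y⟩ hv
    rw [H166.mem_Bq] at hv
    simp only at hv ⊢
    have hx : |x - (ro (p n (k n))).1| + 1 ≤ ⌊ρ / δ n⌋ + 2 := by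
      have : |x - (ro (p n (k n))).1| ≤ ⌊ρ / δ n⌋ := abs_le.2 ⟨by omega, by omega⟩
      linarith
    have hy : |y - (ro (p n (k n))).2| + 2 ≤ ⌊ρ / δ n⌋ + 2 := by
      have : |y - (ro (p n (k n))).2| ≤ ⌊ρ / δ n⌋ := abs_le.2 ⟨by omega, by omega⟩
      linarith
    exact ⟨H.mem_Dq_iff hx hy, fun hlt A hA' => H.cfg_iff hx hy hlt hA'⟩
  · intro x hx hlt hev
    exact H.outer hev (by linarith) (by linarith) hlt
  · intro x hle hx hev
    exact H.wired hev hle (by linarith)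
  · intro z hz
    have hz' : |z.re - δ n * (p n (k n)).1| + |z.im - δ n * (p n (k n)).2| ≤ ρ / 2 := by
      rw [dist_eq_norm] at hz
      have h1 := Complex.abs_re_le_norm (z - (δ n : ℂ) * pt (p n (k n)))
      have h2 := Complex.abs_im_le_norm (z - (δ n : ℂ) * pt (p n (k n)))
      rw [Complex.sub_re, re_pt] at h1
      rw [Complex.sub_im, im_pt] at h2
      linarith
    have hfl : ρ < δ n * ((⌊ρ / δ n⌋ : ℝ) + 1) := by
      have := Int.lt_floor_add_one (ρ / δ n)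
      rw [div_lt_iff₀ hδ] at this
      linarith
    have hc : ρ / 2 + 3 * δ n ≤ δ n * ((⌊ρ / δ n⌋ + 2 : ℤ) : ℝ) := by
      push_cast
      nlinarith
    exact ⟨fun hab => H.mem_Om hδ hz' (by linarith) hab,
      fun hab => H.of_mem_Om hδ hz' hc hab⟩

end Vale.Agent.P167.H918
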