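import Vale.Agent.P167.H918.FlsD
import Vale.Agent.P167.H918.KLitN
import Vale.Agent.P167.H825.G.Far
import Vale.Agent.P167.H446.G.Arith

/-!
# P167, general `q`, [ALL]: the read squares are far from the target (pointwise in the history), the
explored domain near `v₀`, the choice of the scales
-/

set_option autoImplicit false

open Filter Topology Set Metric

namespace Vale.Agent.P167.H918

open Vale.Agent.P153.R2
open Vale.Agent.P153.R2.DET (HC)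
open Vale.Agent.P167 Vale.Agent.P167.E6 Vale.Agent.P167.E2 Vale.Agent.P167.H411
open Vale.Agent.P167.H192 (ro)
open Vale.Agent.P167.H718 (Dq)
open Vale.Agent.P167.H161 (Rd mem_Rd)
open Vale.Agent.P167.H72.SD (dk om Wf)
open Vale.Agent.P167.H318.Rel (Fl Lnd Far)
open Vale.Agent.P167.H446.G (Ku dl_pos Nn_le lt_Nn Ku_le lt_Ku tendsto_dl)

section

variable {Φ : (ℝ × ℝ) ≃ₜ (ℝ × ℝ)} {ψ : ℂ → ℂ} {δ : ℕ → ℝ} {N k : ℕ → ℕ}
  {p : ∀ n, ZMod (N n) → ℤ × ℤ} {S : ℕ → Finset (ℤ × ℤ)} {ψn : ℕ → ℂ → ℂ}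

/-- **[FAR]**, pointwise: before the exit the read squares are far from the target. -/
theorem far_pt (H : Set6 Φ ψ δ N k p S ψn) {T R : ℝ} (hT : 0 ≤ T) (hR : 0 ≤ R) :
    ∃ ρ : ℝ, 0 < ρ ∧ ∀ᶠ n in atTop, ∀ A ∈ (exn δ N k p S ψn n).C,
      ∀ j < (exn δ N k p S ψn n).K A,
      (∀ i < j, (exn δ N k p S ψn n).c A i ≤ T ∧ |(exn δ N k p S ψn n).V A i| ≤ R) →
      ∀ q ∈ Rd (p n) (k n) (S n) A j, ρ / δ n ≤ ((nm (q - ro (p n (k n))) : ℤ) : ℝ) := by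
  obtain ⟨ρ, hρ, h⟩ := H469.sep_n H (H469.radF_pos hT hR)
  refine ⟨ρ / 2, by positivity, ?_⟩
  filter_upwards [h, H469.path_in H hT hR,
    (Metric.tendsto_nhds.1 H.appr.2.1) (ρ / 8) (by positivity)] with n h1 h2 hδ A hA j hj hb q hq
  obtain ⟨hd, -⟩ := H.appr.1 n
  rw [dist_zero_right, Real.norm_of_nonneg hd.le] at hδ
  have h7 := H825.G.dist_bM (p n) (k n) hd.le
  have hpl : ∀ t ∈ Icc (0 : ℝ) j,
      ρ - δ n ≤ dist (pl (p n) (k n) (δ n) A t) ((δ n : ℂ) * pt (p n (k n))) := by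
    intro t ht
    obtain ⟨z, hz, hzC, hzt⟩ := h2 A hA j hj hb t ht
    have h3 := (h1 z hz hzC).1
    rw [hzt] at h3
    have h4 := dist_triangle (pl (p n) (k n) (δ n) A t) ((δ n : ℂ) * pt (p n (k n)))
      (bM (p n) (k n) (δ n))
    linarith
  have hA' : A ⊆ edges (S n) := (mem_Qc (p := p n) (k := k n) (δ := δ n)).1 hA
  rw [mem_Rd hA'] at hq
  obtain ⟨-, i, hi, rfl⟩ := hq
  have hK' : j < nu (p n) (k n) A := hj
  unfold nu at hK'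
  have h1 := hpl ((i + 1 : ℕ) : ℝ) ⟨Nat.cast_nonneg _, by exact_mod_cast (by omega : i + 1 ≤ j)⟩
  have h2 : pl (p n) (k n) (δ n) A ((i + 1 : ℕ) : ℝ) =
      (δ n : ℂ) * cpt (1 / 4) (run (p n) (k n) A i) := by
    unfold pl
    rw [lin_nat, xv_mid (by omega)]
  rw [h2, dist_eq_norm, ← mul_sub, norm_mul, Complex.norm_real, Real.norm_of_nonneg hd.le,
    ← dist_eq_norm] at h1
  have h3 := H825.G.dist_cpt (1 / 4) (by norm_num) (run (p n) (k n) A i)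
  have h4 := dist_triangle (cpt (1 / 4) (run (p n) (k n) A i))
    (pt (run (p n) (k n) A i).1) (pt (p n (k n)))
  have h5 := H825.G.dist_pt_le (run (p n) (k n) A i).1 (p n (k n))
  have h6 := H825.G.sq_near (run (p n) (k n) A i)
  have h8 : nm (ro (run (p n) (k n) A i).1 - ro (p n (k n))) ≤
      nm (H192.sq (ahead (run (p n) (k n) A i)) - ro (p n (k n))) + 1 := by
    have := Enl.nm_tri (ro (run (p n) (k n) A i).1) (H192.sq (ahead (run (p n) (k n) A i)))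
      (ro (p n (k n)))
    have e := Enl.nm_sub_comm (ro (run (p n) (k n) A i).1)
      (H192.sq (ahead (run (p n) (k n) A i)))
    omega
  have h9 : ((nm (ro (run (p n) (k n) A i).1 - ro (p n (k n))) : ℤ) : ℝ) ≤
      ((nm (H192.sq (ahead (run (p n) (k n) A i)) - ro (p n (k n))) : ℤ) : ℝ) + 1 := by
    exact_mod_cast h8
  rw [div_le_iff₀ hd]
  nlinarith

/-- **[FLS] (ii)**, pointwise in the history. -/
theorem fls_pt (H : Set6 Φ ψ δ N k p S ψn) {r₀ : ℝ} (hr₀ : 0 < r₀)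
    (hst : ∀ᶠ n in atTop, ∀ m : ℕ, m * δ n ≤ r₀ →
      p n ((k n : ZMod (N n)) + m + 1) =
        p n ((k n : ZMod (N n)) + m) + (if Even m then dir 3 else dir 0) ∧
      p n ((k n : ZMod (N n)) - m) =
        p n ((k n : ZMod (N n)) - m - 1) + (if Even m then dir 3 else dir 0))
    {T R : ℝ} (hT : 0 ≤ T) (hR : 0 ≤ R) :
    ∃ ρ : ℝ, 0 < ρ ∧ ∀ᶠ n in atTop, ∀ A ∈ (exn δ N k p S ψn n).C,
      ∀ j < (exn δ N k p S ψn n).K A,
      (∀ i < j, (exn δ N k p S ψn n).c A i ≤ T ∧ |(exn δ N k p S ψn n).V A i| ≤ R) →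
      (∀ D r : ℤ, r ≤ D → (D + r) * δ n ≤ ρ →
        Fl (dk (p n) (k n) (S n) A j) (Dq (S n) (p n) (k n)) (om (p n) (k n) A)
          (ro (p n (k n)) - (D, 0)) r) ∧
      (∀ (D m L K : ℤ) (mc : ℕ), K * m ≤ D → 0 < L + D - K * m → (D + L + K * m) * δ n ≤ ρ →
        mc + K * m ≤ D + L + 1 →
        Lnd (dk (p n) (k n) (S n) A j) (ro (p n (k n)) - (D, 0)) m L K
          (Wf (p n) (S n) (k n - mc))) ∧
      (∀ (D r : ℤ) (mc : ℕ), 0 ≤ D → (D + r) * δ n ≤ ρ → D + r + 1 ≤ mc →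
        Far (ro (p n (k n)) - (D, 0)) r (Wf (p n) (S n) (k n - mc))) := by
  obtain ⟨ρ₁, hρ₁, h1⟩ := loc_of H.appr hr₀ hst
  obtain ⟨ρ₂, hρ₂, h2⟩ := far_pt H hT hR
  refine ⟨min ρ₁ (ρ₂ / 2), lt_min hρ₁ (by linarith), ?_⟩
  filter_upwards [h1, h2] with n h1 h2 A hA j hj hb
  obtain ⟨M, HL⟩ := h1
  have hδ : 0 < δ n := (H.appr.1 n).1
  have hfar := h2 A hA j hj hb
  have hA' : A ⊆ edges (S n) :=
    (H411.mem_Qc (p := p n) (k := k n) (δ := δ n)).1 hA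
  have hfar' : ∀ q ∈ Rd (p n) (k n) (S n) A j, ⌈ρ₂ / δ n⌉ ≤ nm (q - ro (p n (k n))) :=
    fun q hq => Int.ceil_le.2 (hfar q hq)
  have key : ∀ x : ℤ, (x : ℝ) * δ n ≤ min ρ₁ (ρ₂ / 2) → x ≤ ⌊ρ₁ / δ n⌋ ∧ x < ⌈ρ₂ / δ n⌉ := by
    intro x hx
    constructor
    · rw [Int.le_floor, le_div_iff₀ hδ]
      exact hx.trans (min_le_left _ _)
    · rw [Int.lt_ceil, lt_div_iff₀ hδ]
      have := hx.trans (min_le_right _ _)
      linarith
  refine ⟨?_, ?_, ?_⟩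
  · intro D r hrD hDr
    obtain ⟨a1, a2⟩ := key (D + r) (by push_cast; exact hDr)
    refine HL.fl hA' hfar' (by simp) ?_ ?_ ?_
    · simp only [Prod.fst_sub]
      omega
    · simp only [Prod.fst_sub]
      omega
    · simp only [Prod.fst_sub]
      omega
  · intro D m L K mc hKD hpos hDr hmc
    obtain ⟨a1, a2⟩ := key (D + L + K * m) (by push_cast; exact hDr)
    refine HL.lnd hfar' (by simp) ?_ ?_ ?_ ?_ ?_
    · simp only [Prod.fst_sub]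
      omega
    · simp only [Prod.fst_sub]
      omega
    · simp only [Prod.fst_sub]
      omega
    · simp only [Prod.fst_sub]
      omega
    · simp only [Prod.fst_sub]
      omega
  · intro D r mc hD hDr hmc
    obtain ⟨a1, a2⟩ := key (D + r) (by push_cast; exact hDr)
    refine HL.far_wf (by simp) ?_ ?_ ?_
    · simp only [Prod.fst_sub]
      omega
    · simp only [Prod.fst_sub]
      omega
    · simp only [Prod.fst_sub]
      omega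

end

/-! ### The choice of the scales -/

theorem Ku_Nn_bd {L s δ : ℝ} (hL : 0 ≤ L) (hs : 0 < s) (hδ : 0 < δ)
    (hd : H446.G.dl δ * (4 * L) ≤ s * s) :
    L - 2 * s ≤ H446.G.dl δ * ((Ku L s : ℝ) * H446.G.Nn s δ) ∧ H446.G.dl δ * ((Ku L s : ℝ) * H446.G.Nn s δ) ≤ L := by
  have hdp := dl_pos hδ
  have h1 := Nn_le hs hδ
  have h2 := lt_Nn (s := s) hδ
  have h3 := Ku_le hL hs
  have h4 := lt_Ku (L := L) hs
  have h5 : (0 : ℝ) ≤ Ku L s := Nat.cast_nonneg _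
  constructor
  · have h6 : (Ku L s : ℝ) * (s - 4 * H446.G.dl δ) ≤ Ku L s * (H446.G.dl δ * H446.G.Nn s δ) :=
      mul_le_mul_of_nonneg_left h2.le h5
    have h7 : (Ku L s : ℝ) * (4 * H446.G.dl δ) ≤ s := by
      have h8 : (Ku L s : ℝ) * s * (4 * H446.G.dl δ) ≤ L * (4 * H446.G.dl δ) :=
        mul_le_mul_of_nonneg_right h3 (by positivity)
      have h9 : (Ku L s : ℝ) * (4 * H446.G.dl δ) * s ≤ s * s := by nlinarith
      exact le_of_mul_le_mul_right h9 hs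
    nlinarith
  · have h6 : (Ku L s : ℝ) * (H446.G.dl δ * H446.G.Nn s δ) ≤ Ku L s * s := mul_le_mul_of_nonneg_left h1 h5
    nlinarith

theorem half_Nn {s δ : ℝ} : ((H446.G.Nn s δ / 2 : ℕ) : ℝ) = (H446.G.Nn s δ : ℝ) / 2 := by
  obtain ⟨a, ha⟩ := H446.G.Nn_dvd s δ
  have e : 4 * a / 2 = 2 * a := by omega
  rw [ha, e]
  push_cast
  ring

theorem sqrt2_pos' : 0 < Real.sqrt 2 := Real.sqrt_pos.2 (by norm_num)

/-- The constants of [ALL]. -/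
theorem all_num {Ld Lc mm ρ : ℝ} {K : ℤ} (hK : 1 ≤ K) (h0 : 0 < Ld) (h1 : Ld < Lc) (h2 : 0 < mm)
    (hρ : 4 * Ld ≤ ρ) : ∃ (M : ℕ) (m₀ s₀ : ℝ), 0 < m₀ ∧ 0 < s₀ ∧ ∀ s : ℝ, 0 < s → s ≤ s₀ →
      ∀ (m₁ : ℤ) (δ : ℕ → ℝ), (∀ n, 0 < δ n) → Tendsto δ atTop (𝓝 0) → ∀ᶠ n in atTop,
      0 < H446.G.Nn s (δ n) ∧ (H446.G.Nn s (δ n) : ℤ) ≤ ⌊m₀ / H446.G.dl (δ n)⌋ ∧ m₁ ≤ ⌊m₀ / H446.G.dl (δ n)⌋ ∧
      K * ⌊m₀ / H446.G.dl (δ n)⌋ ≤ ((Ku Ld s * H446.G.Nn s (δ n) + H446.G.Nn s (δ n) / 2 : ℕ) : ℤ) ∧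
      ((((Ku Ld s * H446.G.Nn s (δ n) + H446.G.Nn s (δ n) / 2 : ℕ) : ℤ) : ℝ) +
        ((K * ⌊m₀ / H446.G.dl (δ n)⌋ : ℤ) : ℝ)) * δ n ≤ ρ ∧
      ((Ku Ld s * H446.G.Nn s (δ n) + H446.G.Nn s (δ n) / 2 : ℕ) : ℤ) + K * ⌊m₀ / H446.G.dl (δ n)⌋ + 1 ≤
        ((Ku Lc s * H446.G.Nn s (δ n) + H446.G.Nn s (δ n) / 2 : ℕ) : ℤ) ∧
      K * ⌊m₀ / H446.G.dl (δ n)⌋ + 1 ≤ (Ku mm s : ℤ) * H446.G.Nn s (δ n) ∧
      2 * (K * ⌊m₀ / H446.G.dl (δ n)⌋) ≤ (Ku mm s : ℤ) * H446.G.Nn s (δ n) ∧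
      ((Ku Lc s : ℤ) - Ku Ld s) * H446.G.Nn s (δ n) + K * ⌊m₀ / H446.G.dl (δ n)⌋ ≤ M * ⌊m₀ / H446.G.dl (δ n)⌋ ∧
      Ku Ld s ≤ Ku Lc s ∧ 0 ≤ ⌊m₀ / H446.G.dl (δ n)⌋ := by
  have hKR : (1 : ℝ) ≤ K := by exact_mod_cast hK
  obtain ⟨c, hc, c1, c2, c3⟩ : ∃ c : ℝ, 0 < c ∧ c ≤ Ld / 8 ∧ c ≤ (Lc - Ld) / 8 ∧ c ≤ mm / 16 :=
    ⟨min (min (Ld / 8) ((Lc - Ld) / 8)) (mm / 16),
      lt_min (lt_min (by linarith) (by linarith)) (by linarith),
      (min_le_left _ _).trans (min_le_left _ _), (min_le_left _ _).trans (min_le_right _ _),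
      min_le_right _ _⟩
  set m₀ : ℝ := c / K with hm₀
  have hm₀p : 0 < m₀ := by positivity
  have hKm₀ : K * m₀ = c := by rw [hm₀]; field_simp
  have hm₀c : m₀ ≤ c := by rw [← hKm₀]; nlinarith
  refine ⟨⌈4 * Lc / m₀⌉₊, m₀, m₀ / 8, hm₀p, by positivity, ?_⟩
  intro s hs hs0 m₁ δ hδ hδ0
  have hM : 4 * Lc / m₀ ≤ (⌈4 * Lc / m₀⌉₊ : ℝ) := Nat.le_ceil _
  rw [div_le_iff₀ hm₀p] at hM
  have ht := tendsto_dl hδ0
  have ev : ∀ x y : ℝ, 0 < y → ∀ᶠ n in atTop, H446.G.dl (δ n) * x < y := by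
    intro x y hy
    have h3 : Tendsto (fun n => H446.G.dl (δ n) * x) atTop (𝓝 (0 * x)) := ht.mul_const x
    rw [zero_mul] at h3
    exact h3.eventually (gt_mem_nhds hy)
  filter_upwards [ev (4 * Ld) (s * s) (by positivity), ev (4 * Lc) (s * s) (by positivity),
    ev (4 * mm) (s * s) (by positivity), ev 8 s hs, ev |(m₁ : ℝ)| (m₀ / 2) (by positivity)] with
    n e1 e2 e3 e4 e5
  have hd := dl_pos (hδ n)
  obtain ⟨a1, a2⟩ := Ku_Nn_bd h0.le hs (hδ n) e1.le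
  obtain ⟨b1, b2⟩ := Ku_Nn_bd (show 0 ≤ Lc by linarith) hs (hδ n) e2.le
  obtain ⟨g1, g2⟩ := Ku_Nn_bd h2.le hs (hδ n) e3.le
  have n1 := Nn_le hs (hδ n)
  have n2 := lt_Nn (s := s) (hδ n)
  have n0 : (0 : ℝ) ≤ H446.G.Nn s (δ n) := Nat.cast_nonneg _
  set d := H446.G.dl (δ n) with hdd
  set m : ℤ := ⌊m₀ / d⌋ with hm
  have m1 : (m : ℝ) * d ≤ m₀ := by
    have := Int.floor_le (m₀ / d)
    rwa [le_div_iff₀ hd] at this
  have m2 : m₀ < ((m : ℝ) + 1) * d := by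
    have := Int.lt_floor_add_one (m₀ / d)
    rwa [div_lt_iff₀ hd] at this
  have hm0 : 0 ≤ m := Int.floor_nonneg.2 (by positivity)
  have hm0R : (0 : ℝ) ≤ m := by exact_mod_cast hm0
  have hKm : (K : ℝ) * m * d ≤ c := by
    have : (K : ℝ) * (m * d) ≤ K * m₀ := mul_le_mul_of_nonneg_left m1 (by linarith)
    rw [hKm₀] at this
    linarith
  have key : ∀ x y : ℤ, (x : ℝ) * d ≤ (y : ℝ) * d → x ≤ y := fun x y h => by
    exact_mod_cast le_of_mul_le_mul_right h hd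
  have hhalf := half_Nn (s := s) (δ := δ n)
  have eD : (((Ku Ld s * H446.G.Nn s (δ n) + H446.G.Nn s (δ n) / 2 : ℕ) : ℤ) : ℝ) =
      (Ku Ld s : ℝ) * H446.G.Nn s (δ n) + (H446.G.Nn s (δ n) : ℝ) / 2 := by
    rw [← hhalf]
    push_cast
    rfl
  have eC : (((Ku Lc s * H446.G.Nn s (δ n) + H446.G.Nn s (δ n) / 2 : ℕ) : ℤ) : ℝ) =
      (Ku Lc s : ℝ) * H446.G.Nn s (δ n) + (H446.G.Nn s (δ n) : ℝ) / 2 := by
    rw [← hhalf]
    push_cast
    rfl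
  set NN : ℝ := (H446.G.Nn s (δ n) : ℝ) with hNN
  have n3 : 0 ≤ d * NN := by positivity
  have q1 : ((Ku Ld s : ℝ) * NN + NN / 2) * d = d * ((Ku Ld s : ℝ) * NN) + d * NN / 2 := by ring
  have q2 : ((Ku Lc s : ℝ) * NN + NN / 2) * d = d * ((Ku Lc s : ℝ) * NN) + d * NN / 2 := by ring
  refine ⟨?_, ?_, ?_, ?_, ?_, ?_, ?_, ?_, ?_, ?_, hm0⟩
  · have : (0 : ℝ) < NN := by
      by_contra hcon
      push Not at hcon
      have h3 : d * NN ≤ 0 := mul_nonpos_of_nonneg_of_nonpos hd.le hcon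
      linarith
    rw [hNN] at this
    exact_mod_cast this
  · apply key
    rw [Int.cast_natCast]
    have h3 : NN * d = d * NN := mul_comm _ _
    have h4 : ((m : ℝ) + 1) * d = m * d + d := by ring
    linarith
  · apply key
    have h3 := mul_le_mul_of_nonneg_left (le_abs_self (m₁ : ℝ)) hd.le
    have h4 : ((m : ℝ) + 1) * d = m * d + d := by ring
    have h5 : (m₁ : ℝ) * d = d * m₁ := mul_comm _ _
    linarith
  · apply key
    rw [eD, q1, Int.cast_mul]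
    linarith
  · rw [eD]
    have hsq : Real.sqrt 2 ≤ 2 := by
      rw [Real.sqrt_le_left (by norm_num)]
      norm_num
    have hsq0 : 0 < Real.sqrt 2 := sqrt2_pos'
    have hδe : δ n = Real.sqrt 2 * d := by
      rw [hdd]
      unfold H446.G.dl
      field_simp
    rw [hδe, Int.cast_mul]
    have h3 : ((Ku Ld s : ℝ) * NN + NN / 2 + K * m) * d ≤ 2 * Ld := by
      have : ((Ku Ld s : ℝ) * NN + NN / 2 + K * m) * d =
          ((Ku Ld s : ℝ) * NN + NN / 2) * d + K * m * d := by ring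
      rw [this, q1]
      linarith
    have h4 : ((Ku Ld s : ℝ) * NN + NN / 2 + K * m) * (Real.sqrt 2 * d) =
        Real.sqrt 2 * (((Ku Ld s : ℝ) * NN + NN / 2 + K * m) * d) := by ring
    rw [h4]
    have h5 := mul_le_mul_of_nonneg_left h3 hsq0.le
    have h6 : Real.sqrt 2 * (2 * Ld) ≤ 2 * (2 * Ld) :=
      mul_le_mul_of_nonneg_right hsq (by linarith)
    linarith
  · apply key
    rw [Int.cast_add, Int.cast_add, eD, eC, q2, Int.cast_mul, Int.cast_one]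
    have h3 : ((Ku Ld s : ℝ) * NN + NN / 2 + K * m + 1) * d =
        ((Ku Ld s : ℝ) * NN + NN / 2) * d + K * m * d + d := by ring
    rw [h3, q1]
    linarith
  · apply key
    rw [Int.cast_add, Int.cast_mul, Int.cast_one, Int.cast_mul, Int.cast_natCast, Int.cast_natCast]
    have h3 : ((K : ℝ) * m + 1) * d = K * m * d + d := by ring
    have h4 : (Ku mm s : ℝ) * NN * d = d * ((Ku mm s : ℝ) * NN) := by ring
    rw [h3, h4]
    linarith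
  · apply key
    rw [Int.cast_mul, Int.cast_mul, Int.cast_mul, Int.cast_natCast, Int.cast_natCast]
    have h3 : ((2 : ℤ) : ℝ) * ((K : ℝ) * m) * d = 2 * (K * m * d) := by push_cast; ring
    have h4 : (Ku mm s : ℝ) * NN * d = d * ((Ku mm s : ℝ) * NN) := by ring
    rw [h3, h4]
    linarith
  · apply key
    rw [Int.cast_add, Int.cast_mul, Int.cast_mul, Int.cast_mul, Int.cast_sub, Int.cast_natCast,
      Int.cast_natCast, Int.cast_natCast, Int.cast_natCast]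
    have h3 : ((⌈4 * Lc / m₀⌉₊ : ℕ) : ℝ) * (m₀ / 2) ≤ ((⌈4 * Lc / m₀⌉₊ : ℕ) : ℝ) * (m * d) := by
      refine mul_le_mul_of_nonneg_left ?_ (Nat.cast_nonneg _)
      have h4 : ((m : ℝ) + 1) * d = m * d + d := by ring
      linarith
    have h4 : (((Ku Lc s : ℝ) - Ku Ld s) * NN + K * m) * d =
        d * ((Ku Lc s : ℝ) * NN) - d * ((Ku Ld s : ℝ) * NN) + K * m * d := by ring
    have h5 : ((⌈4 * Lc / m₀⌉₊ : ℕ) : ℝ) * m * d = ((⌈4 * Lc / m₀⌉₊ : ℕ) : ℝ) * (m * d) := by ring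
    rw [h4, h5]
    linarith
  · exact H446.G.Ku_mono hs h1.le

end Vale.Agent.P167.H918
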