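import Vale.Agent.P167.H918.FltS

/-!
# P167, general `q`, SAND: points far away in the half-plane are mapped near the target
-/

set_option autoImplicit false

open Filter Topology Set Metric

namespace Vale.Agent.P167.H918

open Vale.Agent.P153.R2.L1 (HH)
open Vale.Agent.P167.H411 (Set6)
open Vale.Agent.P167.SG (Bf Flt)
open Vale.Agent.P167.H446.G (psr vd)
open Vale.Agent.P167.H192 (ro)

variable {Φ : (ℝ × ℝ) ≃ₜ (ℝ × ℝ)} {ψ : ℂ → ℂ} {δ : ℕ → ℝ} {N k : ℕ → ℕ}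
  {p : ∀ n, ZMod (N n) → ℤ × ℤ} {S : ℕ → Finset (ℤ × ℤ)} {ψn : ℕ → ℂ → ℂ}

theorem k1_gen (H : Set6 Φ ψ δ N k p S ψn) {r : ℝ} (hr : 0 < r) :
    ∃ X : ℝ, ∀ᶠ n in atTop, ∀ (v₀ : ℤ × ℤ) (x : ℝ),
      En (fr (δ n) v₀) (bl δ N k p n) = (x : ℂ) → ∀ z : ℂ, 0 ≤ z.im → X ≤ ‖z‖ →
        psr (δ n) v₀ (ψn n) z ∈ Bf x r := by
  obtain ⟨X, h⟩ := k1 H hr
  refine ⟨X, ?_⟩
  filter_upwards [h] with n hn v₀ x hx z hz hzX
  rw [psr_eq]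
  exact Bf_of_dist hx (hn z hz hzX)

/-- points far away are mapped near the target, every frame with the origin on the line of the
target -/
theorem k1_row (H : Set6 Φ ψ δ N k p S ψn) {r : ℝ} (hr : 0 < r) :
    ∃ X : ℝ, ∀ᶠ n in atTop, ∀ v₀ : ℤ × ℤ, v₀.2 = (ro (p n (k n))).2 → ∀ z : ℂ, 0 ≤ z.im →
      X ≤ ‖z‖ →
        psr (δ n) v₀ (ψn n) z ∈ Bf (H446.G.dl (δ n) * (((ro (p n (k n))).1 - v₀.1 : ℤ) : ℝ)) r := by
  obtain ⟨X, h5⟩ := k1_gen H hr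
  refine ⟨X, ?_⟩
  filter_upwards [h5] with n h5 v₀ hv
  exact h5 _ _ (en_row (p n) (k n) (δ n) hv)

end Vale.Agent.P167.H918
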