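import Vale.Agent.P167.H825.G.FarJ
import Vale.Agent.P167.H446.G.Lit
import Vale.Agent.P167.H713.Q.SeamD
import Vale.Agent.P167.H918.FltN

/-!
# P167, general `q`, SAND: the banks of the path are far from the target

`far_bank`: for all histories before the exit the sites of the two banks are far from the points near
the target; `far_frm`: the same in the frames with the origin on the line of the target.
-/

set_option autoImplicit false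

open Filter Topology Set Metric

namespace Vale.Agent.P167.H918

open Vale.Agent.P167.E6 Vale.Agent.P167.E2
open Vale.Agent.P167.H411 (Set6 exn)
open Vale.Agent.P167.H446.G (Bef)
open Vale.Agent.P167.H161 (zp zp_ro)
open Vale.Agent.P167.H72.SD (LB RB)
open Vale.Agent.P167.SG (Bf)

variable {Φ : (ℝ × ℝ) ≃ₜ (ℝ × ℝ)} {ψ : ℂ → ℂ} {δ : ℕ → ℝ} {N k : ℕ → ℕ}
  {p : ∀ n, ZMod (N n) → ℤ × ℤ} {S : ℕ → Finset (ℤ × ℤ)} {ψn : ℕ → ℂ → ℂ}

theorem dist_zp {δ : ℝ} (hδ : 0 ≤ δ) {s t : ℤ × ℤ} (h1 : |s.1 - t.1| ≤ 1) (h2 : |s.2 - t.2| ≤ 1) :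
    dist (zp δ s) (zp δ t) ≤ 2 * δ := by
  have a1 : |(s.1 : ℝ) - t.1| ≤ 1 := by exact_mod_cast h1
  have a2 : |(s.2 : ℝ) - t.2| ≤ 1 := by exact_mod_cast h2
  rw [abs_le] at a1 a2
  rw [dist_eq_norm]
  refine (Complex.norm_le_abs_re_add_abs_im _).trans ?_
  have b1 : |(zp δ s - zp δ t).re| ≤ δ := by
    have e : (zp δ s - zp δ t).re = δ * (((s.1 : ℝ) - t.1 + ((s.2 : ℝ) - t.2)) / 2) := by
      simp only [zp, Complex.sub_re]
      push_cast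
      ring
    rw [e, abs_mul, abs_of_nonneg hδ]
    refine mul_le_of_le_one_right hδ (abs_le.2 ⟨by linarith, by linarith⟩)
  have b2 : |(zp δ s - zp δ t).im| ≤ δ := by
    have e : (zp δ s - zp δ t).im = δ * (((s.2 : ℝ) - t.2 - ((s.1 : ℝ) - t.1)) / 2) := by
      simp only [zp, Complex.sub_im]
      push_cast
      ring
    rw [e, abs_mul, abs_of_nonneg hδ]
    refine mul_le_of_le_one_right hδ (abs_le.2 ⟨by linarith, by linarith⟩)
  linarith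

theorem face_near (v : ℤ × ℤ) (r : Fin 4) :
    |(H192.rf (face v r)).1 - (H192.ro v).1| ≤ 1 ∧ |(H192.rf (face v r)).2 - (H192.ro v).2| ≤ 1 := by
  constructor <;> rw [abs_le] <;> fin_cases r <;> simp [H192.rf, face, H192.ro] <;> omega

/-- **[FAR]** for the banks. -/
theorem far_bank (H : Set6 Φ ψ δ N k p S ψn) {T R : ℝ} (hT : 0 ≤ T) (hR : 0 ≤ R) :
    ∃ ρ : ℝ, 0 < ρ ∧ ∀ᶠ n in atTop, ∀ (A : Finset (Sym2 (ℤ × ℤ))) (j : ℕ),
      Bef (exn δ N k p S ψn n) T R A j → ∀ y : ℂ, dist y (bl δ N k p n) ≤ ρ →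
      ∀ o, o ∈ LB (p n) (k n) A j ∨ o ∈ RB (p n) (k n) A j → 6 * δ n < dist y (zp (δ n) o) := by
  obtain ⟨ρ, hρ, h⟩ := H825.G.far_bef H hT hR
  refine ⟨ρ / 2, by positivity, ?_⟩
  have hδ0 : ∀ᶠ n in atTop, δ n < ρ / 20 :=
    H.appr.2.1.eventually (gt_mem_nhds (show (0 : ℝ) < ρ / 20 by linarith))
  filter_upwards [h, hδ0] with n hn hδ0 A j hB y hy o ho
  obtain ⟨hA, hj, hb⟩ := hB
  obtain ⟨-, h2, -⟩ := hn A hA j hj hb
  have hδ : 0 < δ n := (H.appr.1 n).1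
  obtain ⟨i, hi, hoi⟩ : ∃ i ≤ j - 1, dist (zp (δ n) o) (zp (δ n) (H192.ro (run (p n) (k n) A i).1)) ≤
      2 * δ n := by
    rcases ho with ⟨i, hi, rfl⟩ | ⟨i, hi, rfl⟩
    · refine ⟨i, hi, ?_⟩
      rw [H192.ls_me, dist_self]
      linarith
    · refine ⟨i, hi, ?_⟩
      rw [H192.rs_me]
      obtain ⟨g1, g2⟩ := face_near (run (p n) (k n) A i).1 (run (p n) (k n) A i).2
      exact dist_zp hδ.le g1 g2
  have h3 := h2 i hi
  rw [zp_ro] at hoi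
  have hy' : dist y ((δ n : ℂ) * pt (p n (k n))) ≤ ρ / 2 := hy
  have h4 := dist_triangle4 ((δ n : ℂ) * pt (run (p n) (k n) A i).1) (zp (δ n) o) y
    ((δ n : ℂ) * pt (p n (k n)))
  rw [dist_comm _ (zp (δ n) o), dist_comm (zp (δ n) o) y] at h4
  linarith

/-- The same in the frames. -/
theorem far_frm (H : Set6 Φ ψ δ N k p S ψn) {T R : ℝ} (hT : 0 ≤ T) (hR : 0 ≤ R) :
    ∃ ρ : ℝ, 0 < ρ ∧ ∀ᶠ n in atTop, ∀ (A : Finset (Sym2 (ℤ × ℤ))) (j : ℕ),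
      Bef (exn δ N k p S ψn n) T R A j → ∀ v₀ : ℤ × ℤ, v₀.2 = (H192.ro (p n (k n))).2 → ∀ y : ℂ,
      H446.G.rt * y + -((H446.G.dl (δ n) : ℂ) * pt v₀) ∈
        Bf (H446.G.dl (δ n) * (((H192.ro (p n (k n))).1 - v₀.1 : ℤ) : ℝ)) ρ →
      ∀ o, o ∈ LB (p n) (k n) A j ∨ o ∈ RB (p n) (k n) A j → 6 * δ n < dist y (zp (δ n) o) := by
  obtain ⟨ρ, hρ, h⟩ := far_bank H hT hR
  refine ⟨ρ / 2, by positivity, ?_⟩
  filter_upwards [h] with n hn A j hB v₀ hv y hy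
  refine hn A j hB y ?_
  have h1 := dist_of_Bf (en_row (p n) (k n) (δ n) hv) (z := y) hy
  show dist y ((δ n : ℂ) * pt (p n (k n))) ≤ ρ
  linarith

end Vale.Agent.P167.H918
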