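import Vale.Agent.P167.H506.SHP.Inp
import Vale.Agent.P167.H918.Far

/-!
# P167, general `q`, SAND: the field `far` for all situations
-/

set_option autoImplicit false

open Filter Topology Set Metric

namespace Vale.Agent.P167.H918

open Vale.Agent.P167.E6
open Vale.Agent.P167.H411 (Set6 exn)
open Vale.Agent.P167.H446.G (Bef)
open Vale.Agent.P167.H161 (zp)
open Vale.Agent.P167.H72.SD (LB RB)
open Vale.Agent.P167.SG (Bf)
open Vale.Agent.P167.H397.K (frm)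
open Vale.Agent.P167.H704.Shp (v1 lb)
open Vale.Agent.P167.H713.Q (oR)
open Vale.Agent.P167.H506.SHP (AllH FlS)

/-- The target in the frame `v1`. -/
theorem lb_v1 {n : ℕ} (p : ZMod n → ℤ × ℤ) (k : ℕ) (L s δ : ℝ) :
    (v1 p k L s δ).2 = (H192.ro (p k)).2 ∧
      H446.G.dl δ * (((H192.ro (p k)).1 - (v1 p k L s δ).1 : ℤ) : ℝ) = lb s δ / 2 := by
  constructor
  · show (H192.ro (p k)).2 - 0 = _
    rw [sub_zero]
  · have h := half_Nn (s := s) (δ := δ)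
    have e : ((H192.ro (p k)).1 - (v1 p k L s δ).1 : ℤ) =
        2 * (H446.G.Nn s δ : ℤ) + ((H446.G.Nn s δ / 2 : ℕ) : ℤ) := by
      show (H192.ro (p k)).1 - ((H192.ro (p k)).1 -
        ((H446.G.Ku L s * H446.G.Nn s δ + H446.G.Nn s δ / 2 : ℕ) : ℤ) +
        ((H446.G.Ku L s : ℤ) - 2) * H446.G.Nn s δ) = _
      push_cast
      ring
    rw [e]
    have e2 : ((2 * (H446.G.Nn s δ : ℤ) + ((H446.G.Nn s δ / 2 : ℕ) : ℤ) : ℤ) : ℝ) =
        2 * (H446.G.Nn s δ : ℝ) + (H446.G.Nn s δ : ℝ) / 2 := by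
      rw [← h]
      push_cast
      rfl
    rw [e2]
    unfold lb
    ring

/-- Boxes of squares and boxes of the frame. -/
theorem oR_iff {δ : ℝ} {v₁ b : ℤ × ℤ} (h2 : v₁.2 = b.2) {B : ℝ} {y : ℂ} :
    y ∈ oR δ b B ↔
      frm δ v₁ y ∈ Bf (H446.G.dl δ * ((b.1 - v₁.1 : ℤ) : ℝ)) (H446.G.dl δ * B) := by
  have h0 : (0 : ℝ) < √2 := by positivity
  have hd : δ / √2 = H446.G.dl δ := rfl
  have e1 : (frm δ v₁ y).re - H446.G.dl δ * ((b.1 - v₁.1 : ℤ) : ℝ) =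
      (y.re - y.im - δ * b.1) / √2 := by
    unfold frm
    rw [Complex.add_re, H446.G.rt_re, ← hd]
    simp [pt]
    ring
  have e2 : (frm δ v₁ y).im = (y.re + y.im - δ * b.2) / √2 := by
    unfold frm
    rw [Complex.add_im, H446.G.rt_im, ← hd, ← h2]
    simp [pt]
    ring
  have e3 : H446.G.dl δ * B = δ * B / √2 := by rw [← hd]; ring
  show _ ∧ _ ↔ _ ∧ _
  rw [e1, e2, e3, abs_div, abs_div, abs_of_pos h0, div_lt_div_iff_of_pos_right h0,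
    div_lt_div_iff_of_pos_right h0]

section

variable {Φ : (ℝ × ℝ) ≃ₜ (ℝ × ℝ)} {ψ : ℂ → ℂ} {δ : ℕ → ℝ} {N k : ℕ → ℕ}
  {p : ∀ n, ZMod (N n) → ℤ × ℤ} {S : ℕ → Finset (ℤ × ℤ)} {ψn : ℕ → ℂ → ℂ}

/-- **`far`**, the whole box of radius `rf`. -/
theorem f_far (H : Set6 Φ ψ δ N k p S ψn) : AllH δ N k p S ψn fun C K s n A j _ _ =>
    ∀ y : ℂ, frm (δ n) (v1 (p n) (k n) C.Ld s (δ n)) y ∈ Bf (lb s (δ n) / 2) K.rf →
      ∀ o, o ∈ LB (p n) (k n) A j ∨ o ∈ RB (p n) (k n) A j → 6 * δ n < dist y (zp (δ n) o) := by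
  intro T R hT hR
  obtain ⟨ρ, hρ, h⟩ := far_frm H hT hR.le
  refine ⟨ρ, hρ, fun C K eT eR _ hr => ⟨1, one_pos, fun s _ _ => ?_⟩⟩
  filter_upwards [h] with n hn A j hB c O _ y hy o ho
  rw [eT, eR] at hB
  obtain ⟨e1, e2⟩ := lb_v1 (p n) (k n) C.Ld s (δ n)
  refine hn A j hB _ e1 y ?_ o ho
  rw [e2]
  exact ⟨hy.1.trans_le hr, hy.2.trans_le hr⟩

/-- **`far`** on the flat part. -/
theorem f_far_fl (H : Set6 Φ ψ δ N k p S ψn) : AllH δ N k p S ψn fun C K s n A j c _ =>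
    ∀ y ∈ FlS C K δ N k p S s n A j c,
      ∀ o, o ∈ LB (p n) (k n) A j ∨ o ∈ RB (p n) (k n) A j → 6 * δ n < dist y (zp (δ n) o) := by
  intro T R hT hR
  obtain ⟨ρ, hρ, h⟩ := f_far H T R hT hR
  refine ⟨ρ, hρ, fun C K eT eR hK hr => ?_⟩
  obtain ⟨s₀, hs₀, h⟩ := h C K eT eR hK hr
  refine ⟨s₀, hs₀, fun s hs hs' => ?_⟩
  have h1 := hK.rcf
  have h2 := hK.rf0
  have h3 := hK.rc0
  have ht := H446.G.tendsto_dl H.appr.2.1
  filter_upwards [h s hs hs', ht.eventually (gt_mem_nhds (show 0 < K.rf / 100 by positivity))]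
    with n hn hd A j hB c O hC y hy
  have hδ : 0 < δ n := (H.appr.1 n).1
  have hdp := H446.G.dl_pos hδ
  refine hn A j hB c O hC y ?_
  rcases hy with hy | hy
  · obtain ⟨e1, e2⟩ := lb_v1 (p n) (k n) C.Ld s (δ n)
    have h4 := (oR_iff e1).1 hy.2
    rw [e2] at h4
    have h5 : H446.G.dl (δ n) * ((H469.Fl.Bs K.rc (δ n) : ℤ) : ℝ) ≤ K.rf := by
      unfold H469.Fl.Bs
      have h6 := (Int.ceil_lt_add_one (K.rc / (2 * H446.G.dl (δ n)))).le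
      push_cast
      have h7 : H446.G.dl (δ n) * (K.rc / (2 * H446.G.dl (δ n))) = K.rc / 2 := by
        field_simp
      nlinarith
    exact ⟨h4.1.trans_le h5, h4.2.trans_le h5⟩
  · obtain ⟨-, -, hy, -⟩ := hy
    exact ⟨hy.1.trans_le (by linarith), hy.2.trans_le (by linarith)⟩

end

end Vale.Agent.P167.H918
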