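import Vale.Agent.P167.H918.Kx
import Vale.Agent.P167.SG.Cls2
import Vale.Agent.P167.H446.G.Arith

/-!
# P167, general `q`, SAND: the flat side near the target, in the frame of the squares

`flt`: the structure `SG.Flt` for the rotated map `psr`, uniformly in `n` and in the frame.
-/

set_option autoImplicit false

open Filter Topology Set Metric Bornology

namespace Vale.Agent.P167.H918

open Vale.Agent.P153.R2
open Vale.Agent.P153.R2.R1 (IsU)
open Vale.Agent.P153.R2.L1 (HH)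
open Vale.Agent.P167.E6
open Vale.Agent.P167.H192
open Vale.Agent.P167.H411 (Set6)
open Vale.Agent.P167.SG (Bf Flt)
open Vale.Agent.P167.H446.G (psr vd Ku psr_b dl_pos)

/-- the translation of the frame with the origin `v₀` -/
noncomputable def fr (δ : ℝ) (v₀ : ℤ × ℤ) : ℂ := -((H446.G.dl δ : ℂ) * pt v₀)

/-- the target in the frame -/
noncomputable def xbf (L s δ : ℝ) : ℝ := H446.G.dl δ * ((Ku L s : ℝ) * H446.G.Nn s δ + H446.G.Nn s δ / 2)

theorem psr_eq (δ : ℝ) (v₀ : ℤ × ℤ) (ψ : ℂ → ℂ) (z : ℂ) : psr δ v₀ ψ z = En (fr δ v₀) (ψ z) := rfl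

theorem psr_img (δ : ℝ) (v₀ : ℤ × ℤ) (ψ : ℂ → ℂ) (X : Set ℂ) :
    psr δ v₀ ψ '' X = En (fr δ v₀) '' (ψ '' X) := by
  rw [image_image]
  rfl

theorem en_b {n : ℕ} (p : ZMod n → ℤ × ℤ) (k : ℕ) (L s δ : ℝ) :
    En (fr δ (vd p k L s δ)) ((δ : ℂ) * pt (p k)) = (xbf L s δ : ℂ) := psr_b p k L s δ

/-- frames with the origin on the line of the target -/
theorem en_row {n : ℕ} (p : ZMod n → ℤ × ℤ) (k : ℕ) {v₀ : ℤ × ℤ} (δ : ℝ) (h : v₀.2 = (ro (p k)).2) :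
    En (fr δ v₀) ((δ : ℂ) * pt (p k)) =
      ((H446.G.dl δ * (((ro (p k)).1 - v₀.1 : ℤ) : ℝ) : ℝ) : ℂ) := by
  show H446.G.rt * ((δ : ℂ) * pt (p k)) + -((H446.G.dl δ : ℂ) * pt v₀) = _
  rw [H446.G.rt_pt]
  apply Complex.ext
  · simp only [pt, Complex.add_re, Complex.neg_re, Complex.re_ofReal_mul, Complex.ofReal_re]
    push_cast
    ring
  · simp only [pt, Complex.add_im, Complex.neg_im, Complex.im_ofReal_mul, Complex.ofReal_im, h]
    ring

theorem rtc_ne : rtc ≠ 0 := by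
  intro h0
  have := norm_rtc
  rw [h0, norm_zero] at this
  norm_num at this

/-- points of the box of the frame -/
theorem mem_Bf {t b : ℂ} {x r : ℝ} (hb : En t b = (x : ℂ)) (z : ℂ) :
    En t z ∈ Bf x r ↔ |(rtc * (z - b)).re| < r ∧ |(rtc * (z - b)).im| < r := by
  have h : En t z = rtc * (z - b) + (x : ℂ) := by rw [← hb, ← En_sub t z b]; ring
  unfold Bf
  rw [mem_ofPred_eq, h, Complex.add_re, Complex.add_im, Complex.ofReal_re, Complex.ofReal_im,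
    add_sub_cancel_right, add_zero]

theorem dist_of_Bf {t b : ℂ} {x r : ℝ} (hb : En t b = (x : ℂ)) {z : ℂ} (h : En t z ∈ Bf x r) :
    dist z b < 2 * r := by
  rw [mem_Bf hb] at h
  rw [dist_eq_norm]
  have h1 : ‖z - b‖ = ‖rtc * (z - b)‖ := by rw [norm_mul, norm_rtc, one_mul]
  rw [h1]
  have := Complex.norm_le_abs_re_add_abs_im (rtc * (z - b))
  linarith [h.1, h.2]

theorem Bf_of_dist {t b : ℂ} {x r : ℝ} (hb : En t b = (x : ℂ)) {z : ℂ} (h : dist z b < r) :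
    En t z ∈ Bf x r := by
  rw [mem_Bf hb]
  rw [dist_eq_norm] at h
  have h1 : ‖z - b‖ = ‖rtc * (z - b)‖ := by rw [norm_mul, norm_rtc, one_mul]
  rw [h1] at h
  exact ⟨(Complex.abs_re_le_norm _).trans_lt h, (Complex.abs_im_le_norm _).trans_lt h⟩

/-- the inverse of the frame -/
theorem exists_En (t w : ℂ) : ∃ z, En t z = w := by
  refine ⟨(w - t) / rtc, ?_⟩
  unfold En
  rw [mul_div_cancel₀ _ rtc_ne]
  ring

section

variable {Φ : (ℝ × ℝ) ≃ₜ (ℝ × ℝ)} {ψ : ℂ → ℂ} {δ : ℕ → ℝ} {N k : ℕ → ℕ}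
  {p : ∀ n, ZMod (N n) → ℤ × ℤ} {S : ℕ → Finset (ℤ × ℤ)} {ψn : ℕ → ℂ → ℂ}

theorem img_HH (H : Set6 Φ ψ δ N k p S ψn) {n : ℕ} (hk : k n + 1 < N n) :
    ψn n '' HH = E2.Om (δ n) (S n) := (H.isU n hk).img

/-- the height in the frame -/
theorem en_im (t z b : ℂ) : (En t z - En t b).im = ((z - b).re + (z - b).im) / Real.sqrt 2 := by
  rw [En_sub, rtc_im]

theorem k3_gen (H : Set6 Φ ψ δ N k p S ψn) (X : ℝ) :
    ∃ rc : ℝ, 0 < rc ∧ ∀ᶠ n in atTop, ∀ (v₀ : ℤ × ℤ) (x : ℝ),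
      En (fr (δ n) v₀) (bl δ N k p n) = (x : ℂ) → ∀ z ∈ HH,
        psr (δ n) v₀ (ψn n) z ∈ Bf x rc → X ≤ ‖z‖ := by
  obtain ⟨r, hr, h⟩ := k3 H X
  refine ⟨r / 2, by linarith, ?_⟩
  filter_upwards [h] with n hn v₀ x hx z hz hzB
  rw [psr_eq] at hzB
  have h1 := dist_of_Bf hx hzB
  exact (hn z (le_of_lt hz) (by linarith)).le

/-- **[FLT]** The flat side near the target, in every frame. -/
theorem flt_gen (H : Set6 Φ ψ δ N k p S ψn) {r : ℝ} (hr : 0 < r)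
    (hst : ∀ᶠ n in atTop, ∀ m : ℕ, m * δ n ≤ r →
      p n ((k n : ZMod (N n)) + m + 1) =
        p n ((k n : ZMod (N n)) + m) + (if Even m then dir 3 else dir 0) ∧
      p n ((k n : ZMod (N n)) - m) =
        p n ((k n : ZMod (N n)) - m - 1) + (if Even m then dir 3 else dir 0))
    {X1 : ℝ} (hX1 : 0 < X1) {r₁ : ℝ} (hr₁ : 0 < r₁) :
    ∃ rf cg X3 : ℝ, 0 < rf ∧ rf ≤ r₁ ∧ 0 < cg ∧ max X1 1 ≤ X3 ∧
      ∀ᶠ n in atTop, ∀ (v₀ : ℤ × ℤ) (x : ℝ), En (fr (δ n) v₀) (bl δ N k p n) = (x : ℂ) →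
      ∃ (Gt : Set ℂ) (x₁ : ℂ), Flt (psr (δ n) v₀ (ψn n)) x rf cg X1 X3 (3 * H446.G.dl (δ n)) Gt x₁ := by
  have h2 := sqrt2_pos
  obtain ⟨ρ, hρ, h24⟩ := k24 H.appr hr hst
  obtain ⟨ρL, hρL, hLoc⟩ := loc_of H.appr hr hst
  obtain ⟨r3, hr3, h3⟩ := k3 H X1
  obtain ⟨rf, hrf, f1, f2, f3, f4⟩ : ∃ rf : ℝ, 0 < rf ∧ rf ≤ r₁ ∧ rf ≤ ρ / 4 ∧ rf ≤ ρL / 16 ∧
      rf ≤ r3 / 4 := by
    refine ⟨min r₁ (min (ρ / 4) (min (ρL / 16) (r3 / 4))), ?_, min_le_left _ _, ?_, ?_, ?_⟩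
    · exact lt_min hr₁ (lt_min (by linarith) (lt_min (by linarith) (by linarith)))
    · exact (min_le_right _ _).trans (min_le_left _ _)
    · exact (min_le_right _ _).trans ((min_le_right _ _).trans (min_le_left _ _))
    · exact (min_le_right _ _).trans ((min_le_right _ _).trans (min_le_right _ _))
  -- the gate
  set g' : ℂ := (⟨0, -(rf / 2)⟩ : ℂ) / rtc with hg'
  have hgg : rtc * g' = ⟨0, -(rf / 2)⟩ := mul_div_cancel₀ _ rtc_ne
  have hg1 : dist g' 0 < ρ := by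
    rw [dist_zero_right]
    have e : ‖rtc * g'‖ = ‖g'‖ := by rw [norm_mul, norm_rtc, one_mul]
    rw [← e, hgg]
    refine (Complex.norm_le_abs_re_add_abs_im _).trans_lt ?_
    simp only [abs_zero, zero_add, abs_neg, abs_of_pos (half_pos hrf)]
    linarith
  have hg2 : g'.re + g'.im < 0 := by
    have e : (rtc * g').im = -(rf / 2) := by rw [hgg]
    rw [rtc_im, div_eq_iff h2.ne'] at e
    rw [e]
    nlinarith
  obtain ⟨c, L₀, hc, hL₀, h5⟩ := k5 H.appr (h24.mono fun n hn z hz hz2 => (hn.1 z hz).1 hz2) hg1 hg2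
  obtain ⟨X, hX⟩ := k1 H (show 0 < rf / 4 by linarith)
  have hδ0 : ∀ᶠ n in atTop, δ n < ρL / 40 :=
    H.appr.2.1.eventually (gt_mem_nhds (show (0 : ℝ) < ρL / 40 by linarith))
  refine ⟨rf, c, max (max X1 1) X, hrf, f1, hc, le_max_left _ _, ?_⟩
  filter_upwards [h24, hLoc, h3, h5, hX, hδ0] with n h24 hLoc h3 h5 hX hδ0 v₀ x hb
  obtain ⟨M, HL⟩ := hLoc
  obtain ⟨G, g1, g2, g3, g4⟩ := h5
  have hδ : 0 < δ n := (H.appr.1 n).1
  have hd : 0 < H446.G.dl (δ n) := dl_pos hδ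
  have hk : k n + 1 < N n := by
    have := HL.hk2
    omega
  have himg := img_HH H hk
  set t : ℂ := fr (δ n) v₀ with ht
  have hD : psr (δ n) v₀ (ψn n) '' HH = En t '' E2.Om (δ n) (S n) := by
    rw [psr_img, himg]
  have hdl : H446.G.dl (δ n) * Real.sqrt 2 = δ n := by
    unfold H446.G.dl
    rw [div_mul_cancel₀ _ h2.ne']
  have hR : 4 * rf + 3 * δ n ≤ δ n * ((⌊ρL / δ n⌋ + 2 : ℤ) : ℝ) := by
    have hfl : ρL < δ n * ((⌊ρL / δ n⌋ : ℝ) + 1) := by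
      have := Int.lt_floor_add_one (ρL / δ n)
      rw [div_lt_iff₀ hδ] at this
      linarith
    push_cast
    nlinarith
  have hbre : (bl δ N k p n).re = δ n * (p n (k n)).1 := bl_re n
  have hbim : (bl δ N k p n).im = δ n * (p n (k n)).2 := bl_im n
  refine ⟨En t '' G, ⟨x + L₀ + c, 0⟩, ⟨by linarith, hrf, hX1, ?_, ?_, ?_, ?_, ?_, ?_, ?_, ?_, ?_, ?_, ?_⟩⟩
  · exact (le_max_left X1 1).trans (le_max_left _ _)
  · -- near
    intro z hz hzX
    rw [psr_eq]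
    exact Bf_of_dist hb (hX z (le_of_lt hz) ((le_max_right _ _).trans hzX))
  · -- far
    intro z hz hzB
    rw [psr_eq] at hzB
    have h1 := dist_of_Bf hb hzB
    exact (h3 z (le_of_lt hz) (by linarith)).le
  · -- low
    intro z hz hzB
    rw [psr_eq] at hzB ⊢
    have h1 := dist_of_Bf hb hzB
    have hzO : ψn n z ∈ E2.Om (δ n) (S n) := by rw [← himg]; exact mem_image_of_mem _ hz
    have h6 := (h24.1 (ψn n z) (by linarith)).1 hzO
    have e : (En t (ψn n z)).im = (En t (ψn n z) - En t (bl δ N k p n)).im := by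
      rw [hb, Complex.sub_im, Complex.ofReal_im, sub_zero]
    rw [e, en_im, lt_div_iff₀ h2]
    have e2 : -(3 * H446.G.dl (δ n)) * Real.sqrt 2 = -(3 * δ n) := by
      linear_combination (-3) * hdl
    rw [e2]
    linarith
  · -- up
    intro w hw hwi
    rw [hD]
    obtain ⟨z, rfl⟩ := exists_En t w
    have h1 := dist_of_Bf hb hw
    have e : (En t z).im = (En t z - En t (bl δ N k p n)).im := by
      rw [hb, Complex.sub_im, Complex.ofReal_im, sub_zero]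
    rw [e, en_im, lt_div_iff₀ h2] at hwi
    have e2 : 3 * H446.G.dl (δ n) * Real.sqrt 2 = 3 * δ n := by
      linear_combination 3 * hdl
    rw [e2] at hwi
    exact mem_image_of_mem _ ((h24.1 z (by linarith)).2 (by linarith)).2
  · -- lift
    rw [hD]
    rintro _ ⟨u, hu, rfl⟩ hub w' hw' hre him
    obtain ⟨u', rfl⟩ := exists_En t w'
    have h1 := dist_of_Bf hb hub
    have h1' := dist_of_Bf hb hw'
    have e1 : (rtc * (u' - u)).re = 0 := by
      rw [← En_sub t, Complex.sub_re, hre, sub_self]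
    have e2 : 0 ≤ (rtc * (u' - u)).im := by
      rw [← En_sub t, Complex.sub_im]
      linarith
    rw [rtc_re, div_eq_zero_iff] at e1
    rw [rtc_im, le_div_iff₀ h2, zero_mul] at e2
    have e3 : (u' - u).re = (u' - u).im := by
      rcases e1 with e1 | e1
      · linarith
      · exact absurd e1 h2.ne'
    refine mem_image_of_mem _ (HL.up_Om hδ hu (s := (u' - u).re) (by linarith) ?_ ?_
      (c := 4 * rf) ?_ ?_ hR)
    · rw [Complex.sub_re]; ring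
    · rw [e3, Complex.sub_im]; ring
    · have := l1_le h1.le
      rw [hbre, hbim] at this
      linarith
    · have := l1_le h1'.le
      rw [hbre, hbim] at this
      linarith
  · exact g1.image _ (continuous_En _).continuousOn
  · refine ⟨_, g2, ?_⟩
    have e : En t (bl δ N k p n + g') = En t (bl δ N k p n) + rtc * g' := by unfold En; ring
    rw [e, hb, hgg]
    apply Complex.ext <;> simp
  · rw [hD]
    rintro _ ⟨y, hy, rfl⟩ _ ⟨u, hu, rfl⟩
    rw [dist_En]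
    exact g4 y hy u hu
  · obtain ⟨y, hy⟩ := exists_En t ⟨x + L₀ + c, 0⟩
    refine ⟨y, g3 ?_, hy⟩
    show L₀ ≤ dist y (bl δ N k p n)
    rw [← dist_En t, hy, hb, dist_eq_norm]
    have e : (⟨x + L₀ + c, 0⟩ : ℂ) - (x : ℂ) = ((L₀ + c : ℝ) : ℂ) := by
      apply Complex.ext
      · simp
        ring
      · simp
    rw [e, Complex.norm_real, Real.norm_of_nonneg (by linarith)]
    linarith
  · rw [hD]
    rintro _ ⟨u, hu, rfl⟩
    have h6 : dist u (bl δ N k p n) < L₀ := by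
      by_contra hcon
      push Not at hcon
      have := g4 u (g3 hcon) u hu
      rw [dist_self] at this
      linarith
    rw [← dist_En t, hb, dist_eq_norm] at h6
    have h7 := (abs_lt.1 ((Complex.abs_re_le_norm _).trans_lt h6)).2
    rw [Complex.sub_re, Complex.ofReal_re] at h7
    show (En t u).re + c ≤ x + L₀ + c
    linarith

/-- **[FLT]** in the frame of `vd`. -/
theorem flt (H : Set6 Φ ψ δ N k p S ψn) {r : ℝ} (hr : 0 < r)
    (hst : ∀ᶠ n in atTop, ∀ m : ℕ, m * δ n ≤ r →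
      p n ((k n : ZMod (N n)) + m + 1) =
        p n ((k n : ZMod (N n)) + m) + (if Even m then dir 3 else dir 0) ∧
      p n ((k n : ZMod (N n)) - m) =
        p n ((k n : ZMod (N n)) - m - 1) + (if Even m then dir 3 else dir 0))
    {X1 : ℝ} (hX1 : 0 < X1) {r₁ : ℝ} (hr₁ : 0 < r₁) :
    ∃ rf cg X3 : ℝ, 0 < rf ∧ rf ≤ r₁ ∧ 0 < cg ∧ max X1 1 ≤ X3 ∧ ∀ᶠ n in atTop, ∀ L s : ℝ,
      ∃ (Gt : Set ℂ) (x₁ : ℂ), Flt (psr (δ n) (vd (p n) (k n) L s (δ n)) (ψn n)) (xbf L s (δ n))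
        rf cg X1 X3 (3 * H446.G.dl (δ n)) Gt x₁ := by
  obtain ⟨rf, cg, X3, h1, h2, h3, h4, h5⟩ := flt_gen H hr hst hX1 hr₁
  refine ⟨rf, cg, X3, h1, h2, h3, h4, ?_⟩
  filter_upwards [h5] with n h5 L s
  exact h5 _ _ (en_b (p n) (k n) L s (δ n))

theorem k3' (H : Set6 Φ ψ δ N k p S ψn) (X : ℝ) :
    ∃ rc : ℝ, 0 < rc ∧ ∀ᶠ n in atTop, ∀ L s : ℝ, ∀ z ∈ HH,
      psr (δ n) (vd (p n) (k n) L s (δ n)) (ψn n) z ∈ Bf (xbf L s (δ n)) rc → X ≤ ‖z‖ := by
  obtain ⟨rc, h1, h5⟩ := k3_gen H X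
  refine ⟨rc, h1, ?_⟩
  filter_upwards [h5] with n h5 L s
  exact h5 _ _ (en_b (p n) (k n) L s (δ n))

end

end Vale.Agent.P167.H918
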