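import Vale.Agent.P167.H918.Teeth
import Vale.Agent.P167.QE.Ft

/-!
# P167, general `q`, SAND: [FLT] and [TEETH] for the staircases `QE.Stair 3`
-/

set_option autoImplicit false

open Filter Topology Set Metric

namespace Vale.Agent.P167.H918

open Vale.Agent.P153.R2.L1 (HH)
open Vale.Agent.P167.H411 (Set6)
open Vale.Agent.P167.SG (Bf Flt)
open Vale.Agent.P167.H446.G (psr vd)
open Vale.Agent.P167.H192 (ro)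

variable {Φ : (ℝ × ℝ) ≃ₜ (ℝ × ℝ)} {ψ : ℂ → ℂ} {δ : ℕ → ℝ} {N k : ℕ → ℕ}
  {p : ∀ n, ZMod (N n) → ℤ × ℤ} {S : ℕ → Finset (ℤ × ℤ)} {ψn : ℕ → ℂ → ℂ}

/-- **[FLT]** -/
theorem flt_S (H : Set6 Φ ψ δ N k p S ψn) (hK : QE.Stair 3 Φ δ N k p S) {X1 : ℝ} (hX1 : 0 < X1)
    {r₁ : ℝ} (hr₁ : 0 < r₁) :
    ∃ rf cg X3 : ℝ, 0 < rf ∧ rf ≤ r₁ ∧ 0 < cg ∧ max X1 1 ≤ X3 ∧ ∀ᶠ n in atTop, ∀ L s : ℝ,
      ∃ (Gt : Set ℂ) (x₁ : ℂ), Flt (psr (δ n) (vd (p n) (k n) L s (δ n)) (ψn n)) (xbf L s (δ n))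
        rf cg X1 X3 (3 * H446.G.dl (δ n)) Gt x₁ := by
  obtain ⟨r, hr, hst⟩ := hK
  exact flt H hr hst hX1 hr₁

/-- **[TEETH]** -/
theorem teeth_S (H : Set6 Φ ψ δ N k p S ψn) (hK : QE.Stair 3 Φ δ N k p S) :
    ∃ ρ : ℝ, 0 < ρ ∧ ∀ rf : ℝ, 0 < rf → rf ≤ ρ → ∀ᶠ n in atTop, ∀ L s : ℝ,
      ∃ (ι : Type) (_ : Finite ι) (K : ι → Set ℂ),
        (∀ i, K i ⊆ psr (δ n) (vd (p n) (k n) L s (δ n)) (ψn n) '' HH) ∧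
        (∀ i, K i ⊆ Bf (xbf L s (δ n)) rf) ∧ (∀ i, IsPreconnected (K i)) ∧
        (∀ i, ∀ x ∈ K i, ∀ y ∈ K i, dist x y ≤ 8 * H446.G.dl (δ n)) ∧
        (∀ i, ∀ x ∈ K i, x.im ≤ 0) ∧
        (∀ i, ∃ x ∈ closure (K i), x ∉ psr (δ n) (vd (p n) (k n) L s (δ n)) (ψn n) '' HH) ∧
        (∀ z ∈ psr (δ n) (vd (p n) (k n) L s (δ n)) (ψn n) '' HH,
          z ∈ Bf (xbf L s (δ n)) (rf / 2) → z.im ≤ 0 → ∃ i, z ∈ K i) := by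
  obtain ⟨r, hr, hst⟩ := hK
  exact teeth H hr hst

/-- **[FLT]**, every frame with the origin on the line of the target -/
theorem flt_row (H : Set6 Φ ψ δ N k p S ψn) (hK : QE.Stair 3 Φ δ N k p S) {X1 : ℝ} (hX1 : 0 < X1)
    {r₁ : ℝ} (hr₁ : 0 < r₁) :
    ∃ rf cg X3 : ℝ, 0 < rf ∧ rf ≤ r₁ ∧ 0 < cg ∧ max X1 1 ≤ X3 ∧ ∀ᶠ n in atTop,
      ∀ v₀ : ℤ × ℤ, v₀.2 = (ro (p n (k n))).2 → ∃ (Gt : Set ℂ) (x₁ : ℂ),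
        Flt (psr (δ n) v₀ (ψn n)) (H446.G.dl (δ n) * (((ro (p n (k n))).1 - v₀.1 : ℤ) : ℝ))
          rf cg X1 X3 (3 * H446.G.dl (δ n)) Gt x₁ := by
  obtain ⟨r, hr, hst⟩ := hK
  obtain ⟨rf, cg, X3, h1, h2, h3, h4, h5⟩ := flt_gen H hr hst hX1 hr₁
  refine ⟨rf, cg, X3, h1, h2, h3, h4, ?_⟩
  filter_upwards [h5] with n h5 v₀ hv
  exact h5 _ _ (en_row (p n) (k n) (δ n) hv)

/-- points near the target come from far away, every frame -/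
theorem k3_row (H : Set6 Φ ψ δ N k p S ψn) (X : ℝ) :
    ∃ rc : ℝ, 0 < rc ∧ ∀ᶠ n in atTop, ∀ v₀ : ℤ × ℤ, v₀.2 = (ro (p n (k n))).2 → ∀ z ∈ HH,
      psr (δ n) v₀ (ψn n) z ∈ Bf (H446.G.dl (δ n) * (((ro (p n (k n))).1 - v₀.1 : ℤ) : ℝ)) rc →
        X ≤ ‖z‖ := by
  obtain ⟨rc, h1, h5⟩ := k3_gen H X
  refine ⟨rc, h1, ?_⟩
  filter_upwards [h5] with n h5 v₀ hv
  exact h5 _ _ (en_row (p n) (k n) (δ n) hv)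

/-- **[TEETH]**, every frame with the origin on the line of the target -/
theorem teeth_row (H : Set6 Φ ψ δ N k p S ψn) (hK : QE.Stair 3 Φ δ N k p S) :
    ∃ ρ : ℝ, 0 < ρ ∧ ∀ rf : ℝ, 0 < rf → rf ≤ ρ → ∀ᶠ n in atTop,
      ∀ v₀ : ℤ × ℤ, v₀.2 = (ro (p n (k n))).2 →
      ∃ (ι : Type) (_ : Finite ι) (K : ι → Set ℂ),
        (∀ i, K i ⊆ psr (δ n) v₀ (ψn n) '' HH) ∧
        (∀ i, K i ⊆ Bf (H446.G.dl (δ n) * (((ro (p n (k n))).1 - v₀.1 : ℤ) : ℝ)) rf) ∧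
        (∀ i, IsPreconnected (K i)) ∧
        (∀ i, ∀ x ∈ K i, ∀ y ∈ K i, dist x y ≤ 8 * H446.G.dl (δ n)) ∧
        (∀ i, ∀ x ∈ K i, x.im ≤ 0) ∧
        (∀ i, ∃ x ∈ closure (K i), x ∉ psr (δ n) v₀ (ψn n) '' HH) ∧
        (∀ z ∈ psr (δ n) v₀ (ψn n) '' HH,
          z ∈ Bf (H446.G.dl (δ n) * (((ro (p n (k n))).1 - v₀.1 : ℤ) : ℝ)) (rf / 2) → z.im ≤ 0 →
            ∃ i, z ∈ K i) := by
  obtain ⟨r, hr, hst⟩ := hK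
  obtain ⟨ρ, hρ, h⟩ := teeth_gen H hr hst
  refine ⟨ρ, hρ, fun rf h1 h2 => ?_⟩
  filter_upwards [h rf h1 h2] with n h5 v₀ hv
  exact h5 _ _ (en_row (p n) (k n) (δ n) hv)

/-- **[TEETH]**, every frame with the origin on the line of the target, two radii -/
theorem teeth_row2 (H : Set6 Φ ψ δ N k p S ψn) (hK : QE.Stair 3 Φ δ N k p S) :
    ∃ ρ : ℝ, 0 < ρ ∧ ∀ ra rb : ℝ, 0 < ra → ra < rb → rb ≤ ρ → ∀ᶠ n in atTop,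
      ∀ v₀ : ℤ × ℤ, v₀.2 = (ro (p n (k n))).2 →
      ∃ (ι : Type) (_ : Finite ι) (K : ι → Set ℂ),
        (∀ i, K i ⊆ psr (δ n) v₀ (ψn n) '' HH) ∧
        (∀ i, K i ⊆ Bf (H446.G.dl (δ n) * (((ro (p n (k n))).1 - v₀.1 : ℤ) : ℝ)) rb) ∧
        (∀ i, IsPreconnected (K i)) ∧
        (∀ i, ∀ x ∈ K i, ∀ y ∈ K i, dist x y ≤ 8 * H446.G.dl (δ n)) ∧
        (∀ i, ∀ x ∈ K i, x.im ≤ 0) ∧
        (∀ i, ∃ x ∈ closure (K i), x ∉ psr (δ n) v₀ (ψn n) '' HH) ∧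
        (∀ z ∈ psr (δ n) v₀ (ψn n) '' HH,
          z ∈ Bf (H446.G.dl (δ n) * (((ro (p n (k n))).1 - v₀.1 : ℤ) : ℝ)) ra → z.im ≤ 0 →
            ∃ i, z ∈ K i) := by
  obtain ⟨r, hr, hst⟩ := hK
  obtain ⟨ρ, hρ, h⟩ := teeth_two H hr hst
  refine ⟨ρ, hρ, fun ra rb h1 h2 h3 => ?_⟩
  filter_upwards [h ra rb h1 h2 h3] with n h5 v₀ hv
  exact h5 _ _ (en_row (p n) (k n) (δ n) hv)

end Vale.Agent.P167.H918
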