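import Vale.Agent.P167.H918.FlsP
import Vale.Agent.P167.H446.G.Lit
import Vale.Agent.P167.H446.G.Flat2
import Vale.Agent.P167.H318.Rel.Main
import Vale.Agent.P167.QE.Ft

/-!
# P167, general `q`, [ALL]: the bound for all histories
-/

set_option autoImplicit false

open Filter Topology Set

namespace Vale.Agent.P167.H918

open Vale.Agent.P167.E6 (edges dir)
open Vale.Agent.P167.BR (hbox sites Jn)
open Vale.Agent.P167.H411 (Set6 exn)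
open Vale.Agent.P167.H192 (ro)
open Vale.Agent.P167.H718 (Dq)
open Vale.Agent.P167.H72.SD (dk om Wf)
open Vale.Agent.P167.H318.Rel (Fl Lnd Far Sld On Ast)
open Vale.Agent.P167.H446.G (Cst I_all Fam Bef)
open Vale.Agent.P167.QT (Sh4 fz PZ Adm dom ext arcc)

/-- the function `fz` as a product of indicators -/
theorem fz_eq (Dc Z : Finset (ℤ × ℤ)) (ζ : Cfg) (W : Set (ℤ × ℤ)) :
    fz Dc Z ζ W = fun ω => (On Z ζ).indicator 1 ω * (Ast Dc Z W).indicator 1 ω := by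
  classical
  funext ω
  unfold fz
  by_cases h1 : ω ∈ On Z ζ
  · by_cases h2 : ω ∈ Ast Dc Z W
    · rw [indicator_of_mem h1, indicator_of_mem h2, if_pos ⟨h1, h2⟩]
      simp
    · rw [indicator_of_notMem h2, if_neg (fun h => h2 h.2), mul_zero]
  · rw [indicator_of_notMem h1, if_neg (fun h => h1 h.1), zero_mul]

section

variable {Φ : (ℝ × ℝ) ≃ₜ (ℝ × ℝ)} {ψ : ℂ → ℂ} {δ : ℕ → ℝ} {N k : ℕ → ℕ}
  {p : ∀ n, ZMod (N n) → ℤ × ℤ} {S : ℕ → Finset (ℤ × ℤ)} {ψn : ℕ → ℂ → ℂ}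

/-- **[ALL]** -/
theorem all (H : Set6 Φ ψ δ N k p S ψn) (hK : QE.Stair 3 Φ δ N k p S) {T R μ : ℝ} (hT : 0 ≤ T)
    (hR : 0 < R) (hμ : 1 ≤ 2 * Real.cos μ) (hRSW : FK.RSW (2 * Real.cos μ))
    (hSRSW : H192.Q.SRSW (2 * Real.cos μ)) :
    ∃ ρ : ℝ, 0 < ρ ∧ ∀ C : Cst, C.T = T → C.R = R → C.Sm ρ → I_all μ C δ N k p S ψn := by
  obtain ⟨r₀, hr₀, hst⟩ := hK
  obtain ⟨ρ, hρ, hF⟩ := fls_pt H hr₀ hst hT hR.le
  refine ⟨ρ / 4, by linarith, fun C hCT hCR hC => ?_⟩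
  obtain ⟨c1, c2, c3, c4⟩ := hC
  obtain ⟨K, hK1, hcmp⟩ := H318.Rel.cmp hμ hRSW hSRSW
  obtain ⟨M, m₀, s₀, hm₀, hs₀, hnum⟩ := all_num (Ld := C.Ld) (Lc := C.Lc) (mm := C.m) (ρ := ρ) hK1
    (by linarith) (by linarith) c1 (by linarith)
  obtain ⟨Cc, m1, hCc, hm1, hle⟩ := hcmp M
  refine ⟨Cc, hCc, s₀, hs₀, fun s hs hss => ?_⟩
  filter_upwards [hnum s hs hss m1 δ (fun n => (H.appr.1 n).1) H.appr.2.1, hF] with
    n hn hFn A j hB P₀ hP₀ Z ζ hZ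
  obtain ⟨hA, hj, hb⟩ := hB
  rw [hCT, hCR] at hb
  obtain ⟨hδ, -, -, hpoly, henc⟩ := H.appr.1 n
  obtain ⟨a1, a2, a3, a4, a5, a6, a7, a8, a9, a10, a11⟩ := hn
  obtain ⟨f1, -, f3⟩ := hFn A hA j hj hb
  obtain ⟨b1, b2, b3, -⟩ := hP₀
  have hA' : A ⊆ edges (S n) :=
    (H411.mem_Qc (p := p n) (k := k n) (δ := δ n)).1 hA
  set m : ℤ := ⌊m₀ / H446.G.dl (δ n)⌋ with hm
  set NN : ℕ := H446.G.Nn s (δ n) with hNN
  set v₀ := H446.G.vd (p n) (k n) C.Ld s (δ n) with hv₀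
  have hlj : ((P₀.l : ℤ) - P₀.j) = (H446.G.Ku C.Lc s : ℤ) - H446.G.Ku C.Ld s := by omega
  have hq : 0 < (2 * Real.cos μ) ^ 2 := by positivity
  have hsq : Real.sqrt ((2 * Real.cos μ) ^ 2) = 2 * Real.cos μ := Real.sqrt_sq (by linarith)
  have hKm0 : 0 ≤ K * m := mul_nonneg (by omega) a11
  -- the explored domain
  have hFl := f1 _ _ a4 a5
  have hFar := f3 _ (K * m) (H446.G.mq C.Lc s (δ n) + 1) (by omega) a5 (a6.trans
    (Int.ofNat_le.2 (Nat.le_succ (H446.G.mq C.Lc s (δ n)))))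
  -- the shape
  have hFl' := H446.G.fl_shape (v₀ := v₀) b1 a1 (R := K * m) a7
  have hLnd := H446.G.lnd_shape (v₀ := v₀) b1 a1 (m := m) (K := K) hKm0 a8
  have hZ1 : Z ⊆ hbox v₀ m := hZ.sub.trans fun v hv => by
    rw [BR.mem_hbox] at hv ⊢
    omega
  have hL1 : K * m ≤ ((P₀.l : ℤ) - P₀.j) * NN + K * m := by
    have h1 : (0 : ℤ) ≤ (P₀.l : ℤ) - P₀.j := H446.G.flat_arith b1
    have h2 : (0 : ℤ) ≤ ((P₀.l : ℤ) - P₀.j) * NN := mul_nonneg h1 (by positivity)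
    linarith
  have hL2 : ((P₀.l : ℤ) - P₀.j) * NN + K * m ≤ M * m := by
    rw [hlj]
    exact a9
  have hfin := hle (dk (p n) (k n) (S n) A j) (Dq (S n) (p n) (k n)) (dom NN v₀ P₀) (dom NN v₀ P₀)
    Z (om (p n) (k n) A) (ext NN v₀ P₀) ζ v₀ m _ (H446.G.wf C (p n) (k n) (S n) (δ n) s)
    (arcc NN v₀ P₀) a3 hL1 hL2 hZ1 hZ.sld hFl hFar hFl' hLnd
  have hex := QG.cexW_exn hq δ N k p S ψn n hpoly henc
    (fz (Dq (S n) (p n) (k n)) Z ζ (H446.G.wf C (p n) (k n) (S n) (δ n) s)) hA' j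
  rw [hsq] at hex
  rw [← fz_eq, ← fz_eq] at hfin
  refine (le_of_eq hex).trans ?_
  exact hfin

end

end Vale.Agent.P167.H918
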