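import Vale.Agent.P167.H918.FarX

/-!
# P167, general `q`, SAND: the domain near the target, for all situations, and the field `wfl`
-/

set_option autoImplicit false

open Filter Topology Set Metric

namespace Vale.Agent.P167.H918

open Vale.Agent.P167.E6
open Vale.Agent.P167.H411 (Set6 exn)
open Vale.Agent.P167.H446.G (Bef mq)
open Vale.Agent.P167.H161 (zp zp_ro Rd)
open Vale.Agent.P167.H72.SD (LB RB)
open Vale.Agent.P167.H704.Shp (v1 lb)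
open Vale.Agent.P167.H469.Fl (Bs)
open Vale.Agent.P167.H506.SHP (AllH FlS F_wfl)

/-- The domain side of `Dt`. -/
structure Dd {n : ℕ} (p : ZMod n → ℤ × ℤ) (k : ℕ) (S : Finset (ℤ × ℤ))
    (A : Finset (Sym2 (ℤ × ℤ))) (j : ℕ) (δ : ℝ) (M : ℕ) (R B : ℤ) (mc : ℕ) : Prop where
  loc : Loc p S k M R
  hA : A ⊆ edges S
  hδ : 0 < δ
  hR : B + 18 ≤ R
  hmc : mc % 2 = 0
  hmB : (mc : ℤ) + 4 ≤ B
  rd : ∀ y ∈ Rd p k S A j, B + 14 < nm (y - H192.ro (p k))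
  lr : ∀ o, o ∈ LB p k A j ∨ o ∈ RB p k A j → B + 14 < nm (o - H192.ro (p k))
  path : ∀ t ∈ Icc (0 : ℝ) j, (B + 14 : ℝ) * δ < dist (E2.pl p k δ A t) ((δ : ℂ) * pt (p k))

theorem mq_even (L s δ : ℝ) : mq L s δ % 2 = 0 := by
  unfold mq
  obtain ⟨a, ha⟩ := H446.G.Nn_dvd s δ
  rw [ha]
  have e : H446.G.Ku L s * (4 * a) = 2 * (2 * (H446.G.Ku L s * a)) := by ring
  rw [e]
  omega

/-- The size of the small box. -/
theorem Bs_le {rc δ : ℝ} (hδ : 0 < δ) (hrc : 0 ≤ rc) :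
    rc / 2 + 12 * H446.G.dl δ ≤ H446.G.dl δ * ((Bs rc δ : ℤ) : ℝ) ∧
      ((Bs rc δ : ℤ) : ℝ) * δ ≤ rc + 26 * H446.G.dl δ ∧ 0 ≤ Bs rc δ := by
  have hdp := H446.G.dl_pos hδ
  have h7 : H446.G.dl δ * (rc / (2 * H446.G.dl δ)) = rc / 2 := by field_simp
  have h8 : 0 ≤ rc / (2 * H446.G.dl δ) := by positivity
  have h1 := Int.le_ceil (rc / (2 * H446.G.dl δ))
  have h2 := (Int.ceil_lt_add_one (rc / (2 * H446.G.dl δ))).le
  have h3 := H713.Q.del_dl hδ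
  have h4 : (0 : ℤ) ≤ ⌈rc / (2 * H446.G.dl δ)⌉ := Int.ceil_nonneg h8
  unfold Bs
  push_cast
  refine ⟨by nlinarith, ?_, by omega⟩
  have h5 : (0 : ℝ) ≤ (⌈rc / (2 * H446.G.dl δ)⌉ : ℝ) + 12 := by
    have : (0 : ℝ) ≤ (⌈rc / (2 * H446.G.dl δ)⌉ : ℝ) := by exact_mod_cast h4
    linarith
  calc ((⌈rc / (2 * H446.G.dl δ)⌉ : ℝ) + 12) * δ
      ≤ ((⌈rc / (2 * H446.G.dl δ)⌉ : ℝ) + 12) * (2 * H446.G.dl δ) :=
        mul_le_mul_of_nonneg_left h3 h5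
    _ ≤ rc + 26 * H446.G.dl δ := by nlinarith

section

variable {Φ : (ℝ × ℝ) ≃ₜ (ℝ × ℝ)} {ψ : ℂ → ℂ} {δ : ℕ → ℝ} {N k : ℕ → ℕ}
  {p : ∀ n, ZMod (N n) → ℤ × ℤ} {S : ℕ → Finset (ℤ × ℤ)} {ψn : ℕ → ℂ → ℂ}

/-- The banks are far from the target. -/
theorem far_nm (H : Set6 Φ ψ δ N k p S ψn) {T R : ℝ} (hT : 0 ≤ T) (hR : 0 ≤ R) :
    ∃ ρ : ℝ, 0 < ρ ∧ ∀ᶠ n in atTop, ∀ (A : Finset (Sym2 (ℤ × ℤ))) (j : ℕ),
      Bef (exn δ N k p S ψn n) T R A j → ∀ o, o ∈ LB (p n) (k n) A j ∨ o ∈ RB (p n) (k n) A j →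
      ρ < ((nm (o - H192.ro (p n (k n))) : ℤ) : ℝ) * δ n := by
  obtain ⟨ρ, hρ, h⟩ := H825.G.far_bef H hT hR
  refine ⟨ρ / 2, by positivity, ?_⟩
  have hδ0 : ∀ᶠ n in atTop, δ n < ρ / 20 :=
    H.appr.2.1.eventually (gt_mem_nhds (show (0 : ℝ) < ρ / 20 by linarith))
  filter_upwards [h, hδ0] with n hn hδ0 A j hB o ho
  obtain ⟨hA, hj, hb⟩ := hB
  obtain ⟨-, h2, -⟩ := hn A hA j hj hb
  have hδ : 0 < δ n := (H.appr.1 n).1
  obtain ⟨i, hi, hoi⟩ : ∃ i ≤ j - 1,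
      dist (zp (δ n) o) (zp (δ n) (H192.ro (E2.run (p n) (k n) A i).1)) ≤ 2 * δ n := by
    rcases ho with ⟨i, hi, rfl⟩ | ⟨i, hi, rfl⟩
    · refine ⟨i, hi, ?_⟩
      rw [H192.ls_me, dist_self]
      linarith
    · refine ⟨i, hi, ?_⟩
      rw [H192.rs_me]
      obtain ⟨g1, g2⟩ := face_near (E2.run (p n) (k n) A i).1 (E2.run (p n) (k n) A i).2
      exact dist_zp hδ.le g1 g2
  have h3 := h2 i hi
  rw [zp_ro] at hoi
  have h4 := dist_triangle ((δ n : ℂ) * pt (E2.run (p n) (k n) A i).1) (zp (δ n) o)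
    ((δ n : ℂ) * pt (p n (k n)))
  rw [dist_comm _ (zp (δ n) o)] at h4
  have h5 : dist (zp (δ n) o) ((δ n : ℂ) * pt (p n (k n))) ≤
      δ n * ((nm (o - H192.ro (p n (k n))) : ℤ) : ℝ) := by
    rw [← zp_ro, dist_eq_norm]
    have h6 := H632.nm_le.1 (le_refl (nm (o - H192.ro (p n (k n)))))
    simp only [Prod.fst_sub, Prod.snd_sub] at h6
    refine H469.Fl.zp_le hδ ?_ ?_ <;> rw [abs_le] <;> omega
  rw [mul_comm]
  linarith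

/-- **The domain near the target, all situations.** -/
theorem f_dd (H : Set6 Φ ψ δ N k p S ψn) (hK : QE.Stair 3 Φ δ N k p S) :
    AllH δ N k p S ψn fun C K s n A j _ _ => ∃ (M : ℕ) (R : ℤ),
      Dd (p n) (k n) (S n) A j (δ n) M R (Bs K.rc (δ n)) (mq C.Lc s (δ n)) := by
  intro T R hT hR
  obtain ⟨r, hr, hst⟩ := hK
  obtain ⟨ρ₁, hρ₁, h1⟩ := loc_of H.appr hr hst
  obtain ⟨ρ₂, hρ₂, h2⟩ := H825.G.far_bef H hT hR.le
  obtain ⟨ρ₃, hρ₃, h3⟩ := far_nm H hT hR.le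
  refine ⟨min ρ₁ (min ρ₂ ρ₃), by positivity, fun C K eT eR hK hrf => ?_⟩
  have c1 := hK.rcf
  have c2 := hK.rf0
  have c3 := hK.rc0
  obtain ⟨d1, d2, d3, d4⟩ := hK.sm
  have e1 := hrf.trans (min_le_left _ _)
  have e2 := hrf.trans ((min_le_right _ _).trans (min_le_left _ _))
  have e3 := hrf.trans ((min_le_right _ _).trans (min_le_right _ _))
  refine ⟨C.m, d1, fun s hs hs' => ?_⟩
  have ht := H446.G.tendsto_dl H.appr.2.1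
  filter_upwards [h1, h2, h3,
    ht.eventually (gt_mem_nhds (show 0 < K.rc / 1000 by positivity))]
    with n h1 h2 h3 hd A j hB c O hC
  rw [eT, eR] at hB
  have h3 := h3 A j hB
  obtain ⟨hA, hj, hb⟩ := hB
  obtain ⟨g1, -, g3⟩ := h2 A hA j hj hb
  obtain ⟨M, HL⟩ := h1
  have hδ : 0 < δ n := (H.appr.1 n).1
  have hdp := H446.G.dl_pos hδ
  have hδd := H713.Q.del_dl hδ
  have hA' : A ⊆ edges (S n) := (H411.mem_Qc (p := p n) (k := k n) (δ := δ n)).1 hA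
  obtain ⟨b1, b2, b3⟩ := Bs_le hδ c3.le
  set B : ℤ := Bs K.rc (δ n) with hBdef
  -- the sizes
  have key : ((B : ℝ) + 18) * δ n < K.rf := by
    have : (18 : ℝ) * δ n ≤ 36 * H446.G.dl (δ n) := by linarith
    nlinarith
  refine ⟨M, ⌊ρ₁ / δ n⌋ + 2, HL, hA', hδ, ?_, mq_even _ _ _, ?_, ?_, ?_, ?_⟩
  · have : B + 18 ≤ ⌊ρ₁ / δ n⌋ := by
      rw [Int.le_floor, le_div_iff₀ hδ]
      push_cast
      linarith
    omega
  · -- the target arc ends in the box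
    have h4 := H713.Q.dist_D (L := C.Lc) hδ hs (by linarith)
    have h5 : H446.G.dl (δ n) * (((mq C.Lc s (δ n) : ℕ) : ℝ) + 4) ≤
        H446.G.dl (δ n) * ((B : ℤ) : ℝ) := by
      have h6 : H446.G.dl (δ n) * ((mq C.Lc s (δ n) : ℕ) : ℝ) ≤ C.Lc + s := h4
      rw [mul_add]
      linarith
    have h7 := le_of_mul_le_mul_left h5 hdp
    exact_mod_cast h7
  · intro y hy
    have h4 := g3 y hy
    rw [div_le_iff₀ hδ] at h4
    have h5 : ((B + 14 : ℤ) : ℝ) * δ n < ((nm (y - H192.ro (p n (k n))) : ℤ) : ℝ) * δ n := by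
      push_cast
      nlinarith
    exact_mod_cast lt_of_mul_lt_mul_right h5 hδ.le
  · intro o ho
    have h4 := h3 o ho
    have h5 : ((B + 14 : ℤ) : ℝ) * δ n < ((nm (o - H192.ro (p n (k n))) : ℤ) : ℝ) * δ n := by
      push_cast
      nlinarith
    exact_mod_cast lt_of_mul_lt_mul_right h5 hδ.le
  · intro t ht
    have h4 := g1 t ht
    nlinarith

/-- `Dt` of a shape which is flat in the box. -/
theorem Dd.dt {m : ℕ} {p : ZMod m → ℤ × ℤ} {k : ℕ} {S : Finset (ℤ × ℤ)}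
    {A : Finset (Sym2 (ℤ × ℤ))} {j : ℕ} {δ : ℝ} {M : ℕ} {R B : ℤ} {mc : ℕ}
    (H : Dd p k S A j δ M R B mc) {Bd P : Finset (ℤ × ℤ)} {ζ : Cfg} {arcP : Set (ℤ × ℤ)}
    (hP : ∀ v : ℤ × ℤ, |v.1 - (H192.ro (p k)).1| ≤ B + 14 → |v.2 - (H192.ro (p k)).2| ≤ B + 14 →
      (v ∈ P ↔ (H192.ro (p k)).2 ≤ v.2))
    (hζ : ∀ v : ℤ × ℤ, |v.1 - (H192.ro (p k)).1| ≤ B + 14 → |v.2 - (H192.ro (p k)).2| ≤ B + 14 →
      v.2 < (H192.ro (p k)).2 →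
        (ζ v = true ↔ v.2 = (H192.ro (p k)).2 - 1 ∧ (H192.ro (p k)).1 ≤ v.1))
    (harc : ∀ s : ℤ × ℤ, |s.1 - (H192.ro (p k)).1| ≤ B + 14 →
      |s.2 - (H192.ro (p k)).2| ≤ B + 14 →
      (s ∈ arcP ↔ s.2 = (H192.ro (p k)).2 ∧ s.1 + (mc : ℤ) ≤ (H192.ro (p k)).1))
    (hbad : ∀ y ∈ Bd, B + 14 < nm (y - H192.ro (p k))) :
    H469.Fl.Dt p k S A j δ Bd P ζ arcP M R B mc :=
  ⟨H.loc, H.hA, H.hδ, H.hR, H.hmc, H.hmB, hP, hζ, harc, H.rd, hbad, H.lr, H.path⟩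

/-- `Dt` of the half box. -/
theorem Dd.dt0 {m : ℕ} {p : ZMod m → ℤ × ℤ} {k : ℕ} {S : Finset (ℤ × ℤ)}
    {A : Finset (Sym2 (ℤ × ℤ))} {j : ℕ} {δ : ℝ} {M : ℕ} {R B : ℤ} {mc : ℕ}
    (H : Dd p k S A j δ M R B mc) : ∃ (P : Finset (ℤ × ℤ)) (ζ : Cfg) (arcP : Set (ℤ × ℤ)),
      H469.Fl.Dt p k S A j δ ∅ P ζ arcP M R B mc := by
  refine ⟨(Finset.Icc ((H192.ro (p k)).1 - (B + 14)) ((H192.ro (p k)).1 + (B + 14))) ×ˢ
    Finset.Icc (H192.ro (p k)).2 ((H192.ro (p k)).2 + (B + 14)),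
    fun v => decide (v.2 = (H192.ro (p k)).2 - 1 ∧ (H192.ro (p k)).1 ≤ v.1),
    {s | s.2 = (H192.ro (p k)).2 ∧ s.1 + (mc : ℤ) ≤ (H192.ro (p k)).1},
    H.dt ?_ ?_ ?_ ?_⟩
  · intro v h1 h2
    rw [abs_le] at h1 h2
    rw [Finset.mem_product, Finset.mem_Icc, Finset.mem_Icc]
    constructor
    · intro h
      exact h.2.1
    · intro h
      constructor <;> constructor <;> omega
  · intro v _ _ _
    rw [decide_eq_true_iff]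
  · intro s _ _
    rfl
  · intro y hy
    exact absurd hy (Finset.notMem_empty _)

/-- **The field `wfl`.** -/
theorem f_wfl (H : Set6 Φ ψ δ N k p S ψn) (hK : QE.Stair 3 Φ δ N k p S) :
    F_wfl δ N k p S ψn := by
  refine (f_dd H hK).mono ?_
  rintro C K s n A j c O ⟨M, R, hD⟩ x hx v hv hxv ho
  obtain ⟨P, ζ, arcP, hDt⟩ := hD.dt0
  rcases hDt.wfl hx hv hxv ho with h | ⟨y, hy, hyv⟩
  · exact Or.inl h
  · exact Or.inr ⟨y, Or.inl hy, hyv⟩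

end

end Vale.Agent.P167.H918
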