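import Vale.Agent.P167.E6.Defs

/-!
# P167, general `q`, block GEO-ASM: finitely many shapes in a box

`sub_box`: the faces enclosed by a lattice polygon in the box `[-B, B]²` are in `[-B, B)²`.
`finite_shapes`: the set of the data `(m, q, S, k, j, l)` of polygons in a box is finite.
-/

set_option autoImplicit false

namespace Vale.Agent.P167.H918

open Finset
open Vale.Agent.P167.E6 (IsPolygon Encloses dir face)

theorem exists_max {S : Finset (ℤ × ℤ)} {f : ℤ × ℤ} (hf : f ∈ S) (g : ℤ × ℤ → ℤ) :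
    ∃ f' ∈ S, g f ≤ g f' ∧ ∀ v ∈ S, g v ≤ g f' := by
  obtain ⟨f', hf', h⟩ := S.exists_max_image g ⟨f, hf⟩
  exact ⟨f', hf', h f hf, h⟩

/-- The enclosed faces are in the box of the polygon. -/
theorem sub_box {m : ℕ} {q : ZMod m → ℤ × ℤ} {S : Finset (ℤ × ℤ)} (hE : Encloses q S) {B : ℤ}
    (hB : ∀ i, -B ≤ (q i).1 ∧ (q i).1 ≤ B ∧ -B ≤ (q i).2 ∧ (q i).2 ≤ B) :
    S ⊆ Finset.Ico (-B) B ×ˢ Finset.Ico (-B) B := by
  intro f hf
  rw [mem_product, mem_Ico, mem_Ico]
  refine ⟨⟨?_, ?_⟩, ?_, ?_⟩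
  · -- the left side
    obtain ⟨f', hf', h1, h2⟩ := exists_max hf (fun v => -v.1)
    have hn : (f'.1 - 1, f'.2) ∉ S := fun h => by have := h2 _ h; dsimp only at this; omega
    obtain ⟨i, hi, -⟩ := (hE (f'.1, f'.2 + 1) 3).2 ⟨by
      have : face (f'.1, f'.2 + 1) 3 = f' := by simp [face]
      rwa [this], by
      have : face (f'.1, f'.2 + 1) (3 - 1) = (f'.1 - 1, f'.2) := by
        ext
        · simp [face]
          ring
        · simp [face]
      rwa [this]⟩
    have := hB i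
    rw [hi] at this
    dsimp only at this
    omega
  · obtain ⟨f', hf', h1, h2⟩ := exists_max hf (fun v => v.1)
    have hn : (f'.1 + 1, f'.2) ∉ S := fun h => by have := h2 _ h; dsimp only at this; omega
    obtain ⟨i, hi, -⟩ := (hE (f'.1 + 1, f'.2) 1).2 ⟨by
      have : face (f'.1 + 1, f'.2) 1 = f' := by simp [face]
      rwa [this], by
      have : face (f'.1 + 1, f'.2) (1 - 1) = (f'.1 + 1, f'.2) := by simp [face]
      rwa [this]⟩
    have := hB i
    rw [hi] at this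
    dsimp only at this
    omega
  · obtain ⟨f', hf', h1, h2⟩ := exists_max hf (fun v => -v.2)
    have hn : (f'.1, f'.2 - 1) ∉ S := fun h => by have := h2 _ h; dsimp only at this; omega
    obtain ⟨i, hi, -⟩ := (hE (f'.1, f'.2) 0).2 ⟨by
      have : face (f'.1, f'.2) 0 = f' := by simp [face]
      rwa [this], by
      have : face (f'.1, f'.2) (0 - 1) = (f'.1, f'.2 - 1) := by
        ext
        · simp [face]
        · simp [face]
          ring
      rwa [this]⟩
    have := hB i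
    rw [hi] at this
    dsimp only at this
    omega
  · obtain ⟨f', hf', h1, h2⟩ := exists_max hf (fun v => v.2)
    have hn : (f'.1, f'.2 + 1) ∉ S := fun h => by have := h2 _ h; dsimp only at this; omega
    obtain ⟨i, hi, -⟩ := (hE (f'.1 + 1, f'.2 + 1) 2).2 ⟨by
      have : face (f'.1 + 1, f'.2 + 1) 2 = f' := by simp [face]
      rwa [this], by
      have : face (f'.1 + 1, f'.2 + 1) (2 - 1) = (f'.1, f'.2 + 1) := by simp [face]
      rwa [this]⟩
    have := hB i
    rw [hi] at this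
    dsimp only at this
    omega

/-- The data of a shape. -/
structure Dt where
  m : ℕ
  q : ZMod m → ℤ × ℤ
  S : Finset (ℤ × ℤ)
  k : ℕ
  j : ℕ
  l : ℕ

/-- **Finitely many shapes in a box.** -/
theorem finite_dt (B : ℤ) : {P : Dt | IsPolygon P.q ∧ Encloses P.q P.S ∧ P.k ≤ P.m ∧ P.j ≤ P.m ∧
    P.l ≤ P.m ∧ ∀ i, -B ≤ (P.q i).1 ∧ (P.q i).1 ≤ B ∧ -B ≤ (P.q i).2 ∧ (P.q i).2 ≤ B}.Finite := by
  classical
  set X : Finset (ℤ × ℤ) := Finset.Icc (-B) B ×ˢ Finset.Icc (-B) B with hX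
  set Y : Finset (ℤ × ℤ) := Finset.Ico (-B) B ×ˢ Finset.Ico (-B) B with hY
  let f : ∀ m : ℕ, (ZMod m → ℤ × ℤ) × Finset (ℤ × ℤ) × ℕ × ℕ × ℕ → Dt :=
    fun m x => ⟨m, x.1, x.2.1, x.2.2.1, x.2.2.2.1, x.2.2.2.2⟩
  have hfin : ∀ m ∈ Finset.Icc 1 X.card,
      (f m '' ({q : ZMod m → ℤ × ℤ | ∀ i, q i ∈ X} ×ˢ ((Y.powerset : Set (Finset (ℤ × ℤ))) ×ˢ
        (Set.Iic m ×ˢ (Set.Iic m ×ˢ Set.Iic m))))).Finite := by
    intro m hm
    have : NeZero m := ⟨by have := (Finset.mem_Icc.1 hm).1; omega⟩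
    refine Set.Finite.image _ ?_
    refine Set.Finite.prod ?_ ((Finset.finite_toSet _).prod
      ((Set.finite_Iic m).prod ((Set.finite_Iic m).prod (Set.finite_Iic m))))
    have h1 : {q : ZMod m → ℤ × ℤ | ∀ i, q i ∈ X} = Set.pi Set.univ (fun _ => (X : Set (ℤ × ℤ))) := by
      ext q; simp
    rw [h1]
    exact Set.Finite.pi (fun _ => Finset.finite_toSet X)
  refine (Set.Finite.biUnion (Finset.finite_toSet (Finset.Icc 1 X.card)) hfin).subset ?_
  rintro ⟨m, q, S, k, j, l⟩ ⟨hp, hE, hk, hj, hl, hB⟩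
  dsimp only at hp hE hk hj hl hB
  have hm : 2 < m := hp.1
  have hne : NeZero m := ⟨by omega⟩
  have hq : ∀ i, q i ∈ X := by
    intro i
    obtain ⟨h1, h2, h3, h4⟩ := hB i
    rw [hX, mem_product, Finset.mem_Icc, Finset.mem_Icc]
    exact ⟨⟨h1, h2⟩, h3, h4⟩
  have hcard : m ≤ X.card := by
    have h1 : (Finset.univ.image q).card = m := by
      rw [Finset.card_image_of_injective _ hp.2.1, Finset.card_univ, ZMod.card]
    rw [← h1]
    refine Finset.card_le_card (fun v hv => ?_)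
    obtain ⟨i, -, rfl⟩ := Finset.mem_image.1 hv
    exact hq i
  refine Set.mem_biUnion (x := m) (by rw [Finset.mem_coe, Finset.mem_Icc]; omega) ?_
  refine ⟨(q, S, k, j, l), ⟨hq, ?_, hk, hj, hl⟩, rfl⟩
  rw [Finset.mem_coe, Finset.mem_powerset]
  exact sub_box hE hB

end Vale.Agent.P167.H918
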