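import Vale.Agent.P167.H72.SD.Wf
import Vale.Agent.P167.H318.Rel.Defs
import Vale.Agent.P167.H166.Pot

/-!
# P167, general `q`, [FLS] (ii): the explored lattice domain near the flat point `v₀`

From `Loc` (staircase at the target) and the distance of the read squares from the target:
* `Loc.fl` : `Rel.Fl (dk ..) (Dq ..) (om ..) v₀ r`;
* `Loc.lnd` : `Rel.Lnd (dk ..) v₀ m L K (Wf p S ic)`;
* `Loc.far_wf` : `Rel.Far v₀ r (Wf p S ic)`.
-/

set_option autoImplicit false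

namespace Vale.Agent.P167.H918

open Vale.Agent.P167 Vale.Agent.P167.E6 Vale.Agent.P167.H192
open Vale.Agent.P167.H718 (Dq wE mem_Dq')
open Vale.Agent.P167.H161 (Rd)
open Vale.Agent.P167.H72.SD (dk om Wf)
open Vale.Agent.P167.H318.Rel (Fl Lnd Far)

section

variable {n : ℕ} {p : ZMod n → ℤ × ℤ} {S : Finset (ℤ × ℤ)} {k M : ℕ} {R : ℤ}
  {A : Finset (Sym2 (ℤ × ℤ))} {j : ℕ}

theorem good_om : FK.Good (om p k A) := by
  classical
  have h : (wiredOpen p k A : Set (Sym2 (ℤ × ℤ))) =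
      ((A ∪ wE p k : Finset (Sym2 (ℤ × ℤ))) : Set (Sym2 (ℤ × ℤ))) := by
    ext e
    rw [H718.mem_wiredOpen, Finset.mem_coe, Finset.mem_union]
  show FK.Good (cfg (wiredOpen p k A))
  rw [h]
  exact H718.good_of_finite _

theorem nm_lt_iff' {v : ℤ × ℤ} {r : ℤ} : nm v < r ↔ |v.1| < r ∧ |v.2| < r := by
  unfold nm
  rw [max_lt_iff]

/-- The squares near the target are not read. -/
theorem mem_dk_iff (H : Loc p S k M R) {ρ : ℤ}
    (hfar : ∀ q ∈ Rd p k S A j, ρ ≤ nm (q - ro (p k))) {x y : ℤ}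
    (hx : |x - (ro (p k)).1| + 1 ≤ R) (hy : |y - (ro (p k)).2| + 2 ≤ R)
    (hx' : |x - (ro (p k)).1| < ρ) (hy' : |y - (ro (p k)).2| < ρ) :
    (x, y) ∈ dk p k S A j ↔ (ro (p k)).2 ≤ y := by
  unfold dk
  rw [Finset.mem_sdiff, H.mem_Dq_iff hx hy]
  refine ⟨fun h => h.1, fun h => ⟨h, fun h2 => ?_⟩⟩
  have h3 := hfar _ h2
  have h4 : nm ((x, y) - ro (p k)) < ρ := nm_lt_iff'.2 ⟨hx', hy'⟩
  omega

/-- **[FLS]**, the flat point. -/
theorem Loc.fl (H : Loc p S k M R) (hA : A ⊆ edges S) {ρ : ℤ}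
    (hfar : ∀ q ∈ Rd p k S A j, ρ ≤ nm (q - ro (p k))) {v₀ : ℤ × ℤ} {r : ℤ}
    (hv : v₀.2 = (ro (p k)).2) (h0 : v₀.1 + r ≤ (ro (p k)).1)
    (h1 : (ro (p k)).1 - v₀.1 + r + 2 ≤ R) (h2 : (ro (p k)).1 - v₀.1 + r < ρ) :
    Fl (dk p k S A j) (Dq S p k) (om p k A) v₀ r := by
  have key : ∀ v ∈ FK.Bq v₀ r, |v.1 - (ro (p k)).1| + 1 ≤ R ∧ |v.2 - (ro (p k)).2| + 2 ≤ R ∧
      |v.1 - (ro (p k)).1| < ρ ∧ |v.2 - (ro (p k)).2| < ρ ∧ v.1 < (ro (p k)).1 := by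
    intro v hv'
    rw [H166.mem_Bq] at hv'
    have a1 : |v.1 - (ro (p k)).1| ≤ (ro (p k)).1 - v₀.1 + r := abs_le.2 ⟨by omega, by omega⟩
    have a2 : |v.2 - (ro (p k)).2| ≤ r := abs_le.2 ⟨by omega, by omega⟩
    refine ⟨by linarith, ?_, by linarith, ?_, by omega⟩
    · have : 0 ≤ (ro (p k)).1 - v₀.1 := by omega
      linarith
    · have : 0 ≤ (ro (p k)).1 - v₀.1 := by omega
      linarith
  refine ⟨good_om, Finset.sdiff_subset, ?_, ?_, ?_⟩
  · rintro ⟨x, y⟩ hv'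
    obtain ⟨b1, b2, b3, b4, -⟩ := key _ hv'
    rw [mem_dk_iff H hfar b1 b2 b3 b4, hv]
  · rintro ⟨x, y⟩ hv'
    obtain ⟨b1, b2, b3, b4, -⟩ := key _ hv'
    rw [H.mem_Dq_iff b1 b2, hv]
  · rintro ⟨x, y⟩ hv' hnd
    obtain ⟨b1, b2, b3, b4, b5⟩ := key _ hv'
    rw [mem_dk_iff H hfar b1 b2 b3 b4, not_le] at hnd
    have h3 := (H.cfg_iff b1 b2 hnd hA).not.2 (fun h => by simp only at b5; omega)
    rw [Bool.not_eq_true] at h3
    exact h3

/-- the odd sites of the flat side to the left of `c` are in `Wf` -/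
theorem Loc.mem_Wf (H : Loc p S k M R) {mc : ℕ} {x : ℤ}
    (hx : (ro (p k)).1 - x + 1 ≤ R) (hx0 : x < (ro (p k)).1)
    (hxc : x ≤ (ro (p k)).1 - mc + 1) (hodd : Odd (x + (ro (p k)).2)) :
    (x, (ro (p k)).2) ∈ Wf p S (k - mc) := by
  have hR := H.hR
  have hk1 := H.hk1
  have hev := even_ro (p k)
  rw [Int.even_iff] at hev
  rw [Int.odd_iff] at hodd
  obtain ⟨m, hm⟩ : ∃ m : ℕ, (m : ℤ) = (ro (p k)).1 - x + 1 :=
    ⟨((ro (p k)).1 - x + 1).toNat, by omega⟩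
  have hmM : m ≤ M + 1 := by omega
  have h1 := H.pos_bw m hmM
  have hme : Even m := by
    rw [Nat.even_iff]
    omega
  rw [if_pos hme] at h1
  have hcast : ((k - m : ℕ) : ZMod n) = (k : ZMod n) - m := by rw [Nat.cast_sub (by omega)]
  have hout : rf' (x, (ro (p k)).2) ∉ S := by
    refine H.outer (by rw [Int.even_iff]; omega) ?_ (by omega) hx0
    have : |x - (ro (p k)).1| ≤ (ro (p k)).1 - x := abs_le.2 ⟨by omega, by omega⟩
    linarith
  have hf : face (p ((k - m : ℕ) : ZMod n)) 3 = rf' (x, (ro (p k)).2) := by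
    have h2 : p ((k - m : ℕ) : ZMod n) = ro' ((ro (p k)).1 - m, (ro (p k)).2) := by
      rw [hcast, ← ro'_ro (p ((k : ZMod n) - m)), h1, add_zero]
    rw [h2]
    simp only [face, ro', rf']
    ext <;> simp <;> omega
  refine ⟨k - m, 3, by omega, ?_, ?_⟩
  · rw [hf]
    exact hout
  · rw [hf, rf_rf']
    rw [Int.even_iff]
    simp only
    omega

/-- **[FLS]**, the strip and the target. -/
theorem Loc.lnd (H : Loc p S k M R) {ρ : ℤ}
    (hfar : ∀ q ∈ Rd p k S A j, ρ ≤ nm (q - ro (p k))) {v₀ : ℤ × ℤ} {m L K : ℤ} {mc : ℕ}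
    (hv : v₀.2 = (ro (p k)).2) (h0 : v₀.1 + K * m ≤ (ro (p k)).1)
    (h1 : (ro (p k)).1 - v₀.1 + L + K * m + 2 ≤ R)
    (h2 : (ro (p k)).1 - v₀.1 + L + K * m < ρ)
    (hc : v₀.1 - L + K * m ≤ (ro (p k)).1 - mc + 1) (hL2 : v₀.1 - L + K * m < (ro (p k)).1) :
    Lnd (dk p k S A j) v₀ m L K (Wf p S (k - mc)) := by
  constructor
  · rintro ⟨x, y⟩ a1 a2 a3 a4
    simp only at a1 a2 a3 a4
    have b1 : |x - (ro (p k)).1| ≤ (ro (p k)).1 - v₀.1 + L + K * m := abs_le.2 ⟨by omega, by omega⟩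
    have b2 : |y - (ro (p k)).2| ≤ (ro (p k)).1 - v₀.1 + L + K * m := abs_le.2 ⟨by omega, by omega⟩
    exact (mem_dk_iff H hfar (by linarith) (by linarith) (by linarith) (by linarith)).2
      (by rw [← hv]; exact a3)
  · intro x a1 a2 hodd
    rw [hv] at hodd ⊢
    exact H.mem_Wf (by omega) (by omega) (by omega) hodd

/-- **[FLS]**, the target arc is far from `v₀`. -/
theorem Loc.far_wf (H : Loc p S k M R) {v₀ : ℤ × ℤ} {r : ℤ} {mc : ℕ}
    (hv : v₀.2 = (ro (p k)).2) (h0 : v₀.1 ≤ (ro (p k)).1)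
    (h1 : (ro (p k)).1 - v₀.1 + r + 1 ≤ R + 1) (hc : (ro (p k)).1 - mc + r + 1 ≤ v₀.1) :
    Far v₀ r (Wf p S (k - mc)) := by
  rintro _ ⟨i, d, hi, -, rfl⟩
  have hk2 := H.hk2
  have hk1 := H.hk1
  -- the site is adjacent to the vertex
  have hadj : |(rf (face (p (i : ZMod n)) d)).1 - (ro (p (i : ZMod n))).1| ≤ 1 ∧
      |(rf (face (p (i : ZMod n)) d)).2 - (ro (p (i : ZMod n))).2| ≤ 1 := by
    rcases fin4_cases d with rfl | rfl | rfl | rfl <;>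
      simp only [face, rf, ro] <;> constructor <;> rw [abs_le] <;> constructor <;> simp <;> omega
  obtain ⟨hb1, hb2⟩ := hadj
  rw [abs_le] at hb1 hb2
  by_contra hcon
  push Not at hcon
  obtain ⟨c1, c2⟩ := nm_lt_iff'.1 hcon
  simp only [Prod.fst_sub, Prod.snd_sub] at c1 c2
  rw [abs_lt] at c1 c2
  -- the vertex is in the box of `Loc`
  obtain ⟨d1, d2⟩ := H.near i (by omega)
    (abs_le.2 ⟨by omega, by omega⟩) (abs_le.2 ⟨by omega, by omega⟩)
  -- so it is in the staircase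
  rcases Nat.lt_or_ge i k with hik | hik
  · obtain ⟨m', hm'⟩ : ∃ m' : ℕ, k = i + m' := ⟨k - i, by omega⟩
    have h5 := H.pos_bw m' (by omega)
    have e : (k : ZMod n) - m' = (i : ZMod n) := by
      rw [hm']
      push_cast
      ring
    rw [e] at h5
    have h6 := congrArg Prod.fst h5
    simp only at h6
    have h7 : mc ≤ m' := by omega
    omega
  · -- `i = k`, `mc = 0`
    have h7 : i = k := by omega
    have h8 : mc = 0 ∨ k = 0 := by omega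
    rw [h7] at hb1 hb2 c1 c2
    omega

end

end Vale.Agent.P167.H918
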