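import Vale.Agent.P167.H918.FlsD
import Vale.Agent.P167.H918.KLitN
import Vale.Agent.P167.H825.G.Far

/-!
# P167, general `q`, [FLS] (ii), eventually in `n`

For histories before the exit from `[0, T] × [-R, R]` the explored domain near a point
`v₀ = ro (p k) - (D, 0)` of the flat side (near the target) is a half plane; the target arc `Wf`
to the left of the vertex `c = ro (p k) - (mc, 0)`.
-/

set_option autoImplicit false

open Filter Topology Set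

namespace Vale.Agent.P167.H918

open Vale.Agent.P167 Vale.Agent.P167.E6 Vale.Agent.P167.H192
open Vale.Agent.P167.H718 (Dq)
open Vale.Agent.P167.H161 (Rd)
open Vale.Agent.P167.H411 (Set6 exn)
open Vale.Agent.P167.H72.SD (dk om Wf)
open Vale.Agent.P167.H318.Rel (Fl Lnd Far)

section

variable {Φ : (ℝ × ℝ) ≃ₜ (ℝ × ℝ)} {ψ : ℂ → ℂ} {δ : ℕ → ℝ} {N k : ℕ → ℕ}
  {p : ∀ n, ZMod (N n) → ℤ × ℤ} {S : ℕ → Finset (ℤ × ℤ)} {ψn : ℕ → ℂ → ℂ}

/-- **[FLS] (ii)** -/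
theorem fls (H : Set6 Φ ψ δ N k p S ψn) {r₀ : ℝ} (hr₀ : 0 < r₀)
    (hst : ∀ᶠ n in atTop, ∀ m : ℕ, m * δ n ≤ r₀ →
      p n ((k n : ZMod (N n)) + m + 1) =
        p n ((k n : ZMod (N n)) + m) + (if Even m then dir 3 else dir 0) ∧
      p n ((k n : ZMod (N n)) - m) =
        p n ((k n : ZMod (N n)) - m - 1) + (if Even m then dir 3 else dir 0))
    {T R : ℝ} (hT : 0 ≤ T) (hR : 0 ≤ R) :
    ∃ ρ : ℝ, 0 < ρ ∧ ∀ᶠ n in atTop, ∀ κ : Finset (Sym2 (ℤ × ℤ)) → ℕ,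
      QE.BefIx (exn δ N k p S ψn n) T R κ → ∀ A ∈ (exn δ N k p S ψn n).C,
      (∀ D r : ℤ, r ≤ D → (D + r) * δ n ≤ ρ →
        Fl (dk (p n) (k n) (S n) A (κ A)) (Dq (S n) (p n) (k n)) (om (p n) (k n) A)
          (ro (p n (k n)) - (D, 0)) r) ∧
      (∀ (D m L K : ℤ) (mc : ℕ), K * m ≤ D → 0 < L + D - K * m → (D + L + K * m) * δ n ≤ ρ →
        mc + K * m ≤ D + L + 1 →
        Lnd (dk (p n) (k n) (S n) A (κ A)) (ro (p n (k n)) - (D, 0)) m L K
          (Wf (p n) (S n) (k n - mc))) ∧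
      (∀ (D r : ℤ) (mc : ℕ), 0 ≤ D → (D + r) * δ n ≤ ρ → D + r + 1 ≤ mc →
        Far (ro (p n (k n)) - (D, 0)) r (Wf (p n) (S n) (k n - mc))) := by
  obtain ⟨ρ₁, hρ₁, h1⟩ := loc_of H.appr hr₀ hst
  obtain ⟨ρ₂, hρ₂, h2⟩ := H825.G.far H hT hR
  refine ⟨min ρ₁ (ρ₂ / 2), lt_min hρ₁ (by linarith), ?_⟩
  filter_upwards [h1, h2] with n h1 h2 κ hκ A hA
  obtain ⟨M, HL⟩ := h1
  have hδ : 0 < δ n := (H.appr.1 n).1
  obtain ⟨-, hfar⟩ := h2 κ hκ A hA
  have hA' : A ⊆ edges (S n) :=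
    (H411.mem_Qc (p := p n) (k := k n) (δ := δ n)).1 hA
  -- the distance in squares
  have hfar' : ∀ q ∈ Rd (p n) (k n) (S n) A (κ A), ⌈ρ₂ / δ n⌉ ≤ nm (q - ro (p n (k n))) :=
    fun q hq => Int.ceil_le.2 (hfar q hq)
  have key : ∀ x : ℤ, (x : ℝ) * δ n ≤ min ρ₁ (ρ₂ / 2) → x ≤ ⌊ρ₁ / δ n⌋ ∧ x < ⌈ρ₂ / δ n⌉ := by
    intro x hx
    constructor
    · rw [Int.le_floor, le_div_iff₀ hδ]
      exact hx.trans (min_le_left _ _)
    · rw [Int.lt_ceil, lt_div_iff₀ hδ]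
      have := hx.trans (min_le_right _ _)
      linarith
  refine ⟨?_, ?_, ?_⟩
  · intro D r hrD hDr
    obtain ⟨a1, a2⟩ := key (D + r) (by push_cast; exact hDr)
    refine HL.fl hA' hfar' (by simp) ?_ ?_ ?_
    · simp only [Prod.fst_sub]
      omega
    · simp only [Prod.fst_sub]
      omega
    · simp only [Prod.fst_sub]
      omega
  · intro D m L K mc hKD hpos hDr hmc
    obtain ⟨a1, a2⟩ := key (D + L + K * m) (by push_cast; exact hDr)
    refine HL.lnd hfar' (by simp) ?_ ?_ ?_ ?_ ?_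
    · simp only [Prod.fst_sub]
      omega
    · simp only [Prod.fst_sub]
      omega
    · simp only [Prod.fst_sub]
      omega
    · simp only [Prod.fst_sub]
      omega
    · simp only [Prod.fst_sub]
      omega
  · intro D r mc hD hDr hmc
    obtain ⟨a1, a2⟩ := key (D + r) (by push_cast; exact hDr)
    refine HL.far_wf (by simp) ?_ ?_ ?_
    · simp only [Prod.fst_sub]
      omega
    · simp only [Prod.fst_sub]
      omega
    · simp only [Prod.fst_sub]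
      omega

end

end Vale.Agent.P167.H918
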