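import Vale.Agent.P167.H918.KxA
import Vale.Agent.P167.H327.Shift
import Vale.Agent.P167.H174.Exh
import Vale.Agent.P167.H411.Inputs6

/-!
# P167, general `q`, (K1)-(K5) of the sandwich: the frame near the target, uniformly in `n`

The frame is `En t z = rtc * z + t` (rotation by 45 degrees and any translation `t n`).
`K1`: points far away in the half-plane are mapped near the target; `K2`: the domain near the target is
a half-plane up to `2 dl`; `K3`: points near the target come from far away; `K4`: close points of the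
domain near the target are joined near them; `K5`: the gate.
-/

set_option autoImplicit false

open Filter Topology Set Metric Bornology

namespace Vale.Agent.P167.H918

open Vale.Agent.P153.R2
open Vale.Agent.P153.R2.DET (Uni HC)
open Vale.Agent.P153.R2.R1 (IsU DC homC closure_DC isBounded_DC DC_eq isOpen_DC)
open Vale.Agent.P153.R2.Final (dom circ toC IsUniformizer)
open Vale.Agent.P167.SLE (bq)
open Vale.Agent.P167.E6 Vale.Agent.P167.H192
open Vale.Agent.P167.H411 (Set6)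
open Vale.Agent.P167.SG (Jd)
open Vale.Agent.P167.H174 (re_pt im_pt bc)

/-! ### One map -/

theorem inf_mod {ψ : ℂ → ℂ} {b : ℂ} (hU : Uni ψ b) {η : ℝ} (hη : 0 < η) :
    ∃ M : ℝ, ∀ z : ℂ, 0 ≤ z.im → M ≤ ‖z‖ → dist (ψ z) b < η := by
  have h1 := Metric.tendsto_nhds.1 hU.inf η hη
  rw [eventually_inf_principal] at h1
  obtain ⟨M, -, hM⟩ := (Metric.hasBasis_cobounded_compl_closedBall (0 : ℂ)).eventually_iff.1 h1
  refine ⟨M + 1, fun z hz hzM => ?_⟩
  refine hM ?_ hz
  rw [mem_compl_iff, mem_closedBall_zero_iff, not_le]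
  linarith

/-- the inverse modulus at infinity -/
theorem inv_inf {ψ : ℂ → ℂ} {b : ℂ} (hU : Uni ψ b) (M : ℝ) :
    ∃ c : ℝ, 0 < c ∧ ∀ z : ℂ, 0 ≤ z.im → ‖z‖ ≤ M → c ≤ dist (ψ z) b := by
  set K : Set ℂ := closedBall 0 M ∩ {z | 0 ≤ z.im} with hK
  have hKc : IsCompact K := (isCompact_closedBall _ _).inter_right
    (isClosed_le continuous_const Complex.continuous_im)
  rcases K.eq_empty_or_nonempty with hKe | hKe
  · refine ⟨1, one_pos, fun z hz hzM => ?_⟩
    have : z ∈ K := ⟨mem_closedBall_zero_iff.2 hzM, hz⟩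
    rw [hKe] at this
    exact absurd this (notMem_empty _)
  · have hcont : ContinuousOn (fun z => dist (ψ z) b) K :=
      continuous_dist.comp_continuousOn (f := fun z => (ψ z, b))
        ((hU.cont.mono fun z hz => (hz : z ∈ closedBall 0 M ∩ _).2).prodMk continuousOn_const)
    obtain ⟨w, hw, hwm⟩ := hKc.exists_isMinOn hKe hcont
    exact ⟨dist (ψ w) b, dist_pos.2 (hU.ne w hw.2), fun z hz hzM =>
      hwm (show z ∈ K from ⟨mem_closedBall_zero_iff.2 hzM, hz⟩)⟩

section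

variable {Φ : (ℝ × ℝ) ≃ₜ (ℝ × ℝ)} {ψ : ℂ → ℂ} {δ : ℕ → ℝ} {N k : ℕ → ℕ}
  {p : ∀ n, ZMod (N n) → ℤ × ℤ} {S : ℕ → Finset (ℤ × ℤ)} {ψn : ℕ → ℂ → ℂ}

/-- the lattice target -/
noncomputable def bl (δ : ℕ → ℝ) (N k : ℕ → ℕ) (p : ∀ n, ZMod (N n) → ℤ × ℤ) (n : ℕ) : ℂ :=
  (δ n : ℂ) * pt (p n (k n))

/-- the lattice targets converge -/
theorem bl_near (hA : Approx Φ δ N k p S) {ε : ℝ} (hε : 0 < ε) :
    ∀ᶠ n in atTop, dist (bl δ N k p n) (bq Φ) < ε := by
  filter_upwards [hA.2.2 ε hε] with n hs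
  obtain ⟨s, hsm, hs0, hsk, hsN, hsd⟩ := hs
  exact hsd (k n) (hA.1 n).2.2.1 Real.pi ⟨hsk.le, by rw [← hsk]; exact hsm (Nat.le_succ _)⟩

theorem k1 (H : Set6 Φ ψ δ N k p S ψn) {rf : ℝ} (hrf : 0 < rf) :
    ∃ X : ℝ, ∀ᶠ n in atTop, ∀ z : ℂ, 0 ≤ z.im → X ≤ ‖z‖ →
      dist (ψn n z) (bl δ N k p n) < rf := by
  have hU : Uni ψ (bq Φ) := SLE.uni_of_uniformizer R1.i_uinj H.unif
  obtain ⟨M, hM⟩ := inf_mod hU (show 0 < rf / 4 by linarith)
  refine ⟨M, ?_⟩
  filter_upwards [H.conv (rf / 4) (by linarith), bl_near H.appr (show 0 < rf / 4 by linarith)]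
    with n h1 h2 z hz hzM
  have h3 := hM z hz hzM
  have h4 := h1 z hz
  have h5 := dist_triangle4 (ψn n z) (ψ z) (bq Φ) (bl δ N k p n)
  rw [dist_comm (bq Φ)] at h5
  linarith

theorem k3 (H : Set6 Φ ψ δ N k p S ψn) (X : ℝ) :
    ∃ rf : ℝ, 0 < rf ∧ ∀ᶠ n in atTop, ∀ z : ℂ, 0 ≤ z.im →
      dist (ψn n z) (bl δ N k p n) < rf → X < ‖z‖ := by
  have hU : Uni ψ (bq Φ) := SLE.uni_of_uniformizer R1.i_uinj H.unif
  obtain ⟨c, hc, hM⟩ := inv_inf hU X
  refine ⟨c / 4, by linarith, ?_⟩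
  filter_upwards [H.conv (c / 4) (by linarith), bl_near H.appr (show 0 < c / 4 by linarith)]
    with n h1 h2 z hz hzr
  by_contra hcon
  push Not at hcon
  have h3 := hM z hz hcon
  have h4 := h1 z hz
  have h5 := dist_triangle4 (ψ z) (ψn n z) (bl δ N k p n) (bq Φ)
  rw [dist_comm (ψ z) (ψn n z)] at h5
  linarith

/-- the norm near the target in the form of `Loc` -/
theorem l1_le {z w : ℂ} {c : ℝ} (h : dist z w ≤ c) : |z.re - w.re| + |z.im - w.im| ≤ 2 * c := by
  rw [dist_eq_norm] at h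
  have h1 := Complex.abs_re_le_norm (z - w)
  have h2 := Complex.abs_im_le_norm (z - w)
  rw [Complex.sub_re] at h1
  rw [Complex.sub_im] at h2
  linarith

theorem bl_re (n : ℕ) : (bl δ N k p n).re = δ n * (p n (k n)).1 := re_pt _ _
theorem bl_im (n : ℕ) : (bl δ N k p n).im = δ n * (p n (k n)).2 := im_pt _ _

/-- the height of the target -/
theorem height_bl (n : ℕ) : (bl δ N k p n).re + (bl δ N k p n).im =
    δ n * ((ro (p n (k n))).2 : ℝ) := by
  rw [bl_re, bl_im]
  simp only [ro]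
  push_cast
  ring

/-- `K2` and `K4`. -/
theorem k24 (hA : Approx Φ δ N k p S) {r : ℝ} (hr : 0 < r)
    (hst : ∀ᶠ n in atTop, ∀ m : ℕ, m * δ n ≤ r →
      p n ((k n : ZMod (N n)) + m + 1) =
        p n ((k n : ZMod (N n)) + m) + (if Even m then dir 3 else dir 0) ∧
      p n ((k n : ZMod (N n)) - m) =
        p n ((k n : ZMod (N n)) - m - 1) + (if Even m then dir 3 else dir 0)) :
    ∃ ρ : ℝ, 0 < ρ ∧ ∀ᶠ n in atTop,
      (∀ z : ℂ, dist z (bl δ N k p n) < ρ →
        (z ∈ E2.Om (δ n) (S n) →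
          -(2 * δ n) ≤ (z - bl δ N k p n).re + (z - bl δ N k p n).im) ∧
        (2 * δ n ≤ (z - bl δ N k p n).re + (z - bl δ N k p n).im →
          z ∈ region (δ n) (S n) ∧ z ∈ E2.Om (δ n) (S n))) ∧
      (∀ u ∈ E2.Om (δ n) (S n), ∀ v ∈ E2.Om (δ n) (S n), dist u (bl δ N k p n) < ρ →
        dist v (bl δ N k p n) < ρ → ∀ r' : ℝ, dist u v + 6 * δ n < r' →
        Jd (E2.Om (δ n) (S n)) r' u v) := by
  obtain ⟨ρ, hρ, h⟩ := loc_of hA hr hst
  refine ⟨ρ / 4, by linarith, ?_⟩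
  have hδ0 : ∀ᶠ n in atTop, δ n < ρ / 40 :=
    hA.2.1.eventually (gt_mem_nhds (show (0 : ℝ) < ρ / 40 by linarith))
  filter_upwards [h, hδ0] with n h hδ0
  obtain ⟨M, H⟩ := h
  have hδ : 0 < δ n := (hA.1 n).1
  have hfl : ρ < δ n * ((⌊ρ / δ n⌋ : ℝ) + 1) := by
    have := Int.lt_floor_add_one (ρ / δ n)
    rw [div_lt_iff₀ hδ] at this
    linarith
  have hc : ρ / 2 + 9 * δ n ≤ δ n * ((⌊ρ / δ n⌋ + 2 : ℤ) : ℝ) := by
    push_cast
    nlinarith
  have hl1 : ∀ z : ℂ, dist z (bl δ N k p n) < ρ / 4 →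
      |z.re - δ n * (p n (k n)).1| + |z.im - δ n * (p n (k n)).2| ≤ ρ / 2 := by
    intro z hz
    have := l1_le hz.le
    rw [bl_re, bl_im] at this
    linarith
  have hh := height_bl (δ := δ) (N := N) (k := k) (p := p) n
  refine ⟨fun z hz => ⟨fun hz2 => ?_, fun hz2 => ?_⟩, fun u hu v hv hu2 hv2 r' hr' => ?_⟩
  · have := H.of_mem_Om hδ (hl1 z hz) (by linarith) hz2
    rw [Complex.sub_re, Complex.sub_im]
    nlinarith
  · rw [Complex.sub_re, Complex.sub_im] at hz2
    have h1 := H.mem_Om hδ (hl1 z hz) (by linarith) (by nlinarith)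
    refine ⟨h1, ?_⟩
    exact ⟨z, h1, by rw [sub_self, abs_zero]; linarith, by rw [sub_self, abs_zero]; linarith⟩
  · exact H.jd hδ hu hv (hl1 u hu2) (hl1 v hv2) hc hr'

/-- the complement of a disc is connected -/
theorem preconn_far (b : ℂ) (L : ℝ) (hL : 0 ≤ L) : IsPreconnected {z : ℂ | L ≤ dist z b} := by
  have h1 : IsPreconnected ((Ici L : Set ℝ) ×ˢ (univ : Set ℝ)) :=
    isPreconnected_Ici.prod isPreconnected_univ
  have h2 := h1.image (fun q : ℝ × ℝ => b + (q.1 : ℂ) * Complex.exp (q.2 * Complex.I))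
    (by fun_prop)
  convert h2 using 1
  ext z
  rw [mem_ofPred_eq]
  constructor
  · intro hz
    refine ⟨(dist z b, (z - b).arg), ⟨hz, mem_univ _⟩, ?_⟩
    show b + ((dist z b : ℝ) : ℂ) * _ = z
    rw [dist_eq_norm, Complex.norm_mul_exp_arg_mul_I]
    ring
  · rintro ⟨⟨s, t⟩, ⟨hs, -⟩, rfl⟩
    have hs' : L ≤ s := hs
    show L ≤ dist (b + (s : ℂ) * Complex.exp (t * Complex.I)) b
    rw [dist_eq_norm, add_sub_cancel_left, norm_mul, Complex.norm_exp_ofReal_mul_I, mul_one,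
      Complex.norm_real, Real.norm_of_nonneg (hL.trans hs')]
    exact hs'

/-- A point outside of the closed domain is joined to infinity outside of the closed domain. -/
theorem exists_out (Φ : (ℝ × ℝ) ≃ₜ (ℝ × ℝ)) {q : ℂ} (hq : q ∉ closure (DC Φ)) (b : ℂ) (L : ℝ) :
    ∃ X : Set ℂ, IsCompact X ∧ IsPreconnected X ∧ Disjoint X (closure (DC Φ)) ∧ q ∈ X ∧
      ∃ z ∈ X, L < dist z b := by
  set G := homC Φ with hG
  obtain ⟨w, hw⟩ := G.surjective q
  have hwn : 1 < ‖w‖ := by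
    by_contra hcon
    push Not at hcon
    apply hq
    rw [closure_DC]
    exact ⟨w, mem_closedBall_zero_iff.2 hcon, hw⟩
  -- the radius
  have hcpt : IsCompact (G.symm '' closedBall b L) := (isCompact_closedBall b L).image G.symm.continuous
  obtain ⟨R, hR⟩ := hcpt.isBounded.subset_closedBall (0 : ℂ)
  set T : ℝ := max 1 (|R| + 1) with hT
  have hT1 : 1 ≤ T := le_max_left _ _
  have hTR : |R| + 1 ≤ T := le_max_right _ _
  refine ⟨G '' segment ℝ w ((T : ℂ) * w), ?_, ?_, ?_, ?_, ?_⟩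
  · have : IsCompact (segment ℝ w ((T : ℂ) * w)) := by
      rw [segment_eq_image']
      exact isCompact_Icc.image (by fun_prop)
    exact this.image G.continuous
  · exact (convex_segment _ _).isPreconnected.image _ G.continuous.continuousOn
  · rw [Set.disjoint_left]
    rintro _ ⟨x, hx, rfl⟩ hx2
    rw [closure_DC] at hx2
    obtain ⟨y, hy, hxy⟩ := hx2
    have := G.injective hxy
    rw [this, mem_closedBall_zero_iff] at hy
    rw [segment_eq_image'] at hx
    obtain ⟨t, ht, rfl⟩ := hx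
    have e : w + t • ((T : ℂ) * w - w) = ((1 + t * (T - 1) : ℝ) : ℂ) * w := by
      rw [Complex.real_smul]
      push_cast
      ring
    have hge : 1 ≤ 1 + t * (T - 1) := by nlinarith [ht.1]
    have h6 : ‖w + t • ((T : ℂ) * w - w)‖ = (1 + t * (T - 1)) * ‖w‖ := by
      rw [e, norm_mul, Complex.norm_real, Real.norm_of_nonneg (by linarith)]
    rw [h6] at hy
    nlinarith
  · exact ⟨w, left_mem_segment ℝ _ _, hw⟩
  · refine ⟨G ((T : ℂ) * w), ⟨_, right_mem_segment ℝ _ _, rfl⟩, ?_⟩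
    by_contra hcon
    push Not at hcon
    have h1 : (T : ℂ) * w ∈ G.symm '' closedBall b L :=
      ⟨G ((T : ℂ) * w), mem_closedBall.2 hcon, G.symm_apply_apply _⟩
    have h2 := hR h1
    rw [mem_closedBall_zero_iff, norm_mul, Complex.norm_real, Real.norm_of_nonneg (by linarith)] at h2
    have h3 := le_abs_self R
    nlinarith [abs_nonneg R]

/-- points of the domain are close to the closed limit domain -/
theorem om_near (hA : Approx Φ δ N k p S) {c : ℝ} (hc : 0 < c) :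
    ∀ᶠ n in atTop, ∀ z ∈ E2.Om (δ n) (S n), ∃ w ∈ closure (DC Φ), dist z w < c := by
  have hδ0 : ∀ᶠ n in atTop, δ n < c / 2 :=
    hA.2.1.eventually (gt_mem_nhds (show (0 : ℝ) < c / 2 by linarith))
  filter_upwards [H327.region_near hA (half_pos hc), hδ0] with n hn hδ z hz
  obtain ⟨w, hw, h1, h2⟩ := hz
  obtain ⟨y, hy, hwy⟩ := hn w hw
  refine ⟨y, hy, ?_⟩
  have h0 : 0 < δ n := (hA.1 n).1
  have h3 : dist z w ≤ δ n := by
    rw [dist_eq_norm]
    refine (Complex.norm_le_abs_re_add_abs_im _).trans ?_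
    rw [Complex.sub_re, Complex.sub_im]
    linarith
  have h4 := dist_triangle z w y
  linarith

/-- `K5`: the gate. -/
theorem k5 (hA : Approx Φ δ N k p S) {ρ : ℝ}
    (hK2 : ∀ᶠ n in atTop, ∀ z : ℂ, dist z (bl δ N k p n) < ρ → z ∈ E2.Om (δ n) (S n) →
      -(2 * δ n) ≤ (z - bl δ N k p n).re + (z - bl δ N k p n).im)
    {g : ℂ} (hg : dist g 0 < ρ) (hg2 : g.re + g.im < 0) :
    ∃ c L : ℝ, 0 < c ∧ 0 < L ∧ ∀ᶠ n in atTop, ∃ X : Set ℂ, IsPreconnected X ∧
      bl δ N k p n + g ∈ X ∧ {z : ℂ | L ≤ dist z (bl δ N k p n)} ⊆ X ∧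
      ∀ x ∈ X, ∀ y ∈ E2.Om (δ n) (S n), c ≤ dist x y := by
  set b := bq Φ with hb
  have hex : Exhausts Φ δ S := H174.exhausts_of_approx hA
  -- the point below is not in the closed domain
  obtain ⟨η, hη, hη1, hη2⟩ : ∃ η : ℝ, 0 < η ∧ dist g 0 + 2 * η < ρ ∧ g.re + g.im + 6 * η < 0 := by
    refine ⟨min ((ρ - dist g 0) / 4) (-(g.re + g.im) / 12), lt_min (by linarith) (by linarith), ?_,
      ?_⟩
    · have := min_le_left ((ρ - dist g 0) / 4) (-(g.re + g.im) / 12)
      linarith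
    · have := min_le_right ((ρ - dist g 0) / 4) (-(g.re + g.im) / 12)
      linarith
  have hqo : b + g ∉ closure (DC Φ) := by
    intro hcl
    rw [Metric.mem_closure_iff] at hcl
    obtain ⟨z, hz, hzd⟩ := hcl η hη
    have h1 := hex {z} (by rw [singleton_subset_iff]; exact hz) isCompact_singleton
    have hδ0 : ∀ᶠ n in atTop, δ n < η / 2 :=
      hA.2.1.eventually (gt_mem_nhds (show (0 : ℝ) < η / 2 by linarith))
    obtain ⟨n, a1, a2, a3, a4⟩ := (h1.and (hK2.and (hδ0.and (bl_near hA hη)))).exists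
    have hzr : z ∈ region (δ n) (S n) := a1 rfl
    have hδ : 0 < δ n := (hA.1 n).1
    have hzO : z ∈ E2.Om (δ n) (S n) :=
      ⟨z, hzr, by rw [sub_self, abs_zero]; linarith, by rw [sub_self, abs_zero]; linarith⟩
    have e : dist z (bl δ N k p n) ≤ dist (b + g) z + dist (b + g) b + dist (bl δ N k p n) b := by
      have := dist_triangle4 z (b + g) b (bl δ N k p n)
      rw [dist_comm z (b + g), dist_comm b (bl δ N k p n)] at this
      exact this
    have e2 : dist (b + g) b = dist g 0 := by simp [dist_eq_norm]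
    rw [e2] at e
    have h5 := a2 z (by linarith) hzO
    have h6 := l1_le hzd.le
    have h7 := l1_le a4.le
    rw [Complex.sub_re, Complex.sub_im] at h5
    rw [Complex.add_re, Complex.add_im] at h6
    have i1 := neg_abs_le (b.re + g.re - z.re)
    have i2 := neg_abs_le (b.im + g.im - z.im)
    have i3 := neg_abs_le ((bl δ N k p n).re - b.re)
    have i4 := neg_abs_le ((bl δ N k p n).im - b.im)
    linarith
  -- the size
  obtain ⟨L, hL⟩ := ((isBounded_DC Φ).closure).subset_closedBall b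
  set L' : ℝ := |L| + 1 with hL'
  have hL'0 : 0 < L' := by positivity
  have hLL : L ≤ |L| := le_abs_self L
  obtain ⟨X, hXc, hXp, hXd, hqX, z₁, hz₁, hz₁d⟩ := exists_out Φ hqo b (L' + 3)
  -- the distance
  obtain ⟨c, hc, hcd⟩ : ∃ c : ℝ, 0 < c ∧ ∀ x ∈ X, ∀ y ∈ closure (DC Φ), c ≤ dist x y := by
    obtain ⟨c, hc, h1⟩ := hXd.exists_thickenings hXc isClosed_closure
    refine ⟨c, hc, fun x hx y hy => ?_⟩
    by_contra hlt
    push Not at hlt
    refine (Set.disjoint_left.1 h1) (mem_thickening_iff.2 ⟨x, hx, ?_⟩)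
      (self_subset_thickening hc _ hy)
    rw [dist_comm]
    exact hlt
  set c' : ℝ := min (c / 4) (1 / 4) with hc'
  have hc'0 : 0 < c' := lt_min (by linarith) (by norm_num)
  have hc'1 : c' ≤ c / 4 := min_le_left _ _
  have hc'2 : c' ≤ 1 / 4 := min_le_right _ _
  refine ⟨c', L' + 2, hc'0, by linarith, ?_⟩
  filter_upwards [om_near hA hc'0, bl_near hA hc'0] with n h1 h2
  refine ⟨segment ℝ (bl δ N k p n + g) (b + g) ∪ (X ∪ {z : ℂ | L' + 2 ≤ dist z (bl δ N k p n)}),
    ?_, Or.inl (left_mem_segment ℝ _ _), fun z hz => Or.inr (Or.inr hz), ?_⟩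
  · refine IsPreconnected.union (b + g) (right_mem_segment ℝ _ _) (Or.inl hqX)
      (convex_segment _ _).isPreconnected ?_
    refine IsPreconnected.union z₁ hz₁ ?_ hXp (preconn_far _ _ (by linarith))
    show L' + 2 ≤ dist z₁ (bl δ N k p n)
    have := dist_triangle z₁ (bl δ N k p n) b
    linarith
  · intro x hx y hy
    obtain ⟨w, hw, hyw⟩ := h1 y hy
    rcases hx with hx | hx | hx
    · -- on the segment
      have h3 : dist x (b + g) ≤ c' := by
        have hcv := (convex_closedBall (b + g) c').segment_subset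
          (show bl δ N k p n + g ∈ closedBall (b + g) c' by
            rw [mem_closedBall, dist_eq_norm, add_sub_add_right_eq_sub, ← dist_eq_norm]
            exact h2.le)
          (mem_closedBall_self hc'0.le)
        exact hcv hx
      have h4 := hcd (b + g) hqX w hw
      have h5 := dist_triangle4 (b + g) x y w
      rw [dist_comm (b + g) x] at h5
      linarith
    · have h4 := hcd x hx w hw
      have h5 := dist_triangle x y w
      linarith
    · have hx' : L' + 2 ≤ dist x (bl δ N k p n) := hx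
      have h3 : dist w b ≤ L := mem_closedBall.1 (hL hw)
      have h4 := dist_triangle4 x y w b
      have h5 := dist_triangle x b (bl δ N k p n)
      rw [dist_comm b] at h5
      linarith

/-! ### The rotated frame -/

/-- the mesh of the squares -/
noncomputable def dls (δ : ℕ → ℝ) (n : ℕ) : ℝ := δ n / Real.sqrt 2

/-- **(K1)-(K5)** in the frame `En (t n)`. -/
theorem kx (H : Set6 Φ ψ δ N k p S ψn) {r : ℝ} (hr : 0 < r)
    (hst : ∀ᶠ n in atTop, ∀ m : ℕ, m * δ n ≤ r →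
      p n ((k n : ZMod (N n)) + m + 1) =
        p n ((k n : ZMod (N n)) + m) + (if Even m then dir 3 else dir 0) ∧
      p n ((k n : ZMod (N n)) - m) =
        p n ((k n : ZMod (N n)) - m - 1) + (if Even m then dir 3 else dir 0)) :
    ∃ ρ : ℝ, 0 < ρ ∧ ∀ t : ℕ → ℂ,
      (∀ rf : ℝ, 0 < rf → ∃ X : ℝ, ∀ᶠ n in atTop, ∀ z : ℂ, 0 ≤ z.im → X ≤ ‖z‖ →
        dist (En (t n) (ψn n z)) (En (t n) (bl δ N k p n)) < rf) ∧
      (∀ᶠ n in atTop, ∀ z : ℂ, dist z (En (t n) (bl δ N k p n)) < ρ →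
        (z ∈ En (t n) '' E2.Om (δ n) (S n) →
          -(2 * dls δ n) ≤ (z - En (t n) (bl δ N k p n)).im) ∧
        (2 * dls δ n ≤ (z - En (t n) (bl δ N k p n)).im →
          z ∈ En (t n) '' E2.Om (δ n) (S n))) ∧
      (∀ X : ℝ, ∃ rf : ℝ, 0 < rf ∧ ∀ᶠ n in atTop, ∀ z : ℂ, 0 ≤ z.im →
        dist (En (t n) (ψn n z)) (En (t n) (bl δ N k p n)) < rf → X < ‖z‖) ∧
      (∀ᶠ n in atTop, ∀ u ∈ En (t n) '' E2.Om (δ n) (S n), ∀ v ∈ En (t n) '' E2.Om (δ n) (S n),
        dist u (En (t n) (bl δ N k p n)) < ρ → dist v (En (t n) (bl δ N k p n)) < ρ →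
        ∀ r' : ℝ, dist u v + 6 * δ n < r' → Jd (En (t n) '' E2.Om (δ n) (S n)) r' u v) ∧
      (∀ g : ℂ, dist g 0 < ρ → g.im < 0 → ∃ c L : ℝ, 0 < c ∧ 0 < L ∧ ∀ᶠ n in atTop,
        ∃ X : Set ℂ, IsPreconnected X ∧ En (t n) (bl δ N k p n) + g ∈ X ∧
          {z : ℂ | L ≤ dist z (En (t n) (bl δ N k p n))} ⊆ X ∧
          ∀ x ∈ X, ∀ y ∈ En (t n) '' E2.Om (δ n) (S n), c ≤ dist x y) := by
  have h2 := sqrt2_pos
  obtain ⟨ρ, hρ, h⟩ := k24 H.appr hr hst
  refine ⟨ρ, hρ, fun t => ⟨fun rf hrf => ?_, ?_, fun X => ?_, ?_, ?_⟩⟩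
  · obtain ⟨X, hX⟩ := k1 H hrf
    refine ⟨X, ?_⟩
    filter_upwards [hX] with n hn z hz hzX
    rw [dist_En]
    exact hn z hz hzX
  · filter_upwards [h] with n hn z hz
    constructor
    · rintro ⟨w, hw, rfl⟩
      rw [dist_En] at hz
      have h3 := (hn.1 w hz).1 hw
      rw [En_sub, rtc_im, dls, le_div_iff₀ h2]
      have e : -(2 * (δ n / Real.sqrt 2)) * Real.sqrt 2 = -(2 * δ n) := by field_simp
      rw [e]
      exact h3
    · intro h3
      set w : ℂ := (z - t n) / rtc with hw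
      have hr0 : rtc ≠ 0 := by
        intro h0
        have := norm_rtc
        rw [h0, norm_zero] at this
        norm_num at this
      have hwz : En (t n) w = z := by
        unfold En
        rw [hw, mul_div_cancel₀ _ hr0]
        ring
      refine ⟨w, ?_, hwz⟩
      rw [← hwz, dist_En] at hz
      rw [← hwz, En_sub, rtc_im, dls, ] at h3
      refine ((hn.1 w hz).2 ?_).2
      rw [le_div_iff₀ h2] at h3
      have e : 2 * (δ n / Real.sqrt 2) * Real.sqrt 2 = 2 * δ n := by field_simp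
      rw [e] at h3
      exact h3
  · obtain ⟨rf, hrf, h3⟩ := k3 H X
    refine ⟨rf, hrf, ?_⟩
    filter_upwards [h3] with n hn z hz hzr
    rw [dist_En] at hzr
    exact hn z hz hzr
  · filter_upwards [h] with n hn
    rintro _ ⟨u, hu, rfl⟩ _ ⟨v, hv, rfl⟩ h3 h4 r' hr'
    rw [dist_En] at h3 h4 hr'
    exact jd_En (t n) (hn.2 u hu v hv h3 h4 r' hr')
  · intro g hg hg2
    have hr0 : rtc ≠ 0 := by
      intro h0
      have := norm_rtc
      rw [h0, norm_zero] at this
      norm_num at this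
    set g' : ℂ := g / rtc with hg'
    have hgg : rtc * g' = g := mul_div_cancel₀ _ hr0
    have h3 : dist g' 0 < ρ := by
      rw [dist_zero_right] at hg ⊢
      rw [← hgg, norm_mul, norm_rtc, one_mul] at hg
      exact hg
    have h4 : g'.re + g'.im < 0 := by
      rw [← hgg, rtc_im, div_lt_iff₀ h2, zero_mul] at hg2
      exact hg2
    obtain ⟨c, L, hc, hL, h5⟩ := k5 H.appr (h.mono fun n hn z hz hz2 => (hn.1 z hz).1 hz2) h3 h4
    refine ⟨c, L, hc, hL, ?_⟩
    filter_upwards [h5] with n hn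
    obtain ⟨X, a1, a2, a3, a4⟩ := hn
    refine ⟨En (t n) '' X, a1.image _ (continuous_En _).continuousOn, ⟨_, a2, ?_⟩, ?_, ?_⟩
    · unfold En
      rw [mul_add, hgg]
      ring
    · intro z hz
      set w : ℂ := (z - t n) / rtc with hw
      have hwz : En (t n) w = z := by
        unfold En
        rw [hw, mul_div_cancel₀ _ hr0]
        ring
      refine ⟨w, a3 ?_, hwz⟩
      have hz' : L ≤ dist z (En (t n) (bl δ N k p n)) := hz
      rw [← hwz, dist_En] at hz'
      exact hz'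
    · rintro _ ⟨x, hx, rfl⟩ _ ⟨y, hy, rfl⟩
      rw [dist_En]
      exact a4 x hx y hy

end

end Vale.Agent.P167.H918
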