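import Vale.Agent.P167.H918.KLitN
import Vale.Agent.P167.SG.Pos

/-!
# P167, general `q`, [K1]-[K5], part 1: the lattice domain near a staircase

* `Loc.up_Om`: the domain is invariant under translations upwards;
* `Loc.jd`: points of the domain near the target which are close are joined near them;
* `rtc`: the rotation by 45 degrees.
-/

set_option autoImplicit false

open Filter Topology Set Metric

namespace Vale.Agent.P167.H918

open Vale.Agent.P167.E6 Vale.Agent.P167.H192
open Vale.Agent.P167.SG (Jd)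

section

variable {n : ℕ} {p : ZMod n → ℤ × ℤ} {S : Finset (ℤ × ℤ)} {k M : ℕ} {R : ℤ}

/-- the closed domain is invariant under translations upwards -/
theorem Loc.up_region (H : Loc p S k M R) {δ : ℝ} (hδ : 0 < δ) {w w' : ℂ} (hw : w ∈ region δ S)
    {s : ℝ} (hs : 0 ≤ s) (h1 : w'.re = w.re + s) (h2 : w'.im = w.im + s) {c : ℝ}
    (hz : |w.re - δ * (p k).1| + |w.im - δ * (p k).2| ≤ c)
    (hz' : |w'.re - δ * (p k).1| + |w'.im - δ * (p k).2| ≤ c) (hc : c + 2 * δ ≤ δ * R) :
    w' ∈ region δ S := by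
  obtain ⟨f, hf, a1, a2, a3, a4⟩ := hw
  obtain ⟨b1, b2⟩ := H.rf_near hδ a1 a2 a3 a4 hz hc
  have hrow := (H.face_iff (odd_rf f) b1 b2).1 (by rwa [rf'_rf])
  have g1 : f.1 ≤ ⌊w'.re / δ⌋ := by
    rw [Int.le_floor, le_div_iff₀ hδ]
    linarith
  have g2 : f.2 ≤ ⌊w'.im / δ⌋ := by
    rw [Int.le_floor, le_div_iff₀ hδ]
    linarith
  have c1 : δ * ((⌊w'.re / δ⌋ : ℤ) : ℝ) ≤ w'.re := by
    have := Int.floor_le (w'.re / δ)
    rw [le_div_iff₀ hδ] at this
    linarith
  have c2 : w'.re ≤ δ * (((⌊w'.re / δ⌋ : ℤ) : ℝ) + 1) := by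
    have := (Int.lt_floor_add_one (w'.re / δ)).le
    rw [div_le_iff₀ hδ] at this
    linarith
  have c3 : δ * ((⌊w'.im / δ⌋ : ℤ) : ℝ) ≤ w'.im := by
    have := Int.floor_le (w'.im / δ)
    rw [le_div_iff₀ hδ] at this
    linarith
  have c4 : w'.im ≤ δ * (((⌊w'.im / δ⌋ : ℤ) : ℝ) + 1) := by
    have := (Int.lt_floor_add_one (w'.im / δ)).le
    rw [div_le_iff₀ hδ] at this
    linarith
  refine ⟨(⌊w'.re / δ⌋, ⌊w'.im / δ⌋), ?_, c1, c2, c3, c4⟩
  by_cases he : f.1 = ⌊w'.re / δ⌋ ∧ f.2 = ⌊w'.im / δ⌋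
  · rw [← he.1, ← he.2]
    exact hf
  · obtain ⟨d1, d2⟩ := H.rf_near hδ (f := (⌊w'.re / δ⌋, ⌊w'.im / δ⌋)) c1 c2 c3 c4 hz' hc
    have h5 := (H.face_iff (odd_rf (⌊w'.re / δ⌋, ⌊w'.im / δ⌋)) d1 d2).2 ?_
    · rwa [rf'_rf] at h5
    · have e1 : (rf f).2 = f.1 + f.2 + 1 := rfl
      have e2 : (rf (⌊w'.re / δ⌋, ⌊w'.im / δ⌋)).2 = ⌊w'.re / δ⌋ + ⌊w'.im / δ⌋ + 1 := rfl
      have h6 : (ro (p k)).2 ≤ (rf f).2 := by
        split_ifs at hrow with h11
        · exact hrow
        · exact hrow.le
      have h7 : (ro (p k)).2 < (rf (⌊w'.re / δ⌋, ⌊w'.im / δ⌋)).2 := by omega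
      split_ifs
      · exact h7.le
      · exact h7

/-- the domain is invariant under translations upwards -/
theorem Loc.up_Om (H : Loc p S k M R) {δ : ℝ} (hδ : 0 < δ) {z z' : ℂ} (hz0 : z ∈ E2.Om δ S)
    {s : ℝ} (hs : 0 ≤ s) (h1 : z'.re = z.re + s) (h2 : z'.im = z.im + s) {c : ℝ}
    (hz : |z.re - δ * (p k).1| + |z.im - δ * (p k).2| ≤ c)
    (hz' : |z'.re - δ * (p k).1| + |z'.im - δ * (p k).2| ≤ c) (hc : c + 3 * δ ≤ δ * R) :
    z' ∈ E2.Om δ S := by
  obtain ⟨w, hw, h5, h6⟩ := hz0
  have key : ∀ a b x : ℝ, |a - b| < 3 / 8 * δ → |b - x| ≤ |a - x| + 3 / 8 * δ := by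
    intro a b x h
    have e1 : b - x = -(a - b) + (a - x) := by ring
    rw [e1]
    refine (abs_add_le _ _).trans ?_
    rw [abs_neg]
    linarith
  have k1 := key _ _ (δ * (p k).1) h5
  have k2 := key _ _ (δ * (p k).2) h6
  have k3 := key z'.re (w.re + s) (δ * (p k).1) (by rw [h1, add_sub_add_right_eq_sub]; exact h5)
  have k4 := key z'.im (w.im + s) (δ * (p k).2) (by rw [h2, add_sub_add_right_eq_sub]; exact h6)
  refine ⟨⟨w.re + s, w.im + s⟩, ?_, ?_, ?_⟩
  · exact H.up_region hδ hw hs rfl rfl (c := c + δ) (by linarith) (by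
      show |w.re + s - _| + |w.im + s - _| ≤ _
      linarith) (by linarith)
  · show |z'.re - (w.re + s)| < _
    rw [h1, add_sub_add_right_eq_sub]
    exact h5
  · show |z'.im - (w.im + s)| < _
    rw [h2, add_sub_add_right_eq_sub]
    exact h6

theorem norm_one_add_I (s : ℝ) : ‖(s : ℂ) * (1 + Complex.I)‖ ≤ 2 * |s| := by
  refine (Complex.norm_le_abs_re_add_abs_im _).trans ?_
  simp
  linarith

/-- Points of the domain near `p k` are joined near them. -/
theorem Loc.jd (H : Loc p S k M R) {δ : ℝ} (hδ : 0 < δ) {u v : ℂ} (hu : u ∈ E2.Om δ S)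
    (hv : v ∈ E2.Om δ S) {c : ℝ} (huc : |u.re - δ * (p k).1| + |u.im - δ * (p k).2| ≤ c)
    (hvc : |v.re - δ * (p k).1| + |v.im - δ * (p k).2| ≤ c) (hc : c + 9 * δ ≤ δ * R) {r : ℝ}
    (hr : dist u v + 6 * δ < r) : Jd (E2.Om δ S) r u v := by
  set w : ℂ := ((3 * δ : ℝ) : ℂ) * (1 + Complex.I) with hw
  have hwn : ‖w‖ ≤ 6 * δ := by
    have := norm_one_add_I (3 * δ)
    rw [abs_of_pos (by linarith)] at this
    linarith
  have hwr : w.re = 3 * δ := by rw [hw]; simp
  have hwi : w.im = 3 * δ := by rw [hw]; simp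
  -- translations upwards
  have hup : ∀ x ∈ E2.Om δ S, |x.re - δ * (p k).1| + |x.im - δ * (p k).2| ≤ c →
      segment ℝ x (x + w) ⊆ E2.Om δ S := by
    intro x hx hxc y hy
    rw [segment_eq_image'] at hy
    obtain ⟨t, ht, rfl⟩ := hy
    rw [add_sub_cancel_left]
    show x + t • w ∈ _
    rw [Complex.real_smul]
    have e1 : (x + (t : ℂ) * w).re = x.re + t * (3 * δ) := by
      rw [Complex.add_re, Complex.re_ofReal_mul, hwr]
    have e2 : (x + (t : ℂ) * w).im = x.im + t * (3 * δ) := by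
      rw [Complex.add_im, Complex.im_ofReal_mul, hwi]
    have ht0 : 0 ≤ t * (3 * δ) := by have := ht.1; positivity
    have ht1 : t * (3 * δ) ≤ 3 * δ := by nlinarith [ht.2]
    refine H.up_Om hδ hx ht0 e1 e2 (c := c + 6 * δ) (by linarith) ?_ (by linarith)
    rw [e1, e2]
    have a1 : |x.re + t * (3 * δ) - δ * (p k).1| ≤ |x.re - δ * (p k).1| + 3 * δ := by
      have e : x.re + t * (3 * δ) - δ * (p k).1 = (x.re - δ * (p k).1) + t * (3 * δ) := by ring
      rw [e]
      refine (abs_add_le _ _).trans ?_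
      rw [abs_of_nonneg ht0]
      linarith
    have a2 : |x.im + t * (3 * δ) - δ * (p k).2| ≤ |x.im - δ * (p k).2| + 3 * δ := by
      have e : x.im + t * (3 * δ) - δ * (p k).2 = (x.im - δ * (p k).2) + t * (3 * δ) := by ring
      rw [e]
      refine (abs_add_le _ _).trans ?_
      rw [abs_of_nonneg ht0]
      linarith
    linarith
  -- the horizontal part
  have hhor : segment ℝ (u + w) (v + w) ⊆ E2.Om δ S := by
    intro y hy
    rw [segment_eq_image'] at hy
    obtain ⟨t, ht, rfl⟩ := hy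
    show u + w + t • (v + w - (u + w)) ∈ _
    have hu2 := H.of_mem_Om hδ huc (by linarith) hu
    have hv2 := H.of_mem_Om hδ hvc (by linarith) hv
    have e1 : (u + w + t • (v + w - (u + w))).re = (1 - t) * u.re + t * v.re + 3 * δ := by
      rw [Complex.real_smul, Complex.add_re, Complex.re_ofReal_mul, Complex.add_re, hwr,
        Complex.sub_re, Complex.add_re, Complex.add_re, hwr]
      ring
    have e2 : (u + w + t • (v + w - (u + w))).im = (1 - t) * u.im + t * v.im + 3 * δ := by
      rw [Complex.real_smul, Complex.add_im, Complex.im_ofReal_mul, Complex.add_im, hwi,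
        Complex.sub_im, Complex.add_im, Complex.add_im, hwi]
      ring
    have ht0 := ht.1
    have ht1 : 0 ≤ 1 - t := by linarith [ht.2]
    have hmem : u + w + t • (v + w - (u + w)) ∈ region δ S := by
      refine H.mem_Om hδ (c := c + 6 * δ) ?_ (by linarith) ?_
      · rw [e1, e2]
        have key : ∀ a b x : ℝ, |(1 - t) * a + t * b + 3 * δ - x| ≤
            (1 - t) * |a - x| + t * |b - x| + 3 * δ := by
          intro a b x
          have e : (1 - t) * a + t * b + 3 * δ - x = ((1 - t) * (a - x) + t * (b - x)) + 3 * δ := by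
            ring
          rw [e]
          refine (abs_add_le _ _).trans ?_
          rw [abs_of_pos (show 0 < 3 * δ by linarith)]
          have h3 := abs_add_le ((1 - t) * (a - x)) (t * (b - x))
          rw [abs_mul, abs_mul, abs_of_nonneg ht1, abs_of_nonneg ht0] at h3
          linarith
        have k1 := key u.re v.re (δ * (p k).1)
        have k2 := key u.im v.im (δ * (p k).2)
        have k3 := mul_le_mul_of_nonneg_left huc ht1
        have k4 := mul_le_mul_of_nonneg_left hvc ht0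
        nlinarith
      · rw [e1, e2]
        have k3 := mul_le_mul_of_nonneg_left hu2 ht1
        have k4 := mul_le_mul_of_nonneg_left hv2 ht0
        nlinarith
    obtain ⟨f, hf⟩ := hmem
    exact ⟨_, ⟨f, hf⟩, by rw [sub_self, abs_zero]; linarith, by rw [sub_self, abs_zero]; linarith⟩
  refine ⟨segment ℝ u (u + w) ∪ (segment ℝ (u + w) (v + w) ∪ segment ℝ (v + w) v), ?_, ?_, ?_, ?_,
    ?_⟩
  · refine IsPreconnected.union (u + w) (right_mem_segment ℝ _ _)
      (Or.inl (left_mem_segment ℝ _ _)) (convex_segment _ _).isPreconnected ?_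
    exact IsPreconnected.union (v + w) (right_mem_segment ℝ _ _) (left_mem_segment ℝ _ _)
      (convex_segment _ _).isPreconnected (convex_segment _ _).isPreconnected
  · refine union_subset (hup u hu huc) (union_subset hhor ?_)
    rw [segment_symm]
    exact hup v hv hvc
  · -- the diameter
    have hcb : ∀ x y : ℂ, x ∈ closedBall u (dist u v + 6 * δ) → y ∈ closedBall u (dist u v + 6 * δ) →
        segment ℝ x y ⊆ ball u r := fun x y hx hy =>
      ((convex_closedBall u _).segment_subset hx hy).trans (closedBall_subset_ball hr)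
    have q1 : u ∈ closedBall u (dist u v + 6 * δ) := mem_closedBall_self (by positivity)
    have q2 : u + w ∈ closedBall u (dist u v + 6 * δ) := by
      rw [mem_closedBall, dist_eq_norm, add_sub_cancel_left]
      have := dist_nonneg (x := u) (y := v)
      linarith
    have q3 : v ∈ closedBall u (dist u v + 6 * δ) := by
      rw [mem_closedBall, dist_comm]
      linarith
    have q4 : v + w ∈ closedBall u (dist u v + 6 * δ) := by
      rw [mem_closedBall, dist_eq_norm]
      have e : v + w - u = (v - u) + w := by ring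
      rw [e]
      refine (norm_add_le _ _).trans ?_
      rw [← dist_eq_norm, dist_comm]
      linarith
    exact union_subset (hcb _ _ q1 q2) (union_subset (hcb _ _ q2 q4) (hcb _ _ q4 q3))
  · exact Or.inl (left_mem_segment ℝ _ _)
  · exact Or.inr (Or.inr (right_mem_segment ℝ _ _))

end

/-! ### The rotated frame -/

/-- the rotation by 45 degrees -/
noncomputable def rtc : ℂ := (1 + Complex.I) / (Real.sqrt 2 : ℝ)

theorem sqrt2_pos : 0 < Real.sqrt 2 := Real.sqrt_pos.2 (by norm_num)

theorem rtc_re (z : ℂ) : (rtc * z).re = (z.re - z.im) / Real.sqrt 2 := by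
  unfold rtc
  rw [div_mul_eq_mul_div, Complex.div_ofReal_re]
  simp

theorem rtc_im (z : ℂ) : (rtc * z).im = (z.re + z.im) / Real.sqrt 2 := by
  unfold rtc
  rw [div_mul_eq_mul_div, Complex.div_ofReal_im]
  simp
  ring

theorem norm_rtc : ‖rtc‖ = 1 := by
  have h := sqrt2_pos
  have h2 : Real.sqrt 2 * Real.sqrt 2 = 2 := Real.mul_self_sqrt (by norm_num)
  have h3 : Complex.normSq rtc = 1 := by
    rw [Complex.normSq_apply]
    have e1 := rtc_re 1
    have e2 := rtc_im 1
    rw [mul_one] at e1 e2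
    rw [e1, e2]
    simp only [Complex.one_re, Complex.one_im, sub_zero, add_zero]
    rw [div_mul_div_comm, h2]
    norm_num
  rw [Complex.normSq_eq_norm_sq] at h3
  have h4 := norm_nonneg rtc
  nlinarith

/-- the frame -/
noncomputable def En (t z : ℂ) : ℂ := rtc * z + t

theorem En_sub (t z w : ℂ) : En t z - En t w = rtc * (z - w) := by unfold En; ring

theorem norm_En_sub (t z w : ℂ) : ‖En t z - En t w‖ = ‖z - w‖ := by
  rw [En_sub, norm_mul, norm_rtc, one_mul]

theorem dist_En (t z w : ℂ) : dist (En t z) (En t w) = dist z w := by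
  rw [dist_eq_norm, norm_En_sub, dist_eq_norm]

theorem continuous_En (t : ℂ) : Continuous (En t) := by unfold En; fun_prop

theorem jd_En {D : Set ℂ} {r : ℝ} {u v : ℂ} (t : ℂ) (h : Jd D r u v) :
    Jd (En t '' D) r (En t u) (En t v) := by
  obtain ⟨C, h1, h2, h3, h4, h5⟩ := h
  refine ⟨En t '' C, h1.image _ (continuous_En t).continuousOn, image_mono h2, ?_,
    mem_image_of_mem _ h4, mem_image_of_mem _ h5⟩
  rintro _ ⟨x, hx, rfl⟩
  rw [mem_ball, dist_En]
  exact h3 hx

end Vale.Agent.P167.H918
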