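import Vale.Agent.P167.H918.Flt

/-!
# P167, general `q`, SAND: the teeth of the lattice domain near the target

`T f` is the part, below the height of the target, of the quadrant at the lower left corner of the
enlarged face `f`. The teeth are convex, of diameter at most `8 dl`, contained in the domain, their
corner is not in the domain, and they cover the part of the domain which is below the target.
-/

set_option autoImplicit false

open Filter Topology Set Metric Bornology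

namespace Vale.Agent.P167.H918

open Vale.Agent.P153.R2
open Vale.Agent.P153.R2.R1 (IsU)
open Vale.Agent.P153.R2.L1 (HH)
open Vale.Agent.P167.E6 Vale.Agent.P167.H192
open Vale.Agent.P167.H411 (Set6)
open Vale.Agent.P167.SG (Bf Flt)
open Vale.Agent.P167.H446.G (psr vd Ku psr_b dl_pos)

/-- A tooth: the face `f`, the height `h`. -/
def Tth (δ : ℝ) (h : ℤ) (f : ℤ × ℤ) : Set ℂ :=
  {z | δ * (f.1 - 3 / 8) < z.re ∧ δ * (f.2 - 3 / 8) < z.im ∧ z.re + z.im ≤ δ * h}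

theorem tth_convex (δ : ℝ) (h : ℤ) (f : ℤ × ℤ) : Convex ℝ (Tth δ h f) := by
  intro x hx y hy a b ha hb hab
  obtain ⟨x1, x2, x3⟩ := hx
  obtain ⟨y1, y2, y3⟩ := hy
  have hre : (a • x + b • y).re = a * x.re + b * y.re := by simp
  have him : (a • x + b • y).im = a * x.im + b * y.im := by simp
  have hb' : b = 1 - a := by linarith
  have key : ∀ u v w : ℝ, u < v → u < w → u < a * v + b * w := by
    intro u v w h1 h2
    rcases eq_or_lt_of_le ha with h0 | h0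
    · rw [← h0] at hab ⊢
      rw [zero_add] at hab
      rw [hab]
      linarith
    · have := mul_lt_mul_of_pos_left h1 h0
      have := mul_le_mul_of_nonneg_left h2.le hb
      have e : a * u + b * u = u := by rw [← add_mul, hab, one_mul]
      linarith
  refine ⟨?_, ?_, ?_⟩
  · rw [hre]; exact key _ _ _ x1 y1
  · rw [him]; exact key _ _ _ x2 y2
  · rw [hre, him]
    have h1 := mul_le_mul_of_nonneg_left x3 ha
    have h2 := mul_le_mul_of_nonneg_left y3 hb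
    have e : a * (δ * h) + b * (δ * h) = δ * h := by rw [← add_mul, hab, one_mul]
    linarith

theorem tth_dist {δ : ℝ} {h : ℤ} {f : ℤ × ℤ} (hδ : 0 < δ) (hf : h ≤ f.1 + f.2 + 1) {x y : ℂ}
    (hx : x ∈ Tth δ h f) (hy : y ∈ Tth δ h f) : dist x y ≤ 7 / 2 * δ := by
  obtain ⟨x1, x2, x3⟩ := hx
  obtain ⟨y1, y2, y3⟩ := hy
  have hf' : (h : ℝ) ≤ f.1 + f.2 + 1 := by exact_mod_cast hf
  have h4 := mul_le_mul_of_nonneg_left hf' hδ.le
  rw [dist_eq_norm]
  refine (Complex.norm_le_abs_re_add_abs_im _).trans ?_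
  rw [Complex.sub_re, Complex.sub_im]
  have a1 : |x.re - y.re| ≤ 7 / 4 * δ := by
    rw [abs_le]
    constructor <;> nlinarith
  have a2 : |x.im - y.im| ≤ 7 / 4 * δ := by
    rw [abs_le]
    constructor <;> nlinarith
  linarith

theorem tth_sub {δ : ℝ} {h : ℤ} {f : ℤ × ℤ} {S : Finset (ℤ × ℤ)} (hδ : 0 < δ) (hfS : f ∈ S)
    (hf : h ≤ f.1 + f.2 + 1) : Tth δ h f ⊆ E2.Om δ S := by
  rintro z ⟨x1, x2, x3⟩
  have hf' : (h : ℝ) ≤ f.1 + f.2 + 1 := by exact_mod_cast hf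
  have h4 := mul_le_mul_of_nonneg_left hf' hδ.le
  have e : z = (δ : ℂ) * (z / δ) := by
    rw [mul_div_cancel₀]
    exact_mod_cast hδ.ne'
  rw [e, E2.mem_Om hδ]
  have hre : (z / (δ : ℂ)).re = z.re / δ := by rw [Complex.div_ofReal_re]
  have him : (z / (δ : ℂ)).im = z.im / δ := by rw [Complex.div_ofReal_im]
  refine ⟨f, hfS, ?_, ?_, ?_, ?_⟩
  · rw [hre, lt_div_iff₀ hδ]; linarith
  · rw [hre, div_lt_iff₀ hδ]; nlinarith
  · rw [him, lt_div_iff₀ hδ]; linarith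
  · rw [him, div_lt_iff₀ hδ]; nlinarith

/-- the corner of a tooth -/
noncomputable def crn (δ : ℝ) (f : ℤ × ℤ) : ℂ := ⟨δ * (f.1 - 3 / 8), δ * (f.2 - 3 / 8)⟩

theorem crn_closure {δ : ℝ} {h : ℤ} {f : ℤ × ℤ} (hδ : 0 < δ) (hf : f.1 + f.2 ≤ h) :
    crn δ f ∈ closure (Tth δ h f) := by
  have hf' : (f.1 : ℝ) + f.2 ≤ h := by exact_mod_cast hf
  have h4 := mul_le_mul_of_nonneg_left hf' hδ.le
  rw [Metric.mem_closure_iff]
  intro ε hε
  set e : ℝ := min (ε / 4) (δ / 4) with he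
  have he0 : 0 < e := lt_min (by linarith) (by linarith)
  have he1 : e ≤ ε / 4 := min_le_left _ _
  have he2 : e ≤ δ / 4 := min_le_right _ _
  refine ⟨⟨δ * (f.1 - 3 / 8) + e, δ * (f.2 - 3 / 8) + e⟩, ⟨?_, ?_, ?_⟩, ?_⟩
  · show _ < δ * (f.1 - 3 / 8) + e
    linarith
  · show _ < δ * (f.2 - 3 / 8) + e
    linarith
  · show δ * (f.1 - 3 / 8) + e + (δ * (f.2 - 3 / 8) + e) ≤ _
    nlinarith
  · rw [dist_eq_norm]
    refine (Complex.norm_le_abs_re_add_abs_im _).trans_lt ?_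
    rw [Complex.sub_re, Complex.sub_im]
    show |δ * (f.1 - 3 / 8) - (δ * (f.1 - 3 / 8) + e)| + |δ * (f.2 - 3 / 8) - (δ * (f.2 - 3 / 8) + e)|
      < ε
    rw [sub_add_cancel_left, sub_add_cancel_left, abs_neg, abs_of_pos he0]
    linarith

section

variable {n : ℕ} {p : ZMod n → ℤ × ℤ} {S : Finset (ℤ × ℤ)} {k M : ℕ} {R : ℤ}

/-- The faces near the target are above the staircase. -/
theorem Loc.face_low (H : Loc p S k M R) {f : ℤ × ℤ} (hf : f ∈ S)
    (h1 : |(rf f).1 - (ro (p k)).1| + 1 ≤ R) (h2 : |(rf f).2 - (ro (p k)).2| + 1 ≤ R) :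
    (ro (p k)).2 ≤ f.1 + f.2 + 1 := by
  have h3 := (H.face_iff (odd_rf f) h1 h2).1 (by rwa [rf'_rf])
  have e : (rf f).2 = f.1 + f.2 + 1 := rfl
  rw [e] at h3
  split_ifs at h3 <;> omega

/-- the corner of a face near the target is not in the domain -/
theorem Loc.crn_notMem (H : Loc p S k M R) {δ : ℝ} (hδ : 0 < δ) {f : ℤ × ℤ}
    (hf : f.1 + f.2 ≤ (ro (p k)).2) (h1 : |(rf f).1 - (ro (p k)).1| + 3 ≤ R)
    (h2 : |(rf f).2 - (ro (p k)).2| + 3 ≤ R) : crn δ f ∉ E2.Om δ S := by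
  intro hcon
  have e : crn δ f = (δ : ℂ) * (⟨f.1 - 3 / 8, f.2 - 3 / 8⟩ : ℂ) := by
    apply Complex.ext <;> simp [crn]
  rw [e, E2.mem_Om hδ] at hcon
  obtain ⟨g, hg, a1, a2, a3, a4⟩ := hcon
  simp only at a1 a2 a3 a4
  have b1 : g.1 < f.1 := by
    have : (g.1 : ℝ) < f.1 := by linarith
    exact_mod_cast this
  have b2 : f.1 < g.1 + 2 := by
    have : (f.1 : ℝ) < g.1 + 2 := by linarith
    exact_mod_cast this
  have b3 : g.2 < f.2 := by
    have : (g.2 : ℝ) < f.2 := by linarith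
    exact_mod_cast this
  have b4 : f.2 < g.2 + 2 := by
    have : (f.2 : ℝ) < g.2 + 2 := by linarith
    exact_mod_cast this
  have c1 : g.1 = f.1 - 1 := by omega
  have c2 : g.2 = f.2 - 1 := by omega
  have e1 : (rf g).1 = (rf f).1 := by simp only [rf, c1, c2]; ring
  have e2 : (rf g).2 = (rf f).2 - 2 := by simp only [rf, c1, c2]; ring
  have h3 := H.face_low hg (by rw [e1]; linarith) (by
    rw [e2]
    rw [← le_sub_iff_add_le, abs_le] at h2 ⊢
    constructor <;> linarith)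
  omega

end

section

variable {Φ : (ℝ × ℝ) ≃ₜ (ℝ × ℝ)} {ψ : ℂ → ℂ} {δ : ℕ → ℝ} {N k : ℕ → ℕ}
  {p : ∀ n, ZMod (N n) → ℤ × ℤ} {S : ℕ → Finset (ℤ × ℤ)} {ψn : ℕ → ℂ → ℂ}

/-- **[TEETH]** in every frame, two radii -/
theorem teeth_two (H : Set6 Φ ψ δ N k p S ψn) {r : ℝ} (hr : 0 < r)
    (hst : ∀ᶠ n in atTop, ∀ m : ℕ, m * δ n ≤ r →
      p n ((k n : ZMod (N n)) + m + 1) =
        p n ((k n : ZMod (N n)) + m) + (if Even m then dir 3 else dir 0) ∧
      p n ((k n : ZMod (N n)) - m) =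
        p n ((k n : ZMod (N n)) - m - 1) + (if Even m then dir 3 else dir 0)) :
    ∃ ρ : ℝ, 0 < ρ ∧ ∀ ra rb : ℝ, 0 < ra → ra < rb → rb ≤ ρ → ∀ᶠ n in atTop,
      ∀ (v₀ : ℤ × ℤ) (x : ℝ), En (fr (δ n) v₀) (bl δ N k p n) = (x : ℂ) →
      ∃ (ι : Type) (_ : Finite ι) (K : ι → Set ℂ),
        (∀ i, K i ⊆ psr (δ n) v₀ (ψn n) '' HH) ∧
        (∀ i, K i ⊆ Bf x rb) ∧ (∀ i, IsPreconnected (K i)) ∧
        (∀ i, ∀ z ∈ K i, ∀ y ∈ K i, dist z y ≤ 8 * H446.G.dl (δ n)) ∧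
        (∀ i, ∀ z ∈ K i, z.im ≤ 0) ∧
        (∀ i, ∃ z ∈ closure (K i), z ∉ psr (δ n) v₀ (ψn n) '' HH) ∧
        (∀ z ∈ psr (δ n) v₀ (ψn n) '' HH,
          z ∈ Bf x ra → z.im ≤ 0 → ∃ i, z ∈ K i) := by
  classical
  have h2 := sqrt2_pos
  obtain ⟨ρL, hρL, hLoc⟩ := loc_of H.appr hr hst
  refine ⟨ρL / 16, by linarith, fun ra r' hra hrr hr'L => ?_⟩
  have hδ0 : ∀ᶠ n in atTop, δ n < min (ρL / 80) ((r' - ra) / 4) :=
    H.appr.2.1.eventually (gt_mem_nhds (lt_min (by linarith) (by linarith)))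
  filter_upwards [hLoc, hδ0] with n hLoc hδ0 v₀ x hb
  obtain ⟨M, HL⟩ := hLoc
  have hδ : 0 < δ n := (H.appr.1 n).1
  have hδ1 : δ n < ρL / 80 := hδ0.trans_le (min_le_left _ _)
  have hδ2 : δ n < (r' - ra) / 4 := hδ0.trans_le (min_le_right _ _)
  have hk : k n + 1 < N n := by
    have := HL.hk2
    omega
  have himg := img_HH H hk
  set t : ℂ := fr (δ n) v₀ with ht
  have hD : psr (δ n) v₀ (ψn n) '' HH = En t '' E2.Om (δ n) (S n) := by
    rw [psr_img, himg]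
  have hdl : H446.G.dl (δ n) * Real.sqrt 2 = δ n := by
    unfold H446.G.dl
    rw [div_mul_cancel₀ _ h2.ne']
  have hfl : ρL < δ n * ((⌊ρL / δ n⌋ : ℝ) + 1) := by
    have := Int.lt_floor_add_one (ρL / δ n)
    rw [div_lt_iff₀ hδ] at this
    linarith
  have hbre : (bl δ N k p n).re = δ n * (p n (k n)).1 := bl_re n
  have hbim : (bl δ N k p n).im = δ n * (p n (k n)).2 := bl_im n
  have hhb : (bl δ N k p n).re + (bl δ N k p n).im = δ n * ((ro (p n (k n))).2 : ℝ) := height_bl n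
  -- near faces
  have hnear : ∀ f : ℤ × ℤ, |δ n * f.1 - (bl δ N k p n).re| + |δ n * f.2 - (bl δ N k p n).im| ≤ ρL / 2 →
      |(rf f).1 - (ro (p n (k n))).1| + 3 ≤ ⌊ρL / δ n⌋ + 2 ∧
      |(rf f).2 - (ro (p n (k n))).2| + 3 ≤ ⌊ρL / δ n⌋ + 2 := by
    intro f hf
    have a1 := abs_le.1 (show |δ n * f.1 - (bl δ N k p n).re| ≤ _ from le_rfl)
    have a2 := abs_le.1 (show |δ n * f.2 - (bl δ N k p n).im| ≤ _ from le_rfl)
    rw [hbre] at a1 hf
    rw [hbim] at a2 hf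
    have key : ∀ a b : ℤ, δ n * (a : ℝ) ≤ δ n * (b : ℝ) → a ≤ b := by
      intro a b h
      exact_mod_cast le_of_mul_le_mul_left h hδ
    simp only [rf, ro]
    have hfl' : ρL - δ n < δ n * (⌊ρL / δ n⌋ : ℝ) := by linarith
    constructor
    · have h5 : |f.1 - f.2 - ((p n (k n)).1 - (p n (k n)).2)| ≤ ⌊ρL / δ n⌋ - 1 := by
        rw [abs_le]
        refine ⟨key _ _ ?_, key _ _ ?_⟩ <;> push_cast <;> linarith
      linarith
    · have h5 : |f.1 + f.2 + 1 - ((p n (k n)).1 + (p n (k n)).2)| ≤ ⌊ρL / δ n⌋ - 1 := by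
        rw [abs_le]
        refine ⟨key _ _ ?_, key _ _ ?_⟩ <;> push_cast <;> linarith
      linarith
  set hgt : ℤ := (ro (p n (k n))).2 with hhgt
  set P : Set (ℤ × ℤ) := {f | f ∈ S n ∧ f.1 + f.2 ≤ hgt ∧ hgt ≤ f.1 + f.2 + 1 ∧
    En t '' Tth (δ n) hgt f ⊆ Bf x r'} with hP
  have hfin : P.Finite := (S n).finite_toSet.subset fun f hf => hf.1
  refine ⟨P, hfin.to_subtype, fun f => En t '' Tth (δ n) hgt f.1, ?_, ?_, ?_, ?_, ?_, ?_, ?_⟩
  · intro f
    rw [hD]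
    exact image_mono (tth_sub hδ f.2.1 f.2.2.2.1)
  · exact fun f => f.2.2.2.2
  · exact fun f => (tth_convex _ _ _).isPreconnected.image _ (continuous_En _).continuousOn
  · rintro f _ ⟨u, hu, rfl⟩ _ ⟨v, hv, rfl⟩
    rw [dist_En]
    refine (tth_dist hδ f.2.2.2.1 hu hv).trans ?_
    have h3 : Real.sqrt 2 ≤ 3 / 2 := by
      rw [Real.sqrt_le_left (by norm_num)]
      norm_num
    have h4 : 0 < H446.G.dl (δ n) := dl_pos hδ
    nlinarith
  · rintro f _ ⟨u, hu, rfl⟩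
    have e : (En t u).im = (En t u - En t (bl δ N k p n)).im := by
      rw [hb, Complex.sub_im, Complex.ofReal_im, sub_zero]
    rw [e, en_im]
    refine div_nonpos_of_nonpos_of_nonneg ?_ h2.le
    rw [Complex.sub_re, Complex.sub_im]
    have := hu.2.2
    linarith
  · intro f
    have hcl := crn_closure hδ f.2.2.1
    refine ⟨En t (crn (δ n) f.1), ?_, ?_⟩
    · exact mem_closure_image (continuous_En t).continuousAt hcl
    · rw [hD]
      rintro ⟨y, hy, hye⟩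
      have hyc : y = crn (δ n) f.1 := by
        have h5 : dist (En t y) (En t (crn (δ n) f.1)) = 0 := by rw [hye, dist_self]
        rw [dist_En] at h5
        exact eq_of_dist_eq_zero h5
      rw [hyc] at hy
      -- a point of the tooth near the corner
      rw [Metric.mem_closure_iff] at hcl
      obtain ⟨z, hz, hzd⟩ := hcl (δ n) hδ
      have h6 := dist_of_Bf hb (f.2.2.2.2 (mem_image_of_mem _ hz))
      have h7 : dist (crn (δ n) f.1) (bl δ N k p n) < 2 * r' + δ n :=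
        (dist_triangle _ z _).trans_lt (by linarith)
      have h8 := l1_le h7.le
      have h9 : |δ n * f.1.1 - (bl δ N k p n).re| + |δ n * f.1.2 - (bl δ N k p n).im| ≤ ρL / 2 := by
        have e1 : |δ n * f.1.1 - (bl δ N k p n).re| ≤
            |(crn (δ n) f.1).re - (bl δ N k p n).re| + 3 / 8 * δ n := by
          have : δ n * f.1.1 - (bl δ N k p n).re =
              ((crn (δ n) f.1).re - (bl δ N k p n).re) + 3 / 8 * δ n := by
            simp only [crn]; ring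
          rw [this]
          refine (abs_add_le _ _).trans ?_
          rw [abs_of_pos (show 0 < 3 / 8 * δ n by linarith)]
        have e2 : |δ n * f.1.2 - (bl δ N k p n).im| ≤
            |(crn (δ n) f.1).im - (bl δ N k p n).im| + 3 / 8 * δ n := by
          have : δ n * f.1.2 - (bl δ N k p n).im =
              ((crn (δ n) f.1).im - (bl δ N k p n).im) + 3 / 8 * δ n := by
            simp only [crn]; ring
          rw [this]
          refine (abs_add_le _ _).trans ?_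
          rw [abs_of_pos (show 0 < 3 / 8 * δ n by linarith)]
        linarith
      obtain ⟨g1, g2⟩ := hnear _ h9
      exact HL.crn_notMem hδ f.2.2.1 g1 g2 hy
  · rw [hD]
    rintro _ ⟨z, hz, rfl⟩ hzB hzi
    have h6 := dist_of_Bf hb hzB
    have h8 := l1_le h6.le
    have e : (En t z).im = (En t z - En t (bl δ N k p n)).im := by
      rw [hb, Complex.sub_im, Complex.ofReal_im, sub_zero]
    rw [e, en_im, div_le_iff₀ h2, zero_mul, Complex.sub_re, Complex.sub_im] at hzi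
    have e2 : z = (δ n : ℂ) * (z / δ n) := by
      rw [mul_div_cancel₀]
      exact_mod_cast hδ.ne'
    have hz' := hz
    rw [e2, E2.mem_Om hδ] at hz'
    obtain ⟨f, hf, a1, a2, a3, a4⟩ := hz'
    rw [Complex.div_ofReal_re, lt_div_iff₀ hδ] at a1
    rw [Complex.div_ofReal_re, div_lt_iff₀ hδ] at a2
    rw [Complex.div_ofReal_im, lt_div_iff₀ hδ] at a3
    rw [Complex.div_ofReal_im, div_lt_iff₀ hδ] at a4
    have hfS : f ∈ S n := hf
    have b1 : f.1 + f.2 ≤ hgt := by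
      have h9 : δ n * ((f.1 : ℝ) + f.2) < δ n * ((hgt : ℝ) + 1) := by nlinarith
      have h10 : (f.1 : ℝ) + f.2 < (hgt : ℝ) + 1 := lt_of_mul_lt_mul_left h9 hδ.le
      have h11 : f.1 + f.2 < hgt + 1 := by exact_mod_cast h10
      omega
    have h9 : |δ n * f.1 - (bl δ N k p n).re| + |δ n * f.2 - (bl δ N k p n).im| ≤ ρL / 2 := by
      have e1 : |δ n * f.1 - (bl δ N k p n).re| ≤ |z.re - (bl δ N k p n).re| + 2 * δ n := by
        have : δ n * f.1 - (bl δ N k p n).re = (z.re - (bl δ N k p n).re) + (δ n * f.1 - z.re) := by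
          ring
        rw [this]
        refine (abs_add_le _ _).trans ?_
        have : |δ n * f.1 - z.re| ≤ 2 * δ n := by
          rw [abs_le]
          constructor <;> linarith
        linarith
      have e2 : |δ n * f.2 - (bl δ N k p n).im| ≤ |z.im - (bl δ N k p n).im| + 2 * δ n := by
        have : δ n * f.2 - (bl δ N k p n).im = (z.im - (bl δ N k p n).im) + (δ n * f.2 - z.im) := by
          ring
        rw [this]
        refine (abs_add_le _ _).trans ?_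
        have : |δ n * f.2 - z.im| ≤ 2 * δ n := by
          rw [abs_le]
          constructor <;> linarith
        linarith
      linarith
    obtain ⟨g1, g2⟩ := hnear _ h9
    have b2 : hgt ≤ f.1 + f.2 + 1 := HL.face_low hfS (by linarith) (by linarith)
    have hzT : z ∈ Tth (δ n) hgt f := ⟨by linarith, by linarith, by linarith⟩
    refine ⟨⟨f, hfS, b1, b2, ?_⟩, mem_image_of_mem _ hzT⟩
    rintro _ ⟨u, hu, rfl⟩
    have h10 := tth_dist hδ b2 hu hzT
    rw [mem_Bf hb] at hzB ⊢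
    obtain ⟨c1, c2⟩ := hzB
    have e3 : rtc * (u - bl δ N k p n) = rtc * (u - z) + rtc * (z - bl δ N k p n) := by ring
    have h11 : ‖rtc * (u - z)‖ ≤ 7 / 2 * δ n := by
      rw [norm_mul, norm_rtc, one_mul, ← dist_eq_norm]
      exact h10
    have h12 := (Complex.abs_re_le_norm (rtc * (u - z))).trans h11
    have h13 := (Complex.abs_im_le_norm (rtc * (u - z))).trans h11
    rw [e3, Complex.add_re, Complex.add_im]
    constructor
    · refine (abs_add_le _ _).trans_lt ?_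
      linarith
    · refine (abs_add_le _ _).trans_lt ?_
      linarith

/-- **[TEETH]** in every frame -/
theorem teeth_gen (H : Set6 Φ ψ δ N k p S ψn) {r : ℝ} (hr : 0 < r)
    (hst : ∀ᶠ n in atTop, ∀ m : ℕ, m * δ n ≤ r →
      p n ((k n : ZMod (N n)) + m + 1) =
        p n ((k n : ZMod (N n)) + m) + (if Even m then dir 3 else dir 0) ∧
      p n ((k n : ZMod (N n)) - m) =
        p n ((k n : ZMod (N n)) - m - 1) + (if Even m then dir 3 else dir 0)) :
    ∃ ρ : ℝ, 0 < ρ ∧ ∀ rf : ℝ, 0 < rf → rf ≤ ρ → ∀ᶠ n in atTop,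
      ∀ (v₀ : ℤ × ℤ) (x : ℝ), En (fr (δ n) v₀) (bl δ N k p n) = (x : ℂ) →
      ∃ (ι : Type) (_ : Finite ι) (K : ι → Set ℂ),
        (∀ i, K i ⊆ psr (δ n) v₀ (ψn n) '' HH) ∧
        (∀ i, K i ⊆ Bf x rf) ∧ (∀ i, IsPreconnected (K i)) ∧
        (∀ i, ∀ z ∈ K i, ∀ y ∈ K i, dist z y ≤ 8 * H446.G.dl (δ n)) ∧
        (∀ i, ∀ z ∈ K i, z.im ≤ 0) ∧
        (∀ i, ∃ z ∈ closure (K i), z ∉ psr (δ n) v₀ (ψn n) '' HH) ∧
        (∀ z ∈ psr (δ n) v₀ (ψn n) '' HH,
          z ∈ Bf x (rf / 2) → z.im ≤ 0 → ∃ i, z ∈ K i) := by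
  obtain ⟨ρ, hρ, h⟩ := teeth_two H hr hst
  exact ⟨ρ, hρ, fun rf h1 h2 => h (rf / 2) rf (by linarith) (by linarith) h2⟩

/-- **[TEETH]** in the frame of `vd` -/
theorem teeth (H : Set6 Φ ψ δ N k p S ψn) {r : ℝ} (hr : 0 < r)
    (hst : ∀ᶠ n in atTop, ∀ m : ℕ, m * δ n ≤ r →
      p n ((k n : ZMod (N n)) + m + 1) =
        p n ((k n : ZMod (N n)) + m) + (if Even m then dir 3 else dir 0) ∧
      p n ((k n : ZMod (N n)) - m) =
        p n ((k n : ZMod (N n)) - m - 1) + (if Even m then dir 3 else dir 0)) :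
    ∃ ρ : ℝ, 0 < ρ ∧ ∀ rf : ℝ, 0 < rf → rf ≤ ρ → ∀ᶠ n in atTop, ∀ L s : ℝ,
      ∃ (ι : Type) (_ : Finite ι) (K : ι → Set ℂ),
        (∀ i, K i ⊆ psr (δ n) (vd (p n) (k n) L s (δ n)) (ψn n) '' HH) ∧
        (∀ i, K i ⊆ Bf (xbf L s (δ n)) rf) ∧ (∀ i, IsPreconnected (K i)) ∧
        (∀ i, ∀ x ∈ K i, ∀ y ∈ K i, dist x y ≤ 8 * H446.G.dl (δ n)) ∧
        (∀ i, ∀ x ∈ K i, x.im ≤ 0) ∧
        (∀ i, ∃ x ∈ closure (K i), x ∉ psr (δ n) (vd (p n) (k n) L s (δ n)) (ψn n) '' HH) ∧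
        (∀ z ∈ psr (δ n) (vd (p n) (k n) L s (δ n)) (ψn n) '' HH,
          z ∈ Bf (xbf L s (δ n)) (rf / 2) → z.im ≤ 0 → ∃ i, z ∈ K i) := by
  obtain ⟨ρ, hρ, h⟩ := teeth_gen H hr hst
  refine ⟨ρ, hρ, fun rf h1 h2 => ?_⟩
  filter_upwards [h rf h1 h2] with n h5 L s
  exact h5 _ _ (en_b (p n) (k n) L s (δ n))

end

end Vale.Agent.P167.H918
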